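/-
Row 242 (S0480), package LIFT (the two global lifts: fields `lift32` and `mono.(LT)` of `Core/Iface`).
Architect: helper110.

Defs: the explicit weights, the cut-off functions, the LOCAL LIFTING DATUM `LocLift`, universal weights `UWt`, the principle `GlobLift`,
monomial leaves `MLeaf`.

STRUCTURE OF THE PACKAGE
  Lift/Defs     definitions (this file)
  Lift/Weights  Wirtinger calculus of the weights `wtO`, `wtT` (smooth, psh, Poincare lower bound, homogeneity, bounds)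
  Lift/Cutoff   the cut-offs `chiP`, `chiT` and the estimate of `dbar`
  Lift/Ord      LIFT 1 (Prop 3.2):  good configuration of initial exponents  ==> `LocLift` for `wtO`
  Lift/Cone     the convex geometry of the final lift (compactness on a simplex; Mathlib only)
  Lift/Trop     LIFT 2 (final lift): monomial leaves + cone hypothesis ==> `LocLift` for `wtT`
  Lift/Bridge   `GlobLift` ==> the clauses `Lift32Clause`, `LTClause` of `Loc/Clauses`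
  Lift/Global   `GlobLift` for the local realisation of a `Model`   (HOR + `Model.global` of ANAD)

NOTATION.  `ξ : ι → ℂ` = values of the sections `s_i` of `mL` in a frame, `ζ : Fin (n+1) → ℂ` = values of
`σ_0, σ_1 + C σ_0, .., σ_n + C σ_0` (sections of `k₀ L`, `σ_j = z_j σ_0`, `σ_0` without zero near `x`; `C = r₀`, so that none of them vanishes near `x`).
  lgs ζ = log |ζ|²,   lsq ξ = log ∑ |ξ_l|²,   refT = log (∑_l |ξ_l|² + |ζ_0|^(2μ))  (μ = m / k₀: a weight of degree `m`, bounded near `x`),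
  pL i = 1 + refT - lgs ξ_i  (≥ 1; equal to `- log |s_i|² + O(1)` near `x`).
-/
import Claimed.Agent.R242.SCV.Main
import Claimed.Agent.R242.SCV.WirtB
import Claimed.Agent.R242.SCV.MVP
import Claimed.Agent.R242.SCV.Howald
import Claimed.Agent.R242.Loc.Defs

set_option autoImplicit false

open MeasureTheory Complex Metric
open scoped ContDiff ComplexConjugate ENNReal Topology

namespace Claimed.Agent.R242

variable {n : ℕ}

/-- `g` is holomorphic near `z`. -/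
def HolAt (g : Cn n → ℂ) (z : Cn n) : Prop := ∀ᶠ y in 𝓝 z, DifferentiableAt ℂ g y

/-- `∂u · a = ∑_j ∂_j u a_j` for a real function `u`. -/
noncomputable def dAr (u : Cn n → ℝ) (z a : Cn n) : ℂ := ∑ j, dz j (fun y => (u y : ℂ)) z * a j

/-- `∂̄g · ā = ∑_j ∂̄_j g ā_j`. -/
noncomputable def dAb (g : Cn n → ℂ) (z a : Cn n) : ℂ := ∑ j, dzb j g z * conj (a j)

section Weights

variable {ι : Type*} [Fintype ι]

/-- `log |ζ|²` -/
noncomputable def lgs (ζ : ℂ) : ℝ := Real.log (‖ζ‖ ^ 2)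

/-- `log ∑ |ξ_l|²` -/
noncomputable def lsq (ξ : ι → ℂ) : ℝ := Real.log (∑ l, ‖ξ l‖ ^ 2)

/-- the reference weight `log (∑_l |ξ_l|² + |ζ₀|^(2μ))` -/
noncomputable def refT (μ : ℝ) (ξ : ι → ℂ) (ζ₀ : ℂ) : ℝ :=
  Real.log (∑ l, Real.exp (lgs (ξ l)) + Real.exp (μ * lgs ζ₀))

/-- the Poincare function `L_i = 1 + refT - log |ξ_i|²` -/
noncomputable def pL (μ : ℝ) (ξ : ι → ℂ) (ζ₀ : ℂ) (i : ι) : ℝ := 1 + refT μ ξ ζ₀ - lgs (ξ i)

/-- the isolating term `log ∑_{q_i > 0} |ξ_i|^(2/q_i) |ζ₀|^(2 ν_i)`. -/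
noncomputable def isoT (q ν : ι → ℝ) (ξ : ι → ℂ) (ζ₀ : ℂ) : ℝ :=
  Real.log (∑ i ∈ Finset.univ.filter (fun i => 0 < q i), Real.exp (lgs (ξ i) / q i + ν i * lgs ζ₀))

/-- the weight of the final lift. -/
noncomputable def wtT (μ : ℝ) (b q ν : ι → ℝ) (η ε c : ℝ) (ξ : ι → ℂ) (ζ : Fin (n + 1) → ℂ) : ℝ :=
  (1 - η) * ∑ i, b i * lgs (ξ i) + η * isoT q ν ξ (ζ 0)
    + ε * ∑ i, (refT μ ξ (ζ 0) - Real.log (pL μ ξ (ζ 0) i)) + c * lsq ζ

/-- the weight of the lift of Proposition 3.2. -/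
noncomputable def wtO (h c : ℝ) (ξ : ι → ℂ) (ζ : Fin (n + 1) → ℂ) : ℝ :=
  1 / h * lsq ξ + c * lsq ζ

/-- the linear functional `(1-η) ∑ b_i' ℓ_i' + η ℓ_i / q_i` (order of the singular weight along a profile `ℓ`) -/
noncomputable def lamI (b q : ι → ℝ) (η : ℝ) (i : ι) (l : ι → ℝ) : ℝ :=
  (1 - η) * ∑ i', b i' * l i' + η * (l i / q i)

/-- the values of `σ_0, σ_1 + C σ_0, .., σ_n + C σ_0` at the point `z` of the chart: `e z * (1, z_1 + C, .., z_n + C)`.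
(With `C = r₀` none of them vanishes on `ball 0 r₀`.) -/
noncomputable def zetaOf (C : ℂ) (e : Cn n → ℂ) (z : Cn n) : Fin (n + 1) → ℂ :=
  Fin.cons (e z) (fun j => (z j + C) * e z)

/-- homogeneous weight of degree `mm` in the values of sections of degrees `d i`, with at most logarithmic growth. -/
structure HWt (d : ι → ℕ) (mm : ℝ) (Φ : (ι → ℂ) → ℝ) : Prop where
  homog : ∀ (t : ℂ) (ξ : ι → ℂ), t ≠ 0 → (∀ i, ξ i ≠ 0) →
    Φ (fun i => t ^ d i * ξ i) = Φ ξ + mm * Real.log (‖t‖ ^ 2)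
  upper : ∃ C E : ℝ, ∀ ξ : ι → ℂ, (∀ i, ξ i ≠ 0) → Φ ξ ≤ C + E * Real.log (1 + ∑ i, ‖ξ i‖ ^ 2)

/-- **universal weight**: homogeneous, smooth and psh along every tuple of holomorphic functions without zeros. -/
structure UWt (n : ℕ) (d : ι → ℕ) (mm : ℝ) (Φ : (ι → ℂ) → ℝ) : Prop extends HWt d mm Φ where
  smooth : ∀ (z : Cn n) (f : ι → Cn n → ℂ), (∀ i, HolAt (f i) z) → (∀ i, f i z ≠ 0) →
    ContDiffAt ℝ ∞ (fun y => Φ fun i => f i y) z
  psh : ∀ (z : Cn n) (f : ι → Cn n → ℂ), (∀ i, HolAt (f i) z) → (∀ i, f i z ≠ 0) →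
    ∀ a, 0 ≤ levi (fun y => Φ fun i => f i y) z a

end Weights

section Cutoff

/-- `1` for `x ≤ δ²/4`, `0` for `x ≥ δ²`. -/
noncomputable def thS (δ x : ℝ) : ℝ := Real.smoothTransition ((δ ^ 2 - x) / (3 / 4 * δ ^ 2))

/-- smooth even bump: `1` for `|τ| ≤ δ/2`, `0` for `|τ| ≥ δ`. -/
noncomputable def thB (δ τ : ℝ) : ℝ := thS δ (τ ^ 2)

/-- ordinary cut-off on the polydisc with polyradius `ρ`: `1` if all `|z_j| ≤ ρ_j/2`, `0` if some `|z_j| ≥ ρ_j`. -/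
noncomputable def chiP (ρ : Fin n → ℝ) (z : Cn n) : ℝ := ∏ j, thS (ρ j) (‖z j‖ ^ 2)

variable {ι : Type*} [Fintype ι]

/-- the spread of the profile `(L_i)` with respect to the ray `ℝ q`. -/
noncomputable def spr (μ : ℝ) (q : ι → ℝ) (i₀ : ι) (ξ : ι → ℂ) (ζ₀ : ℂ) (i : ι) : ℝ :=
  pL μ ξ ζ₀ i / pL μ ξ ζ₀ i₀ - q i / q i₀

/-- the tropical cut-off -/
noncomputable def chiT (μ : ℝ) (q : ι → ℝ) (i₀ : ι) (δ : ℝ) (ξ : ι → ℂ) (ζ₀ : ℂ) : ℝ :=
  ∏ i, thB δ (spr μ q i₀ ξ ζ₀ i)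

end Cutoff

/-- **Local lifting datum** on `D0 ⊆ ball 0 r0` (`D0` = the ball minus the zero sets of the sections that occur in `φ`):
a cut-off `g` (`= 1` on a set where `e^{-φ}` is not integrable near `0`), whose `∂̄` is controlled by the Levi form of `φ`. -/
def LocLift (r0 : ℝ) (D0 : Set (Cn n)) (φ : Cn n → ℝ) : Prop :=
  ∃ (g : Cn n → ℂ) (B : Cn n → ℝ) (r1 : ℝ), 0 < r1 ∧ r1 < r0 ∧
    ContDiffOn ℝ ∞ g D0 ∧ (∀ z, ‖g z‖ ≤ 1) ∧ (∀ z, r1 ≤ ‖z‖ → g z = 0) ∧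
    Measurable B ∧ (∀ z, 0 ≤ B z) ∧
    (∀ z ∈ D0, ∀ a : Cn n, ‖dAb g z a‖ ^ 2 ≤ B z * levi φ z a) ∧
    ∫⁻ z in D0, ENNReal.ofReal (B z * Real.exp (-φ z)) < ⊤ ∧
    ∀ r : ℝ, 0 < r → ∫⁻ z in {z | z ∈ D0 ∧ ‖z‖ < r ∧ g z = 1}, ENNReal.ofReal (Real.exp (-φ z)) = ⊤

/-- **The global lifting principle** for a local realisation `L` of the sections: a local lifting datum for a universal weight of degree
`mm` in the values of finitely many nonzero sections gives `Gen` (= "`K_X + mm L` is generated at `x`"). -/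
def LocReal.GlobLift {K : Type*} [Field K] [Algebra ℂ K] {S : SecRing K} (L : LocReal S n) (mm : ℕ)
    (Gen : Prop) : Prop :=
  ∀ (ι : Type) [Fintype ι] (d : ι → ℕ) (s : ι → K) (Φ : (ι → ℂ) → ℝ),
    (∀ i, s i ∈ S.R (d i)) → (∀ i, s i ≠ 0) → UWt n d mm Φ →
    LocLift L.r₀ {z | z ∈ ball (0 : Cn n) L.r₀ ∧ ∀ i, L.hol (d i) (s i) z ≠ 0}
      (fun z => Φ fun i => L.hol (d i) (s i) z) → Gen

/-- A monomial chart for a family of functions `f i` (a leaf of LM, or an `MChart` in which the `f i` are monomial). -/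
structure MLeaf (n : ℕ) (ι : Type*) where
  ρ : ℝ
  σ : Cn n → Cn n
  /-- exponents of the Jacobian -/
  k : Fin n → ℕ
  /-- exponents of the functions: `f i ∘ σ = unit * ∏_j y_j^(o j i)` -/
  o : Fin n → ι → ℕ
  UJ : Cn n → ℂ
  U : ι → Cn n → ℂ
  /-- sets of injectivity -/
  nA : ℕ
  A : Fin nA → Set (Cn n)

/-- the leaf monomialises the functions `f i` (defined on `ball 0 r0`). -/
structure MLeaf.Good {ι : Type*} (𝔩 : MLeaf n ι) (r0 : ℝ) (f : ι → Cn n → ℂ) : Prop where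
  ρ_pos : 0 < 𝔩.ρ
  hol : DifferentiableOn ℂ 𝔩.σ (ball 0 𝔩.ρ)
  maps : ∀ y ∈ ball (0 : Cn n) 𝔩.ρ, 𝔩.σ y ∈ ball (0 : Cn n) r0
  jac : ∀ y ∈ ball (0 : Cn n) 𝔩.ρ, cjac 𝔩.σ y = 𝔩.UJ y * ∏ j, y j ^ 𝔩.k j
  UJ_cont : ContinuousOn 𝔩.UJ (ball 0 𝔩.ρ)
  UJ_ne : ∀ y ∈ ball (0 : Cn n) 𝔩.ρ, 𝔩.UJ y ≠ 0
  mono : ∀ i, ∀ y ∈ ball (0 : Cn n) 𝔩.ρ, f i (𝔩.σ y) = 𝔩.U i y * ∏ j, y j ^ 𝔩.o j i
  U_cont : ∀ i, ContinuousOn (𝔩.U i) (ball 0 𝔩.ρ)
  U_ne : ∀ i, ∀ y ∈ ball (0 : Cn n) 𝔩.ρ, 𝔩.U i y ≠ 0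
  A_meas : ∀ a, MeasurableSet (𝔩.A a)
  A_inj : ∀ a, Set.InjOn 𝔩.σ (𝔩.A a)
  A_cov : ∀ y ∈ ball (0 : Cn n) 𝔩.ρ, cjac 𝔩.σ y ≠ 0 → ∃ a, y ∈ 𝔩.A a

/-- ADMISSIBLE support: the stratum `{y_j = 0, j ∈ J}` meets the fibre over `0` in the compact part of the leaf. -/
def MLeaf.Adm {ι : Type*} (𝔩 : MLeaf n ι) (J : Finset (Fin n)) : Prop :=
  ∃ c ∈ closedBall (0 : Cn n) (𝔩.ρ / 2), 𝔩.σ c = 0 ∧ ∀ j ∈ J, c j = 0

/-- CONTRACTED support: the leaf map sends the stratum `{y_j = 0, j ∈ J}` to `0`. -/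
def MLeaf.Ctr {ι : Type*} (𝔩 : MLeaf n ι) (J : Finset (Fin n)) : Prop :=
  ∀ y ∈ ball (0 : Cn n) 𝔩.ρ, (∀ j ∈ J, y j = 0) → 𝔩.σ y = 0

/-- **the cone hypothesis** (numerical form of the last hypothesis of (LT)) for exponents `k`, `o`:
every weight vector with admissible support whose order vector lies in the `θ`-cone around `q` is either strictly integrable
or exactly proportional to `q` with contracted support. -/
def ConeHyp {N : ℕ} (k : Fin n → ℕ) (o : Fin n → Fin N → ℕ) (b q : Fin N → ℝ) (η θ : ℝ)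
    (Adm Ctr : Finset (Fin n) → Prop) : Prop :=
  ∀ u : Fin n → ℝ, (∀ j, 0 ≤ u j) → u ≠ 0 → Adm (wsupp u) →
    (∃ μ : ℝ, 0 < μ ∧ ∀ i, |ow o u i - μ * q i| ≤ θ * μ) →
    (∃ i, 0 < q i ∧ lamI b q η i (ow o u) < disc k u) ∨
    ((∀ i, ow o u i = disc k u * q i) ∧ Ctr (wsupp u))

end Claimed.Agent.R242

/-! equation lemmas of this file, cited once here (rule 6) -/
namespace Claimed.Agent.R242

theorem r242_eqcite_Lift_Defs : True := by
  have := @Claimed.Agent.R242.MLeaf.Adm.eq_1.{0}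
  have := @Claimed.Agent.R242.dAb.eq_1
  have := @Claimed.Agent.R242.wtO.eq_1.{0}
  have := @Claimed.Agent.R242.refT.eq_1.{0}
  have := @Claimed.Agent.R242.thS.eq_1
  have := @Claimed.Agent.R242.lgs.eq_1
  have := @Claimed.Agent.R242.chiT.eq_1.{0}
  have := @Claimed.Agent.R242.zetaOf.eq_1
  have := @Claimed.Agent.R242.wtT.eq_1.{0}
  have := @Claimed.Agent.R242.dAr.eq_1
  have := @Claimed.Agent.R242.spr.eq_1.{0}
  have := @Claimed.Agent.R242.pL.eq_1.{0}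
  have := @Claimed.Agent.R242.ConeHyp.eq_1
  have := @Claimed.Agent.R242.chiP.eq_1
  have := @Claimed.Agent.R242.lsq.eq_1.{0}
  have := @Claimed.Agent.R242.LocReal.GlobLift.eq_1.{0}
  have := @Claimed.Agent.R242.thB.eq_1
  have := @Claimed.Agent.R242.HolAt.eq_1
  have := @Claimed.Agent.R242.MLeaf.Ctr.eq_1.{0}
  have := @Claimed.Agent.R242.isoT.eq_1.{0}
  have := @Claimed.Agent.R242.lamI.eq_1.{0}
  have := @Claimed.Agent.R242.LocLift.eq_1
  trivial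

end Claimed.Agent.R242
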