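/-
Row 242 (S0480), package LIFT.  Cone: the convex geometry of the final lift.      Architect: helper110.
Paper-free, Mathlib only (+ the definitions `disc`, `ow`, `wsupp` of `Core/Iface`, `lamI`, `ConeHyp` of `Lift/Defs`).

  disc k u = ∑_j u_j (1 + k_j),   ow o u i = ∑_j u_j o_{j i},   wsupp u = {j | u_j ≠ 0},
  lamI b q η i l = (1-η) ∑_{i'} b_{i'} l_{i'} + η l_i / q_i.        All are linear in `u` (resp. `l`).

LEAVES
  LIFT-K-A : `cone_simplex`     (compactness of the simplex)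
  LIFT-K-B : `cone_gap`         (homogeneity + perturbation), from `cone_simplex`

PLAN of `cone_simplex` (by contradiction, sequential compactness).  If the claim fails, then for every `m : ℕ` (take `κ = c = 1/(m+1)`) there is `v_m ≥ 0`, `∑ v_m = 1`,
 `Adm (wsupp v_m)`, in the closed cone `(C) : ∀ i, |ow v i * q i₀ - ow v i₀ * q i| ≤ 2 δ q i₀ * ow v i₀`, for which both alternatives fail.
 The simplex is compact (`isCompact_stdSimplex`, or closed and bounded in `Fin n → ℝ`): a subsequence converges to `v`, `v ≥ 0`, `∑ v = 1` (so `v ≠ 0`, `disc k v ≥ 1`).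
 * `wsupp v ⊆ wsupp v_m` for large `m` (a nonzero limit coordinate is eventually nonzero), so `Adm (wsupp v)` by `hAdm`.
 * `(C)` holds for `v` (closed condition), and `disc k v ≤ lamI b q η i (ow o v)` for all `i` with `0 < q i` (limit of `disc k v_m - 1/(m+1) < lamI ..`).
 * if `ow o v i₀ = 0` then `(C)` gives `ow o v i = 0` for all `i`, so `lamI .. i₀ (ow o v) = 0 < 1 ≤ disc k v`: contradiction.
   So `μ := ow o v i₀ / q i₀ > 0` and `|ow o v i - μ q i| ≤ 2 δ q i₀ μ ≤ θ μ`: `H` applies to `v`; the strict alternative is excluded, so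
   `ow o v i = disc k v * q i` for all `i` and `Ctr (wsupp v)`.
 * Then for large `m`: `v_m j ≥ v j / 2 ≥ 1/(m+1)` for `j ∈ wsupp v`; `ow o v_m i₀ → disc k v * q i₀ ≥ q i₀`, so `≥ q i₀ / 2`;
   `|ow v_m i * q i₀ - ow v_m i₀ * q i| → 0` while `δ/4 * q i₀ * ow v_m i₀ → δ/4 * q i₀ * disc k v * q i₀ > 0`.  So the second alternative holds for `v_m` with `J = wsupp v`: contradiction.

PLAN of `cone_gap`.  Take `κ₀, c` from `cone_simplex`, `κ = min κ₀ (1/2)`.  Given `C₀` (w.l.o.g. `C₀ ≥ 0`, otherwise the hypothesis `|..| ≤ C₀` is absurd when `N > 0`: use `i₀`),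
 let `Q = ∑ i, q i`, `s = ∑_j u_j > 0`, `v = u / s`.
 From `|p i / p i₀ - q i / q i₀| ≤ δ`, `p i₀ ≥ 1`:  `|p i q i₀ - p i₀ q i| ≤ δ q i₀ p i₀`, hence
   `|ow u i q i₀ - ow u i₀ q i| ≤ δ q i₀ ow u i₀ + C₀ (δ q i₀ + q i₀ + Q)`.
 CASE A: `δ q i₀ * ow u i₀ < C₀ (δ q i₀ + q i₀ + Q)`.  Then `p i₀`, hence all `p i ≤ (q i / q i₀ + δ) p i₀`, hence all `ow u i` (`≥ 0`) are bounded by a constant `C₂(C₀)`;
   `lamI b q η i₀ (ow u) ≤ C₃ := (|1-η| ∑|b i| + |η| / q i₀) C₂`, `disc k u ≥ s`, so the first alternative holds with `i = i₀` as soon as `s ≥ 2 C₃`.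
 CASE B: otherwise `(C)` holds for `u`, hence for `v` (divide by `s`); `wsupp v = wsupp u`.  Apply `cone_simplex` to `v` and multiply by `s`.
   In the second alternative `ow u i₀ ≥ q i₀ s / 2`, and `|p i q i₀ - p i₀ q i| ≤ δ/4 q i₀ ow u i₀ + C₀ (q i₀ + Q) < δ/2 q i₀ (ow u i₀ - C₀) ≤ δ/2 q i₀ p i₀`
   as soon as `δ/4 q i₀ (q i₀ s / 2) > C₀ (q i₀ + Q + δ/2 q i₀)`.
-/
import Claimed.Agent.R242.Lift.Defs

set_option autoImplicit false

namespace Claimed.Agent.R242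

open Filter Topology

variable {n N : ℕ}

theorem cone_cont_disc (k : Fin n → ℕ) : Continuous (fun v : Fin n → ℝ => disc k v) := by
  unfold disc; fun_prop

theorem cone_cont_ow (o : Fin n → Fin N → ℕ) (i : Fin N) :
    Continuous (fun v : Fin n → ℝ => ow o v i) := by
  unfold ow; fun_prop

theorem cone_cont_lamI (o : Fin n → Fin N → ℕ) (b q : Fin N → ℝ) (η : ℝ) (i : Fin N) :
    Continuous (fun v : Fin n → ℝ => lamI b q η i (ow o v)) := by
  unfold lamI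
  have := cone_cont_ow (n := n) o
  fun_prop

theorem cone_simplex (k : Fin n → ℕ) (o : Fin n → Fin N → ℕ) (b q : Fin N → ℝ) (η θ δ : ℝ)
    (Adm Ctr : Finset (Fin n) → Prop) (hAdm : ∀ J J' : Finset (Fin n), J' ⊆ J → Adm J → Adm J')
    (i₀ : Fin N) (hq : ∀ i, 0 ≤ q i) (hq0 : 0 < q i₀) (hδ : 0 < δ) (hδθ : 2 * δ * q i₀ ≤ θ)
    (H : ConeHyp k o b q η θ Adm Ctr) :
    ∃ κ c : ℝ, 0 < κ ∧ 0 < c ∧ ∀ v : Fin n → ℝ, (∀ j, 0 ≤ v j) → ∑ j, v j = 1 → Adm (wsupp v) →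
      (∀ i, |ow o v i * q i₀ - ow o v i₀ * q i| ≤ 2 * δ * q i₀ * ow o v i₀) →
      (∃ i, 0 < q i ∧ lamI b q η i (ow o v) ≤ disc k v - κ) ∨
      ((∃ J : Finset (Fin n), Ctr J ∧ ∀ j ∈ J, c ≤ v j) ∧ q i₀ / 2 ≤ ow o v i₀ ∧
        ∀ i, |ow o v i * q i₀ - ow o v i₀ * q i| ≤ δ / 4 * q i₀ * ow o v i₀) := by
  classical
  by_contra hcon
  push Not at hcon
  choose v hv0 hv1 hvA hvC hvL hvS using fun m : ℕ =>
    hcon (1 / ((m : ℝ) + 1)) (1 / ((m : ℝ) + 1)) (by positivity) (by positivity)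
  have hmem : ∀ m, v m ∈ stdSimplex ℝ (Fin n) := fun m => ⟨hv0 m, hv1 m⟩
  obtain ⟨a, ha, φ, hφ, hlim⟩ := (isCompact_stdSimplex ℝ (Fin n)).tendsto_subseq hmem
  have ha0 : ∀ j, 0 ≤ a j := ha.1
  have ha1 : ∑ j, a j = 1 := ha.2
  have hane : a ≠ 0 := by
    rintro rfl
    simp at ha1
  have hdisc1 : 1 ≤ disc k a := by
    unfold disc
    calc (1 : ℝ) = ∑ j, a j := ha1.symm
      _ ≤ ∑ j, a j * (1 + (k j : ℝ)) := Finset.sum_le_sum fun j _ => by
          nlinarith [ha0 j, (Nat.cast_nonneg (k j) : (0 : ℝ) ≤ k j)]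
  have hεlim : Tendsto (fun m : ℕ => 1 / (((φ m : ℕ) : ℝ) + 1)) atTop (𝓝 0) :=
    (tendsto_one_div_add_atTop_nhds_zero_nat (𝕜 := ℝ)).comp hφ.tendsto_atTop
  have hcoord : ∀ j, Tendsto (fun m => v (φ m) j) atTop (𝓝 (a j)) :=
    fun j => (tendsto_pi_nhds.mp hlim) j
  have hLdisc : Tendsto (fun m => disc k (v (φ m))) atTop (𝓝 (disc k a)) :=
    ((cone_cont_disc k).tendsto a).comp hlim
  have hLow : ∀ i, Tendsto (fun m => ow o (v (φ m)) i) atTop (𝓝 (ow o a i)) :=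
    fun i => ((cone_cont_ow o i).tendsto a).comp hlim
  have hLlam : ∀ i, Tendsto (fun m => lamI b q η i (ow o (v (φ m)))) atTop
      (𝓝 (lamI b q η i (ow o a))) :=
    fun i => ((cone_cont_lamI o b q η i).tendsto a).comp hlim
  have hLabs : ∀ i, Tendsto (fun m => |ow o (v (φ m)) i * q i₀ - ow o (v (φ m)) i₀ * q i|) atTop
      (𝓝 |ow o a i * q i₀ - ow o a i₀ * q i|) :=
    fun i => (((hLow i).mul_const _).sub ((hLow i₀).mul_const _)).abs
  have hsupp : ∀ᶠ m in atTop, wsupp a ⊆ wsupp (v (φ m)) := by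
    have h1 : ∀ j ∈ wsupp a, ∀ᶠ m in atTop, v (φ m) j ≠ 0 := fun j hj =>
      (hcoord j).eventually_ne (by simpa [wsupp] using hj)
    have h2 := (Filter.eventually_all_finset (wsupp a)).mpr h1
    filter_upwards [h2] with m hm j hj
    simpa [wsupp] using hm j hj
  have hAa : Adm (wsupp a) := by
    obtain ⟨m, hm⟩ := hsupp.exists
    exact hAdm _ _ hm (hvA (φ m))
  have hCa : ∀ i, |ow o a i * q i₀ - ow o a i₀ * q i| ≤ 2 * δ * q i₀ * ow o a i₀ := fun i =>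
    le_of_tendsto_of_tendsto' (hLabs i) ((hLow i₀).const_mul _) (fun m => hvC (φ m) i)
  have hLa : ∀ i, 0 < q i → disc k a ≤ lamI b q η i (ow o a) := by
    intro i hi
    have h1 : Tendsto (fun m => disc k (v (φ m)) - 1 / (((φ m : ℕ) : ℝ) + 1)) atTop
        (𝓝 (disc k a - 0)) := hLdisc.sub hεlim
    rw [sub_zero] at h1
    exact le_of_tendsto_of_tendsto' h1 (hLlam i) (fun m => (hvL (φ m) i hi).le)
  have how0 : ∀ i, 0 ≤ ow o a i := fun i =>
    Finset.sum_nonneg fun j _ => mul_nonneg (ha0 j) (Nat.cast_nonneg _)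
  have hpos : 0 < ow o a i₀ := by
    rcases (how0 i₀).lt_or_eq with h | h
    · exact h
    · exfalso
      have hz : ∀ i, ow o a i = 0 := by
        intro i
        have h1 := hCa i
        rw [← h] at h1
        simp only [zero_mul, sub_zero, mul_zero] at h1
        have h2 : ow o a i * q i₀ = 0 := abs_eq_zero.mp (le_antisymm h1 (abs_nonneg _))
        rcases mul_eq_zero.mp h2 with h3 | h3
        · exact h3
        · exact absurd h3 hq0.ne'
      have h3 : lamI b q η i₀ (ow o a) = 0 := by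
        unfold lamI
        simp [hz]
      have h4 := hLa i₀ hq0
      linarith
  set μ := ow o a i₀ / q i₀ with hμdef
  have hμ : 0 < μ := div_pos hpos hq0
  have hcone : ∀ i, |ow o a i - μ * q i| ≤ θ * μ := by
    intro i
    have h1 := hCa i
    have h2 : ow o a i - μ * q i = (ow o a i * q i₀ - ow o a i₀ * q i) / q i₀ := by
      rw [hμdef]; field_simp
    rw [h2, abs_div, abs_of_pos hq0, div_le_iff₀ hq0]
    calc _ ≤ 2 * δ * q i₀ * ow o a i₀ := h1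
      _ = (2 * δ * q i₀) * μ * q i₀ := by rw [hμdef]; field_simp
      _ ≤ θ * μ * q i₀ := by gcongr
  rcases H a ha0 hane hAa ⟨μ, hμ, hcone⟩ with ⟨i, hi, hlt⟩ | ⟨heq, hCtr⟩
  · exact absurd (hLa i hi) (not_le.mpr hlt)
  have hE1 : ∀ᶠ m in atTop, ∀ j ∈ wsupp a, 1 / (((φ m : ℕ) : ℝ) + 1) ≤ v (φ m) j := by
    refine (Filter.eventually_all_finset _).mpr fun j hj => ?_
    have hj' : 0 < a j := lt_of_le_of_ne (ha0 j) (Ne.symm (by simpa [wsupp] using hj))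
    have h1 : ∀ᶠ m in atTop, a j / 2 < v (φ m) j :=
      (hcoord j).eventually (lt_mem_nhds (by linarith))
    have h2 : ∀ᶠ m in atTop, 1 / (((φ m : ℕ) : ℝ) + 1) < a j / 2 :=
      hεlim.eventually (gt_mem_nhds (by linarith))
    filter_upwards [h1, h2] with m h1 h2 using (h2.trans h1).le
  have hE2 : ∀ᶠ m in atTop, q i₀ / 2 ≤ ow o (v (φ m)) i₀ := by
    have h1 : q i₀ / 2 < ow o a i₀ := by
      rw [heq i₀]; nlinarith
    exact ((hLow i₀).eventually (lt_mem_nhds h1)).mono fun m h => h.le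
  have hE3 : ∀ᶠ m in atTop, ∀ i, |ow o (v (φ m)) i * q i₀ - ow o (v (φ m)) i₀ * q i|
      ≤ δ / 4 * q i₀ * ow o (v (φ m)) i₀ := by
    rw [Filter.eventually_all]
    intro i
    have hz : |ow o a i * q i₀ - ow o a i₀ * q i| = 0 := by
      rw [heq i, heq i₀, abs_eq_zero]; ring
    have hr : Tendsto (fun m => δ / 4 * q i₀ * ow o (v (φ m)) i₀) atTop
        (𝓝 (δ / 4 * q i₀ * ow o a i₀)) := (hLow i₀).const_mul _
    have hpos' : |ow o a i * q i₀ - ow o a i₀ * q i| < δ / 4 * q i₀ * ow o a i₀ := by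
      rw [hz]; positivity
    exact ((hLabs i).eventually_lt hr hpos').mono fun m h => h.le
  obtain ⟨m, h1, h2, h3⟩ := (hE1.and (hE2.and hE3)).exists
  obtain ⟨i, hi⟩ := hvS (φ m) ⟨wsupp a, hCtr, h1⟩ h2
  exact absurd (h3 i) (not_le.mpr hi)

theorem cone_ow_div (o : Fin n → Fin N → ℕ) (u : Fin n → ℝ) (s : ℝ) :
    ow o (fun j => u j / s) = fun i => ow o u i / s := by
  funext i
  unfold ow
  rw [Finset.sum_div]
  exact Finset.sum_congr rfl fun j _ => by ring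

theorem cone_disc_div (k : Fin n → ℕ) (u : Fin n → ℝ) (s : ℝ) :
    disc k (fun j => u j / s) = disc k u / s := by
  unfold disc
  rw [Finset.sum_div]
  exact Finset.sum_congr rfl fun j _ => by ring

theorem cone_lamI_div (b q : Fin N → ℝ) (η : ℝ) (i : Fin N) (l : Fin N → ℝ) (s : ℝ) :
    lamI b q η i (fun i => l i / s) = lamI b q η i l / s := by
  unfold lamI
  have h : ∑ i', b i' * (l i' / s) = (∑ i', b i' * l i') / s := by
    rw [Finset.sum_div]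
    exact Finset.sum_congr rfl fun j _ => by ring
  rw [h]
  ring

theorem cone_wsupp_div (u : Fin n → ℝ) {s : ℝ} (hs : s ≠ 0) :
    wsupp (fun j => u j / s) = wsupp u := by
  unfold wsupp
  ext j
  simp [hs]

theorem cone_ow_nonneg (o : Fin n → Fin N → ℕ) {u : Fin n → ℝ} (hu : ∀ j, 0 ≤ u j) (i : Fin N) :
    0 ≤ ow o u i :=
  Finset.sum_nonneg fun j _ => mul_nonneg (hu j) (Nat.cast_nonneg _)

theorem cone_le_disc (k : Fin n → ℕ) {u : Fin n → ℝ} (hu : ∀ j, 0 ≤ u j) : ∑ j, u j ≤ disc k u := by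
  unfold disc
  refine Finset.sum_le_sum fun j _ => ?_
  have h : (0 : ℝ) ≤ k j := Nat.cast_nonneg _
  nlinarith [hu j, mul_nonneg (hu j) h]

theorem cone_lamI_le (b q : Fin N → ℝ) (η : ℝ) (i : Fin N) (hqi : 0 < q i) (l : Fin N → ℝ) (B : ℝ)
    (hl0 : ∀ i, 0 ≤ l i) (hl : ∀ i, l i ≤ B) :
    lamI b q η i l ≤ (|1 - η| * ∑ i', |b i'| + |η| / q i) * B := by
  unfold lamI
  have h1 : (1 - η) * ∑ i', b i' * l i' ≤ |1 - η| * ((∑ i', |b i'|) * B) := by
    calc (1 - η) * ∑ i', b i' * l i' ≤ |(1 - η) * ∑ i', b i' * l i'| := le_abs_self _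
      _ = |1 - η| * |∑ i', b i' * l i'| := abs_mul _ _
      _ ≤ |1 - η| * ((∑ i', |b i'|) * B) := by
        refine mul_le_mul_of_nonneg_left ?_ (abs_nonneg _)
        rw [Finset.sum_mul]
        refine (Finset.abs_sum_le_sum_abs _ _).trans (Finset.sum_le_sum fun j _ => ?_)
        rw [abs_mul, abs_of_nonneg (hl0 j)]
        exact mul_le_mul_of_nonneg_left (hl j) (abs_nonneg _)
  have h2 : η * (l i / q i) ≤ |η| / q i * B := by
    calc η * (l i / q i) ≤ |η| * (l i / q i) :=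
          mul_le_mul_of_nonneg_right (le_abs_self _) (div_nonneg (hl0 i) hqi.le)
      _ ≤ |η| * (B / q i) :=
          mul_le_mul_of_nonneg_left (div_le_div_of_nonneg_right (hl i) hqi.le) (abs_nonneg _)
      _ = |η| / q i * B := by ring
  calc (1 - η) * ∑ i', b i' * l i' + η * (l i / q i)
      ≤ |1 - η| * ((∑ i', |b i'|) * B) + |η| / q i * B := add_le_add h1 h2
    _ = _ := by ring

theorem cone_tri (A e1 e2 a b C : ℝ) (ha : 0 ≤ a) (hb : 0 ≤ b) (h1 : |e1| ≤ C) (h2 : |e2| ≤ C) :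
    |A - e1 * a + e2 * b| ≤ |A| + C * a + C * b := by
  obtain ⟨h1a, h1b⟩ := abs_le.1 h1
  obtain ⟨h2a, h2b⟩ := abs_le.1 h2
  have m1 := mul_le_mul_of_nonneg_right h1a ha
  have m2 := mul_le_mul_of_nonneg_right h1b ha
  have m3 := mul_le_mul_of_nonneg_right h2a hb
  have m4 := mul_le_mul_of_nonneg_right h2b hb
  rw [abs_le]
  constructor
  · linarith [neg_abs_le A]
  · linarith [le_abs_self A]

/-- clearing denominators in the ratio condition. -/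
theorem cone_ratio {x P y q₀ : ℝ} (hP : 0 < P) (hq : 0 < q₀) :
    |x / P - y / q₀| = |x * q₀ - P * y| / (q₀ * P) := by
  have h : x / P - y / q₀ = (x * q₀ - P * y) / (q₀ * P) := by
    field_simp
  rw [h, abs_div, abs_of_pos (mul_pos hq hP)]

theorem cone_gap_caseA (k : Fin n → ℕ) (o : Fin n → Fin N → ℕ) (b q : Fin N → ℝ) (η δ : ℝ)
    (i₀ : Fin N) (hq : ∀ i, 0 ≤ q i) (hq0 : 0 < q i₀) (hδ : 0 < δ) {C : ℝ} (hC : 0 ≤ C) {κ : ℝ}
    (hκ : κ ≤ 1 / 2) (u : Fin n → ℝ) (p : Fin N → ℝ) (hu : ∀ j, 0 ≤ u j)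
    (hp : ∀ i, |p i - ow o u i| ≤ C) (hP : 1 ≤ p i₀) (hr : ∀ i, |p i / p i₀ - q i / q i₀| ≤ δ)
    (hA : δ * q i₀ * ow o u i₀ < C * (δ * q i₀ + q i₀ + ∑ i, q i))
    (hM : 2 * ((|1 - η| * ∑ i', |b i'| + |η| / q i₀) *
      (((∑ i, q i) / q i₀ + δ) * (C * (δ * q i₀ + q i₀ + ∑ i, q i) / (δ * q i₀) + C) + C))
        ≤ ∑ j, u j) :
    lamI b q η i₀ (ow o u) ≤ disc k u - κ * ∑ j, u j := by
  set Q := ∑ i, q i with hQ
  set q₀ := q i₀ with hq₀
  set D := C * (δ * q₀ + q₀ + Q) with hD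
  have hPpos : 0 < p i₀ := by linarith
  have hqQ : ∀ i, q i ≤ Q := fun i => Finset.single_le_sum (fun j _ => hq j) (Finset.mem_univ i)
  have hdq : 0 < δ * q₀ := mul_pos hδ hq0
  have hw0 : ow o u i₀ < D / (δ * q₀) := by
    rw [lt_div_iff₀ hdq]
    linarith
  have hP1 : p i₀ ≤ D / (δ * q₀) + C := by
    have := (abs_le.1 (hp i₀)).2
    linarith
  have hpi : ∀ i, p i ≤ (Q / q₀ + δ) * (D / (δ * q₀) + C) := by
    intro i
    have h1 : p i / p i₀ ≤ q i / q₀ + δ := by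
      have := (abs_le.1 (hr i)).2
      linarith
    have h2 : p i ≤ (q i / q₀ + δ) * p i₀ := (div_le_iff₀ hPpos).1 h1
    have h3 : q i / q₀ + δ ≤ Q / q₀ + δ := by
      have := div_le_div_of_nonneg_right (hqQ i) hq0.le
      linarith
    have h4 : 0 ≤ q i / q₀ + δ := by
      have := div_nonneg (hq i) hq0.le
      linarith
    calc p i ≤ (q i / q₀ + δ) * p i₀ := h2
      _ ≤ (Q / q₀ + δ) * (D / (δ * q₀) + C) := mul_le_mul h3 hP1 hPpos.le (h4.trans h3)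
  have hwi : ∀ i, ow o u i ≤ (Q / q₀ + δ) * (D / (δ * q₀) + C) + C := by
    intro i
    have := (abs_le.1 (hp i)).1
    linarith [hpi i]
  have h5 := cone_lamI_le b q η i₀ hq0 (ow o u) _ (cone_ow_nonneg o hu) hwi
  have h6 := cone_le_disc k hu
  have hs0 : 0 ≤ ∑ j, u j := Finset.sum_nonneg fun j _ => hu j
  have h7 : κ * ∑ j, u j ≤ 1 / 2 * ∑ j, u j := mul_le_mul_of_nonneg_right hκ hs0
  linarith

theorem cone_gap_caseB (k : Fin n → ℕ) (o : Fin n → Fin N → ℕ) (b q : Fin N → ℝ) (η δ : ℝ)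
    (Adm Ctr : Finset (Fin n) → Prop)
    (i₀ : Fin N) (hq : ∀ i, 0 ≤ q i) (hq0 : 0 < q i₀) (hδ : 0 < δ) {κ₀ c : ℝ} (hκ₀ : 0 < κ₀)
    (hS : ∀ v : Fin n → ℝ, (∀ j, 0 ≤ v j) → ∑ j, v j = 1 → Adm (wsupp v) →
      (∀ i, |ow o v i * q i₀ - ow o v i₀ * q i| ≤ 2 * δ * q i₀ * ow o v i₀) →
      (∃ i, 0 < q i ∧ lamI b q η i (ow o v) ≤ disc k v - κ₀) ∨
      ((∃ J : Finset (Fin n), Ctr J ∧ ∀ j ∈ J, c ≤ v j) ∧ q i₀ / 2 ≤ ow o v i₀ ∧
        ∀ i, |ow o v i * q i₀ - ow o v i₀ * q i| ≤ δ / 4 * q i₀ * ow o v i₀))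
    {C : ℝ} (hC : 0 ≤ C) (u : Fin n → ℝ) (p : Fin N → ℝ) (hu : ∀ j, 0 ≤ u j) (hA : Adm (wsupp u))
    (hp : ∀ i, |p i - ow o u i| ≤ C) (hP : 1 ≤ p i₀) (hr : ∀ i, |p i / p i₀ - q i / q i₀| ≤ δ)
    (hB : C * (δ * q i₀ + q i₀ + ∑ i, q i) ≤ δ * q i₀ * ow o u i₀) (hs1 : 1 ≤ ∑ j, u j)
    (hM : 8 * C * (q i₀ + (∑ i, q i) + δ * q i₀ / 2) / (δ * q i₀ ^ 2) < ∑ j, u j) :
    (∃ i, 0 < q i ∧ lamI b q η i (ow o u) ≤ disc k u - min κ₀ (1 / 2) * ∑ j, u j) ∨
      ((∃ J : Finset (Fin n), Ctr J ∧ ∀ j ∈ J, c * ∑ j', u j' ≤ u j) ∧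
        ∀ i, |p i / p i₀ - q i / q i₀| < δ / 2) := by
  set Q := ∑ i, q i with hQ
  set q₀ := q i₀ with hq₀
  set s := ∑ j, u j with hs
  have hs0 : 0 < s := by linarith
  have hPpos : 0 < p i₀ := by linarith
  have hqQ : ∀ i, q i ≤ Q := fun i => Finset.single_le_sum (fun j _ => hq j) (Finset.mem_univ i)
  have hqP : 0 < q₀ * p i₀ := mul_pos hq0 hPpos
  have hPw : p i₀ ≤ ow o u i₀ + C := by
    have := (abs_le.1 (hp i₀)).2
    linarith
  have hPw' : ow o u i₀ - C ≤ p i₀ := by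
    have := (abs_le.1 (hp i₀)).1
    linarith
  -- the ratio condition without denominators
  have hr' : ∀ i, |p i * q₀ - p i₀ * q i| ≤ δ * (q₀ * p i₀) := by
    intro i
    have h1 := hr i
    rw [cone_ratio hPpos hq0, div_le_iff₀ hqP] at h1
    exact h1
  have htri : ∀ i, |ow o u i * q₀ - ow o u i₀ * q i| ≤ |p i * q₀ - p i₀ * q i| + C * q₀ + C * q i := by
    intro i
    have h1 := cone_tri (p i * q₀ - p i₀ * q i) (p i - ow o u i) (p i₀ - ow o u i₀) q₀ (q i) C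
      hq0.le (hq i) (hp i) (hp i₀)
    have e : p i * q₀ - p i₀ * q i - (p i - ow o u i) * q₀ + (p i₀ - ow o u i₀) * q i
        = ow o u i * q₀ - ow o u i₀ * q i := by ring
    rwa [e] at h1
  have htri' : ∀ i, |p i * q₀ - p i₀ * q i| ≤ |ow o u i * q₀ - ow o u i₀ * q i| + C * q₀ + C * q i := by
    intro i
    have h1 := cone_tri (ow o u i * q₀ - ow o u i₀ * q i) (ow o u i - p i) (ow o u i₀ - p i₀) q₀ (q i) C
      hq0.le (hq i) (by rw [abs_sub_comm]; exact hp i) (by rw [abs_sub_comm]; exact hp i₀)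
    have e : ow o u i * q₀ - ow o u i₀ * q i - (ow o u i - p i) * q₀ + (ow o u i₀ - p i₀) * q i
        = p i * q₀ - p i₀ * q i := by ring
    rwa [e] at h1
  have hCq : ∀ i, C * q i ≤ C * Q := fun i => mul_le_mul_of_nonneg_left (hqQ i) hC
  have hcone : ∀ i, |ow o u i * q₀ - ow o u i₀ * q i| ≤ 2 * δ * q₀ * ow o u i₀ := by
    intro i
    have h1 : δ * (q₀ * p i₀) ≤ δ * (q₀ * (ow o u i₀ + C)) :=
      mul_le_mul_of_nonneg_left (mul_le_mul_of_nonneg_left hPw hq0.le) hδ.le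
    nlinarith [htri i, hr' i, hCq i]
  -- normalisation
  have hv := hS (fun j => u j / s) (fun j => div_nonneg (hu j) hs0.le)
    (by rw [← Finset.sum_div, div_self hs0.ne']) (by rw [cone_wsupp_div u hs0.ne']; exact hA)
    (by
      intro i
      rw [cone_ow_div]
      have e1 : ow o u i / s * q₀ - ow o u i₀ / s * q i = (ow o u i * q₀ - ow o u i₀ * q i) / s := by
        ring
      have e2 : 2 * δ * q₀ * (ow o u i₀ / s) = (2 * δ * q₀ * ow o u i₀) / s := by ring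
      show |ow o u i / s * q₀ - ow o u i₀ / s * q i| ≤ 2 * δ * q₀ * (ow o u i₀ / s)
      rw [e1, e2, abs_div, abs_of_pos hs0]
      exact div_le_div_of_nonneg_right (hcone i) hs0.le)
  rw [cone_ow_div, cone_disc_div] at hv
  rcases hv with ⟨i, hqi, h1⟩ | ⟨⟨J, hJ, hJc⟩, h2, h3⟩
  · left
    refine ⟨i, hqi, ?_⟩
    rw [cone_lamI_div, div_le_iff₀ hs0, sub_mul, div_mul_cancel₀ _ hs0.ne'] at h1
    have h4 : min κ₀ (1 / 2) * s ≤ κ₀ * s := mul_le_mul_of_nonneg_right (min_le_left _ _) hs0.le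
    linarith
  · right
    refine ⟨⟨J, hJ, fun j hj => ?_⟩, fun i => ?_⟩
    · have := hJc j hj
      rwa [le_div_iff₀ hs0] at this
    · have h2' : q₀ / 2 * s ≤ ow o u i₀ := (le_div_iff₀ hs0).1 h2
      have h3' : |ow o u i * q₀ - ow o u i₀ * q i| ≤ δ / 4 * q₀ * ow o u i₀ := by
        have h4 := h3 i
        have e1 : ow o u i / s * q₀ - ow o u i₀ / s * q i = (ow o u i * q₀ - ow o u i₀ * q i) / s := by
          ring
        have e2 : δ / 4 * q₀ * (ow o u i₀ / s) = (δ / 4 * q₀ * ow o u i₀) / s := by ring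
        change |ow o u i / s * q₀ - ow o u i₀ / s * q i| ≤ δ / 4 * q₀ * (ow o u i₀ / s) at h4
        rw [e1, e2, abs_div, abs_of_pos hs0] at h4
        exact (div_le_div_iff_of_pos_right hs0).1 h4
      have hM' : 8 * C * (q₀ + Q + δ * q₀ / 2) < s * (δ * q₀ ^ 2) :=
        (div_lt_iff₀ (by positivity)).1 hM
      rw [cone_ratio hPpos hq0, div_lt_iff₀ hqP]
      have h5 : δ / 2 * (q₀ * (ow o u i₀ - C)) ≤ δ / 2 * (q₀ * p i₀) :=
        mul_le_mul_of_nonneg_left (mul_le_mul_of_nonneg_left hPw' hq0.le) (by positivity)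
      have h6 : δ / 4 * q₀ * (q₀ / 2 * s) ≤ δ / 4 * q₀ * ow o u i₀ :=
        mul_le_mul_of_nonneg_left h2' (by positivity)
      nlinarith [htri' i, hCq i]

theorem cone_gap (k : Fin n → ℕ) (o : Fin n → Fin N → ℕ) (b q : Fin N → ℝ) (η θ δ : ℝ)
    (Adm Ctr : Finset (Fin n) → Prop) (hAdm : ∀ J J' : Finset (Fin n), J' ⊆ J → Adm J → Adm J')
    (i₀ : Fin N) (hq : ∀ i, 0 ≤ q i) (hq0 : 0 < q i₀) (hδ : 0 < δ) (hδθ : 2 * δ * q i₀ ≤ θ)
    (H : ConeHyp k o b q η θ Adm Ctr) :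
    ∃ κ c : ℝ, 0 < κ ∧ κ < 1 ∧ 0 < c ∧ ∀ C₀ : ℝ, ∃ M : ℝ, ∀ (u : Fin n → ℝ) (p : Fin N → ℝ),
      (∀ j, 0 ≤ u j) → Adm (wsupp u) → (∀ i, |p i - ow o u i| ≤ C₀) → 1 ≤ p i₀ →
      (∀ i, |p i / p i₀ - q i / q i₀| ≤ δ) → M ≤ ∑ j, u j →
      (∃ i, 0 < q i ∧ lamI b q η i (ow o u) ≤ disc k u - κ * ∑ j, u j) ∨
      ((∃ J : Finset (Fin n), Ctr J ∧ ∀ j ∈ J, c * ∑ j', u j' ≤ u j) ∧
        ∀ i, |p i / p i₀ - q i / q i₀| < δ / 2) := by
  obtain ⟨κ₀, c, hκ₀, hc, hS⟩ := cone_simplex k o b q η θ δ Adm Ctr hAdm i₀ hq hq0 hδ hδθ H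
  refine ⟨min κ₀ (1 / 2), c, lt_min hκ₀ (by norm_num),
    lt_of_le_of_lt (min_le_right _ _) (by norm_num), hc, fun C₀ => ?_⟩
  refine ⟨max 1 (max (2 * ((|1 - η| * ∑ i', |b i'| + |η| / q i₀) *
      (((∑ i, q i) / q i₀ + δ) * (max C₀ 0 * (δ * q i₀ + q i₀ + ∑ i, q i) / (δ * q i₀) + max C₀ 0)
        + max C₀ 0)))
      (8 * max C₀ 0 * (q i₀ + (∑ i, q i) + δ * q i₀ / 2) / (δ * q i₀ ^ 2) + 1)),
    fun u p hu hA hp hP hr hM => ?_⟩
  have hC : (0 : ℝ) ≤ max C₀ 0 := le_max_right _ _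
  have hp' : ∀ i, |p i - ow o u i| ≤ max C₀ 0 := fun i => (hp i).trans (le_max_left _ _)
  have hM1 : 1 ≤ ∑ j, u j := (le_max_left _ _).trans hM
  have hM2 := ((le_max_left _ _).trans (le_max_right _ _)).trans hM
  have hM3 := ((le_max_right _ _).trans (le_max_right _ _)).trans hM
  by_cases hcase : δ * q i₀ * ow o u i₀ < max C₀ 0 * (δ * q i₀ + q i₀ + ∑ i, q i)
  · left
    exact ⟨i₀, hq0, cone_gap_caseA k o b q η δ i₀ hq hq0 hδ hC (min_le_right _ _) u p hu hp' hP hr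
      hcase hM2⟩
  · exact cone_gap_caseB k o b q η δ Adm Ctr i₀ hq hq0 hδ hκ₀ hS hC u p hu hA hp' hP hr
      (not_lt.1 hcase) hM1 (by linarith)

end Claimed.Agent.R242
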