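/-
Row 242 (S0480), package LIFT.  Weights: Wirtinger calculus of the weights `wtT`, `wtO`.      Architect: helper110.
Paper-free: Mathlib + `SCV/WirtA`, `SCV/WirtB` (use their statements even while sorried) + `contDiffOn_of_differentiableOn_Cn` (SCV/MVP).

LEAVES
  LIFT-W-A : sections 1, 2   (HolAt, lgs, log-sum-exp)
  LIFT-W-B : section 3       (refT, pL, Poincare inequality, isoT, lsq, Fubini-Study bound)
  LIFT-W-C : section 4       (wtT / wtO along holomorphic tuples: smooth, Levi lower bounds)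
  LIFT-W-D : section 5       (universal weights: `uwt_wtT`, `uwt_wtO`, `hwt_max`, `hwt_bpf`)
  LIFT-W-E : section 6       (pointwise bounds of `- wtT`; pure inequalities)

PLANS.
 1. `HolAt g z` gives an open `U ∋ z` with `DifferentiableOn ℂ g U` (`eventually_nhds_iff` / `mem_nhds_iff`), so `ContDiffAt ℝ ∞ g z`.
    `lgs (g y) = Real.log (‖g y‖^2)`, `‖g y‖^2 = normSq`: smooth, `≠ 0` at `z`: `ContDiffAt.log`.  `levi_lgs = levi_log_normSq_holo`.
 2. `∑ exp > 0`.  `le_lse`: `exp (U a) ≤ ∑ exp`, `Real.log_le_log`, `Real.log_exp`.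
 3. `refT μ ξ ζ₀ = log ∑_{a : Option ι} exp (V a)`, `V none = μ * lgs ζ₀`, `V (some l) = lgs ξ_l` (`Fintype.sum_option`).
    All `V a ∘ (F, e)` are smooth with Levi form `0` (`levi_const_mul`, `levi_lgs`), so `levi_log_sum_exp_nonneg` applies.
    POINCARE.  Put `R = refT ∘ ..`, `P = 1 + R - lgs F_i ≥ 1`.  `levi P = levi R` (`levi_add`, `levi_const`, `levi_lgs`),
    `levi (log ∘ P) = levi P / P - ‖dAr P‖² / P²` (`levi_comp` with `χ = Real.log`, `deriv log = x⁻¹`, `deriv (deriv log) x = - (x^2)⁻¹` near `x > 0`),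
    so `levi (R - log P) = levi R (1 - 1/P) + ‖dAr P‖²/P² ≥ ‖dAr P‖²/P²`.
    `isoT`: log-sum-exp over the subtype `{i // 0 < q i}` (`Finset.sum_subtype` / `Finset.sum_coe_sort`), nonempty by `hq`.
    `lsq ∘ G = log ∑ exp (lgs G_l)` near `z` when no `G_l` vanishes at `z` (`exp_lgs`; the equality holds near `z`: `levi_congr`).
    FUBINI-STUDY.  `lsq (zetaOf C e y) = lgs (e y) + log (1 + ∑ ‖y_j + C‖²)` where `e y ≠ 0` (`Fin.sum_univ_succ`, `norm_mul`, `Real.log_mul`).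
    With `x_j = z_j + C`, `u y = 1 + ∑ ‖y_j + C‖²`: `levi u = ∑ ‖a_j‖²` (`levi_sum`, `levi_normSq_coord` with `c = -C`), `dAr u z a = ∑ conj x_j a_j` (`dz_normSq_coord`),
    `levi (log u) = |a|²/u - |∑ conj x_j a_j|²/u²`, Cauchy-Schwarz `|∑ conj x_j a_j|² ≤ (∑‖x_j‖²)(∑‖a_j‖²)`, so `≥ |a|² (u - |x|²)/u² = |a|²/u²`.
 4. add up (`levi_add`, `levi_const_mul`, `levi_sum`).
 5. homogeneity: `lgs (t^d * ξ) = lgs ξ + d * log ‖t‖²`; in `refT`, `isoT`, `lsq` a common factor `exp (deg * τ)` comes out of the sum; `pL` is invariant.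
    upper bounds: `lgs ξ_i ≤ X := log (1 + ∑‖ξ‖²)`, `0 ≤ X`, `lse_le`.
-/
import Claimed.Agent.R242.Lift.Defs

set_option autoImplicit false

open MeasureTheory Complex Metric
open scoped ContDiff ComplexConjugate ENNReal Topology

namespace Claimed.Agent.R242

variable {n : ℕ}

/-! ### 1. holomorphic germs, `lgs` -/

section one

variable {g : Cn n → ℂ} {z : Cn n}

theorem HolAt.differentiableAt (h : HolAt g z) : DifferentiableAt ℂ g z := by
  exact h.self_of_nhds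

theorem HolAt.contDiffAt (h : HolAt g z) : ContDiffAt ℝ ∞ g z := by
  obtain ⟨U, hU, hUo, hzU⟩ := _root_.eventually_nhds_iff.1 h
  have hd : DifferentiableOn ℂ g U := fun y hy => (hU y hy).differentiableWithinAt
  exact (contDiffOn_of_differentiableOn_Cn hUo hd).contDiffAt (hUo.mem_nhds hzU)

theorem holAt_of_differentiableOn {U : Set (Cn n)} (hU : IsOpen U) (hg : DifferentiableOn ℂ g U)
    (hz : z ∈ U) : HolAt g z := by
  filter_upwards [hU.mem_nhds hz] with y hy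
  exact (hg y hy).differentiableAt (hU.mem_nhds hy)

theorem HolAt.eventually (h : HolAt g z) : ∀ᶠ y in 𝓝 z, HolAt g y := by
  exact eventually_eventually_nhds.2 h

theorem HolAt.mul {g' : Cn n → ℂ} (h : HolAt g z) (h' : HolAt g' z) : HolAt (fun y => g y * g' y) z := by
  filter_upwards [h, h'] with y hy hy'
  exact hy.mul hy'

theorem holAt_coord (j : Fin n) (z : Cn n) : HolAt (fun y : Cn n => y j) z := by
  exact Filter.Eventually.of_forall fun y => (hasFDerivAt_apply (𝕜 := ℂ) j y).differentiableAt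

theorem exp_lgs {ζ : ℂ} (h : ζ ≠ 0) : Real.exp (lgs ζ) = ‖ζ‖ ^ 2 := by
  have : 0 < ‖ζ‖ := norm_pos_iff.2 h
  exact Real.exp_log (by positivity)

theorem lgs_mul {a b : ℂ} (ha : a ≠ 0) (hb : b ≠ 0) : lgs (a * b) = lgs a + lgs b := by
  have h1 : 0 < ‖a‖ := norm_pos_iff.2 ha
  have h2 : 0 < ‖b‖ := norm_pos_iff.2 hb
  unfold lgs
  rw [norm_mul, mul_pow, Real.log_mul (by positivity) (by positivity)]

theorem lgs_pow (t : ℂ) (d : ℕ) : lgs (t ^ d) = d * lgs t := by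
  unfold lgs
  rw [norm_pow, ← pow_mul, mul_comm d 2, pow_mul, Real.log_pow]

theorem lgs_prod {α : Type*} (s : Finset α) (f : α → ℂ) (h : ∀ a ∈ s, f a ≠ 0) :
    lgs (∏ a ∈ s, f a) = ∑ a ∈ s, lgs (f a) := by
  unfold lgs
  rw [norm_prod, ← Finset.prod_pow, Real.log_prod]
  intro a ha
  have : 0 < ‖f a‖ := norm_pos_iff.2 (h a ha)
  positivity

theorem contDiffAt_lgs (h : HolAt g z) (h0 : g z ≠ 0) : ContDiffAt ℝ ∞ (fun y => lgs (g y)) z := by
  have : 0 < ‖g z‖ := norm_pos_iff.2 h0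
  exact (h.contDiffAt.norm_sq ℝ).log (by positivity)

theorem levi_lgs (h : HolAt g z) (h0 : g z ≠ 0) (a : Cn n) : levi (fun y => lgs (g y)) z a = 0 := by
  exact levi_log_normSq_holo h (h.contDiffAt.of_le (by norm_cast)) h0

/-- for a real function `‖∂̄u·ā‖ = ‖∂u·a‖`. -/
theorem norm_dAb_ofReal (u : Cn n → ℝ) (z a : Cn n) : ‖dAb (fun y => (u y : ℂ)) z a‖ = ‖dAr u z a‖ := by
  have e : dAb (fun y => (u y : ℂ)) z a = conj (dAr u z a) := by
    unfold dAb dAr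
    rw [map_sum]
    refine Finset.sum_congr rfl fun j _ => ?_
    rw [dzb_ofReal, map_mul]
  rw [e, RCLike.norm_conj]

end one

/-! ### 2. log-sum-exp -/

section two

variable {α : Type*} [Fintype α]

theorem le_lse (U : α → ℝ) (a : α) : U a ≤ Real.log (∑ a, Real.exp (U a)) := by
  have h1 : Real.exp (U a) ≤ ∑ a, Real.exp (U a) :=
    Finset.single_le_sum (f := fun a => Real.exp (U a)) (fun _ _ => (Real.exp_pos _).le)
      (Finset.mem_univ a)
  calc U a = Real.log (Real.exp (U a)) := (Real.log_exp _).symm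
    _ ≤ _ := Real.log_le_log (Real.exp_pos _) h1

theorem lse_le [Nonempty α] (U : α → ℝ) (M : ℝ) (h : ∀ a, U a ≤ M) :
    Real.log (∑ a, Real.exp (U a)) ≤ M + Real.log (Fintype.card α) := by
  have hpos : 0 < ∑ a, Real.exp (U a) :=
    Finset.sum_pos (fun _ _ => Real.exp_pos _) Finset.univ_nonempty
  have h1 : ∑ a, Real.exp (U a) ≤ Fintype.card α * Real.exp M := by
    calc ∑ a, Real.exp (U a) ≤ ∑ _a : α, Real.exp M :=
          Finset.sum_le_sum fun a _ => Real.exp_le_exp.2 (h a)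
      _ = _ := by rw [Finset.sum_const, Finset.card_univ, nsmul_eq_mul]
  have hc : (Fintype.card α : ℝ) ≠ 0 := by exact_mod_cast Fintype.card_ne_zero
  calc Real.log (∑ a, Real.exp (U a)) ≤ Real.log (Fintype.card α * Real.exp M) :=
        Real.log_le_log hpos h1
    _ = _ := by rw [Real.log_mul hc (Real.exp_pos _).ne', Real.log_exp, add_comm]

theorem lse_add_const [Nonempty α] (U : α → ℝ) (c : ℝ) :
    Real.log (∑ a, Real.exp (U a + c)) = Real.log (∑ a, Real.exp (U a)) + c := by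
  have hpos : 0 < ∑ a, Real.exp (U a) :=
    Finset.sum_pos (fun _ _ => Real.exp_pos _) Finset.univ_nonempty
  have e : ∑ a, Real.exp (U a + c) = (∑ a, Real.exp (U a)) * Real.exp c := by
    rw [Finset.sum_mul]
    exact Finset.sum_congr rfl fun a _ => Real.exp_add _ _
  rw [e, Real.log_mul hpos.ne' (Real.exp_pos _).ne', Real.log_exp]

theorem contDiffAt_lse [Nonempty α] {z : Cn n} (U : α → Cn n → ℝ) (hU : ∀ a, ContDiffAt ℝ ∞ (U a) z) :
    ContDiffAt ℝ ∞ (fun y => Real.log (∑ a, Real.exp (U a y))) z := by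
  have hpos : 0 < ∑ a, Real.exp (U a z) :=
    Finset.sum_pos (fun _ _ => Real.exp_pos _) Finset.univ_nonempty
  exact (ContDiffAt.sum fun a _ => (hU a).exp).log hpos.ne'

end two

/-! ### 3. the building blocks along a tuple of holomorphic functions without zeros -/

section three

variable {ι : Type*} [Fintype ι] {z : Cn n} {F : ι → Cn n → ℂ} {e : Cn n → ℂ} {C : ℂ}

theorem lift_two {E : Type*} [NormedAddCommGroup E] [NormedSpace ℝ E] {φ : Cn n → E} {z : Cn n}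
    (h : ContDiffAt ℝ ∞ φ z) : ContDiffAt ℝ 2 φ z :=
  h.of_le (by norm_cast)

/-- `refT` as a log-sum-exp over `Option ι` -/
theorem lift_refT_eq (μ : ℝ) (ξ : ι → ℂ) (ζ₀ : ℂ) :
    refT μ ξ ζ₀
      = Real.log (∑ a : Option ι, Real.exp (Option.elim a (μ * lgs ζ₀) fun l => lgs (ξ l))) := by
  unfold refT
  rw [Fintype.sum_option, add_comm]
  rfl

theorem lift_refU_contDiffAt (μ : ℝ) (hF : ∀ i, HolAt (F i) z) (hF0 : ∀ i, F i z ≠ 0)
    (he : HolAt e z) (he0 : e z ≠ 0) (a : Option ι) :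
    ContDiffAt ℝ ∞ (fun y => Option.elim a (μ * lgs (e y)) fun l => lgs (F l y)) z := by
  rcases a with _ | l
  · exact contDiffAt_const.mul (contDiffAt_lgs he he0)
  · exact contDiffAt_lgs (hF l) (hF0 l)

theorem lift_refU_levi (μ : ℝ) (hF : ∀ i, HolAt (F i) z) (hF0 : ∀ i, F i z ≠ 0)
    (he : HolAt e z) (he0 : e z ≠ 0) (a : Option ι) (v : Cn n) :
    levi (fun y => Option.elim a (μ * lgs (e y)) fun l => lgs (F l y)) z v = 0 := by
  rcases a with _ | l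
  · show levi (fun y => μ * lgs (e y)) z v = 0
    rw [levi_const_mul μ (lift_two (contDiffAt_lgs he he0)), levi_lgs he he0, mul_zero]
  · exact levi_lgs (hF l) (hF0 l) v

theorem lgs_le_refT (μ : ℝ) (ξ : ι → ℂ) (ζ₀ : ℂ) (i : ι) : lgs (ξ i) ≤ refT μ ξ ζ₀ := by
  rw [lift_refT_eq]
  exact le_lse (fun a : Option ι => Option.elim a (μ * lgs ζ₀) fun l => lgs (ξ l)) (some i)

theorem mul_lgs_le_refT (μ : ℝ) (ξ : ι → ℂ) (ζ₀ : ℂ) : μ * lgs ζ₀ ≤ refT μ ξ ζ₀ := by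
  rw [lift_refT_eq]
  exact le_lse (fun a : Option ι => Option.elim a (μ * lgs ζ₀) fun l => lgs (ξ l)) none

theorem one_le_pL (μ : ℝ) (ξ : ι → ℂ) (ζ₀ : ℂ) (i : ι) : 1 ≤ pL μ ξ ζ₀ i := by
  unfold pL
  linarith [lgs_le_refT μ ξ ζ₀ i]

theorem contDiffAt_refT (μ : ℝ) (hF : ∀ i, HolAt (F i) z) (hF0 : ∀ i, F i z ≠ 0) (he : HolAt e z)
    (he0 : e z ≠ 0) : ContDiffAt ℝ ∞ (fun y => refT μ (fun i => F i y) (e y)) z := by
  have e1 : (fun y => refT μ (fun i => F i y) (e y)) = fun y => Real.log (∑ a : Option ι,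
      Real.exp ((fun (a : Option ι) (y : Cn n) =>
        Option.elim a (μ * lgs (e y)) fun l => lgs (F l y)) a y)) :=
    funext fun y => lift_refT_eq μ _ _
  rw [e1]
  exact contDiffAt_lse _ fun a => lift_refU_contDiffAt μ hF hF0 he he0 a

theorem levi_refT_nonneg (μ : ℝ) (hF : ∀ i, HolAt (F i) z) (hF0 : ∀ i, F i z ≠ 0) (he : HolAt e z)
    (he0 : e z ≠ 0) (a : Cn n) : 0 ≤ levi (fun y => refT μ (fun i => F i y) (e y)) z a := by
  have e1 : (fun y => refT μ (fun i => F i y) (e y)) = fun y => Real.log (∑ a : Option ι,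
      Real.exp ((fun (a : Option ι) (y : Cn n) =>
        Option.elim a (μ * lgs (e y)) fun l => lgs (F l y)) a y)) :=
    funext fun y => lift_refT_eq μ _ _
  rw [e1]
  exact levi_log_sum_exp_nonneg _ (fun b => lift_two (lift_refU_contDiffAt μ hF hF0 he he0 b))
    fun b => (lift_refU_levi μ hF hF0 he he0 b a).ge

theorem contDiffAt_pL (μ : ℝ) (hF : ∀ i, HolAt (F i) z) (hF0 : ∀ i, F i z ≠ 0) (he : HolAt e z)
    (he0 : e z ≠ 0) (i : ι) : ContDiffAt ℝ ∞ (fun y => pL μ (fun i => F i y) (e y) i) z := by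
  unfold pL
  exact (contDiffAt_const.add (contDiffAt_refT μ hF hF0 he he0)).sub (contDiffAt_lgs (hF i) (hF0 i))

/-- **Poincare type inequality** -/
theorem levi_poincare (μ : ℝ) (hF : ∀ i, HolAt (F i) z) (hF0 : ∀ i, F i z ≠ 0) (he : HolAt e z)
    (he0 : e z ≠ 0) (i : ι) (a : Cn n) :
    ‖dAr (fun y => pL μ (fun i => F i y) (e y) i) z a‖ ^ 2 / (pL μ (fun i => F i z) (e z) i) ^ 2
      ≤ levi (fun y => refT μ (fun i => F i y) (e y) - Real.log (pL μ (fun i => F i y) (e y) i)) z a := by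
  obtain ⟨R, hR⟩ : ∃ R : Cn n → ℝ, R = fun y => refT μ (fun i => F i y) (e y) := ⟨_, rfl⟩
  obtain ⟨P, hP⟩ : ∃ P : Cn n → ℝ, P = fun y => pL μ (fun i => F i y) (e y) i := ⟨_, rfl⟩
  have hRs : ContDiffAt ℝ ∞ R z := hR ▸ contDiffAt_refT μ hF hF0 he he0
  have hPs : ContDiffAt ℝ ∞ P z := hP ▸ contDiffAt_pL μ hF hF0 he he0 i
  have hL : ContDiffAt ℝ ∞ (fun y => lgs (F i y)) z := contDiffAt_lgs (hF i) (hF0 i)
  have hP1 : 1 ≤ P z := by
    rw [hP]
    exact one_le_pL μ _ _ i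
  have hP0 : P z ≠ 0 := by linarith
  have hR0 : 0 ≤ levi R z a := by
    rw [hR]
    exact levi_refT_nonneg μ hF hF0 he he0 a
  have e1 : levi P z a = levi R z a := by
    have e : P = fun y => ((fun _ => (1 : ℝ)) y + R y) + (-1) * lgs (F i y) := by
      funext y
      simp only [hP, hR, pL]
      ring
    rw [e, levi_add (lift_two (contDiffAt_const.add hRs)) (lift_two (contDiffAt_const.mul hL)),
      levi_add contDiffAt_const (lift_two hRs), levi_const, levi_const_mul (-1) (lift_two hL),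
      levi_lgs (hF i) (hF0 i)]
    ring
  have hlogP : ContDiffAt ℝ ∞ (fun y => Real.log (P y)) z := hPs.log hP0
  have e2 : levi (fun y => Real.log (P y)) z a
      = (P z)⁻¹ * levi P z a + (-((P z) ^ 2)⁻¹) * ‖dAr P z a‖ ^ 2 := by
    rw [levi_comp Real.log (lift_two hPs) (Real.contDiffAt_log.2 hP0), Real.deriv_log,
      Real.deriv_log', deriv_inv]
    rfl
  have e3 : levi (fun y => R y - Real.log (P y)) z a
      = levi R z a - levi (fun y => Real.log (P y)) z a := by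
    have e : (fun y => R y - Real.log (P y)) = fun y => R y + (-1) * Real.log (P y) := by
      funext y
      ring
    rw [e, levi_add (lift_two hRs) (lift_two (contDiffAt_const.mul hlogP)),
      levi_const_mul (-1) (lift_two hlogP)]
    ring
  have hgoal : ‖dAr P z a‖ ^ 2 / (P z) ^ 2 ≤ levi (fun y => R y - Real.log (P y)) z a := by
    rw [e3, e2, e1]
    have h1 : (P z)⁻¹ ≤ 1 := inv_le_one_of_one_le₀ hP1
    have h2 : 0 ≤ levi R z a * (1 - (P z)⁻¹) := mul_nonneg hR0 (by linarith)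
    have key : levi R z a - ((P z)⁻¹ * levi R z a + -((P z) ^ 2)⁻¹ * ‖dAr P z a‖ ^ 2)
        = levi R z a * (1 - (P z)⁻¹) + ‖dAr P z a‖ ^ 2 / (P z) ^ 2 := by
      rw [div_eq_mul_inv]
      ring
    rw [key]
    linarith
  rw [hP, hR] at hgoal
  exact hgoal

theorem contDiffAt_poincare (μ : ℝ) (hF : ∀ i, HolAt (F i) z) (hF0 : ∀ i, F i z ≠ 0) (he : HolAt e z)
    (he0 : e z ≠ 0) (i : ι) :
    ContDiffAt ℝ ∞
      (fun y => refT μ (fun i => F i y) (e y) - Real.log (pL μ (fun i => F i y) (e y) i)) z := by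
  have h1 : 1 ≤ pL μ (fun i => F i z) (e z) i := one_le_pL μ _ _ i
  exact (contDiffAt_refT μ hF hF0 he he0).sub
    ((contDiffAt_pL μ hF hF0 he he0 i).log (by linarith))

/-- `isoT` as a log-sum-exp over a subtype -/
theorem lift_isoT_eq (q ν : ι → ℝ) (ξ : ι → ℂ) (ζ₀ : ℂ) :
    isoT q ν ξ ζ₀ = Real.log (∑ i : ↥(Finset.univ.filter fun i => 0 < q i),
      Real.exp ((q i.1)⁻¹ * lgs (ξ i.1) + ν i.1 * lgs ζ₀)) := by
  unfold isoT
  rw [Finset.sum_coe_sort (Finset.univ.filter fun i => 0 < q i)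
    (fun i => Real.exp ((q i)⁻¹ * lgs (ξ i) + ν i * lgs ζ₀))]
  congr 1
  refine Finset.sum_congr rfl fun i _ => ?_
  rw [div_eq_inv_mul]

theorem lift_isoU_contDiffAt (q ν : ι → ℝ) (hF : ∀ i, HolAt (F i) z) (hF0 : ∀ i, F i z ≠ 0)
    (he : HolAt e z) (he0 : e z ≠ 0) (i : ι) :
    ContDiffAt ℝ ∞ (fun y => (q i)⁻¹ * lgs (F i y) + ν i * lgs (e y)) z :=
  (contDiffAt_const.mul (contDiffAt_lgs (hF i) (hF0 i))).add
    (contDiffAt_const.mul (contDiffAt_lgs he he0))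

theorem lift_isoU_levi (q ν : ι → ℝ) (hF : ∀ i, HolAt (F i) z) (hF0 : ∀ i, F i z ≠ 0)
    (he : HolAt e z) (he0 : e z ≠ 0) (i : ι) (v : Cn n) :
    levi (fun y => (q i)⁻¹ * lgs (F i y) + ν i * lgs (e y)) z v = 0 := by
  rw [levi_add (lift_two (contDiffAt_const.mul (contDiffAt_lgs (hF i) (hF0 i))))
      (lift_two (contDiffAt_const.mul (contDiffAt_lgs he he0))),
    levi_const_mul _ (lift_two (contDiffAt_lgs (hF i) (hF0 i))),
    levi_const_mul _ (lift_two (contDiffAt_lgs he he0)), levi_lgs (hF i) (hF0 i), levi_lgs he he0]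
  ring

theorem contDiffAt_isoT (q ν : ι → ℝ) (hq : ∃ i, 0 < q i) (hF : ∀ i, HolAt (F i) z)
    (hF0 : ∀ i, F i z ≠ 0) (he : HolAt e z) (he0 : e z ≠ 0) :
    ContDiffAt ℝ ∞ (fun y => isoT q ν (fun i => F i y) (e y)) z := by
  have : Nonempty ↥(Finset.univ.filter fun i => 0 < q i) := by
    obtain ⟨i, hi⟩ := hq
    exact ⟨⟨i, Finset.mem_filter.2 ⟨Finset.mem_univ i, hi⟩⟩⟩
  have e1 : (fun y => isoT q ν (fun i => F i y) (e y)) = fun y =>
      Real.log (∑ i : ↥(Finset.univ.filter fun i => 0 < q i),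
        Real.exp ((fun (i : ↥(Finset.univ.filter fun i => 0 < q i)) (y : Cn n) =>
          (q i.1)⁻¹ * lgs (F i.1 y) + ν i.1 * lgs (e y)) i y)) :=
    funext fun y => lift_isoT_eq q ν _ _
  rw [e1]
  exact contDiffAt_lse _ fun i => lift_isoU_contDiffAt q ν hF hF0 he he0 i.1

theorem levi_isoT_nonneg (q ν : ι → ℝ) (hq : ∃ i, 0 < q i) (hF : ∀ i, HolAt (F i) z)
    (hF0 : ∀ i, F i z ≠ 0) (he : HolAt e z) (he0 : e z ≠ 0) (a : Cn n) :
    0 ≤ levi (fun y => isoT q ν (fun i => F i y) (e y)) z a := by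
  have : Nonempty ↥(Finset.univ.filter fun i => 0 < q i) := by
    obtain ⟨i, hi⟩ := hq
    exact ⟨⟨i, Finset.mem_filter.2 ⟨Finset.mem_univ i, hi⟩⟩⟩
  have e1 : (fun y => isoT q ν (fun i => F i y) (e y)) = fun y =>
      Real.log (∑ i : ↥(Finset.univ.filter fun i => 0 < q i),
        Real.exp ((fun (i : ↥(Finset.univ.filter fun i => 0 < q i)) (y : Cn n) =>
          (q i.1)⁻¹ * lgs (F i.1 y) + ν i.1 * lgs (e y)) i y)) :=
    funext fun y => lift_isoT_eq q ν _ _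
  rw [e1]
  exact levi_log_sum_exp_nonneg _ (fun i => lift_two (lift_isoU_contDiffAt q ν hF hF0 he he0 i.1))
    fun i => (lift_isoU_levi q ν hF hF0 he he0 i.1 a).ge

theorem contDiffAt_lsq [Nonempty ι] (hF : ∀ i, HolAt (F i) z) (hF0 : ∀ i, F i z ≠ 0) :
    ContDiffAt ℝ ∞ (fun y => lsq (fun i => F i y)) z := by
  have hpos : 0 < ∑ l, ‖F l z‖ ^ 2 :=
    Finset.sum_pos (fun l _ => by
      have : 0 < ‖F l z‖ := norm_pos_iff.2 (hF0 l)
      positivity) Finset.univ_nonempty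
  unfold lsq
  exact (ContDiffAt.sum fun l _ => (hF l).contDiffAt.norm_sq ℝ).log hpos.ne'

theorem levi_lsq_nonneg [Nonempty ι] (hF : ∀ i, HolAt (F i) z) (hF0 : ∀ i, F i z ≠ 0) (a : Cn n) :
    0 ≤ levi (fun y => lsq (fun i => F i y)) z a := by
  have hev : (fun y => lsq (fun i => F i y)) =ᶠ[𝓝 z]
      fun y => Real.log (∑ l, Real.exp ((fun (l : ι) (y : Cn n) => lgs (F l y)) l y)) := by
    have h1 : ∀ᶠ y in 𝓝 z, ∀ l, F l y ≠ 0 :=
      Filter.eventually_all.2 fun l => (hF l).differentiableAt.continuousAt.eventually_ne (hF0 l)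
    filter_upwards [h1] with y hy
    unfold lsq
    congr 1
    exact Finset.sum_congr rfl fun l _ => (exp_lgs (hy l)).symm
  rw [levi_congr hev]
  exact levi_log_sum_exp_nonneg _ (fun l => lift_two (contDiffAt_lgs (hF l) (hF0 l)))
    fun l => (levi_lgs (hF l) (hF0 l) a).ge

theorem lsq_zetaOf (he0 : e z ≠ 0) : lsq (zetaOf C e z) = lgs (e z) + Real.log (1 + ∑ j, ‖z j + C‖ ^ 2) := by
  have h1 : 0 < ‖e z‖ := norm_pos_iff.2 he0
  have h2 : 0 < 1 + ∑ j, ‖z j + C‖ ^ 2 := by positivity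
  unfold lsq lgs
  rw [Fin.sum_univ_succ, ← Real.log_mul (by positivity) h2.ne']
  simp only [zetaOf, Fin.cons_zero, Fin.cons_succ, norm_mul, mul_pow]
  rw [← Finset.sum_mul]
  congr 1
  ring

theorem lift_contDiffAt_fs (c : ℂ) (z : Cn n) :
    ContDiffAt ℝ ∞ (fun y : Cn n => 1 + ∑ j, ‖y j - c‖ ^ 2) z :=
  contDiffAt_const.add (ContDiffAt.sum fun j _ =>
    ((contDiff_apply ℝ ℂ j).sub contDiff_const).contDiffAt.norm_sq ℝ)

theorem lift_contDiffAt_log_fs (c : ℂ) (z : Cn n) :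
    ContDiffAt ℝ ∞ (fun y : Cn n => Real.log (1 + ∑ j, ‖y j - c‖ ^ 2)) z :=
  (lift_contDiffAt_fs c z).log (by positivity)

theorem lift_dAr_fs (c : ℂ) (z a : Cn n) :
    dAr (fun y : Cn n => 1 + ∑ j, ‖y j - c‖ ^ 2) z a = ∑ j, conj (z j - c) * a j := by
  have hd : ∀ k : Fin n, DifferentiableAt ℝ (fun y : Cn n => ((‖y k - c‖ ^ 2 : ℝ) : ℂ)) z := fun k =>
    (Complex.ofRealCLM.contDiff.contDiffAt.comp z
      (((contDiff_apply ℝ ℂ k).sub contDiff_const).contDiffAt.norm_sq ℝ :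
        ContDiffAt ℝ 1 (fun y : Cn n => ‖y k - c‖ ^ 2) z)).differentiableAt one_ne_zero
  have e : (fun y : Cn n => ((1 + ∑ j, ‖y j - c‖ ^ 2 : ℝ) : ℂ))
      = fun y => (fun _ => (1 : ℂ)) y + ∑ k, ((‖y k - c‖ ^ 2 : ℝ) : ℂ) := by
    funext y
    rw [Complex.ofReal_add, Complex.ofReal_one, Complex.ofReal_sum]
  unfold dAr
  refine Finset.sum_congr rfl fun j _ => ?_
  rw [e, dz_add (differentiableAt_const _) (DifferentiableAt.fun_sum fun k _ => hd k), dz_const,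
    dz_sum _ _ fun k _ => hd k]
  simp only [dz_normSq_coord, Finset.sum_ite_eq, Finset.mem_univ, if_true, zero_add]

theorem lift_levi_fs (c : ℂ) (z a : Cn n) :
    levi (fun y : Cn n => 1 + ∑ j, ‖y j - c‖ ^ 2) z a = ∑ j, ‖a j‖ ^ 2 := by
  have hk : ∀ k : Fin n, ContDiffAt ℝ 2 (fun y : Cn n => ‖y k - c‖ ^ 2) z := fun k =>
    ((contDiff_apply ℝ ℂ k).sub contDiff_const).contDiffAt.norm_sq ℝ
  have e : (fun y : Cn n => 1 + ∑ j, ‖y j - c‖ ^ 2)
      = fun y => (fun _ => (1 : ℝ)) y + ∑ j, ‖y j - c‖ ^ 2 := rfl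
  rw [e, levi_add contDiffAt_const (ContDiffAt.sum fun k _ => hk k), levi_const,
    levi_sum _ _ fun k _ => hk k, zero_add]
  exact Finset.sum_congr rfl fun k _ => levi_normSq_coord k c

/-- the Fubini-Study form in the affine chart -/
theorem lift_levi_log_fs (c : ℂ) (z a : Cn n) :
    (∑ j, ‖a j‖ ^ 2) / (1 + ∑ j, ‖z j - c‖ ^ 2) ^ 2
      ≤ levi (fun y : Cn n => Real.log (1 + ∑ j, ‖y j - c‖ ^ 2)) z a := by
  have hu0 : 0 < 1 + ∑ j, ‖z j - c‖ ^ 2 := by positivity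
  have e2 : levi (fun y : Cn n => Real.log (1 + ∑ j, ‖y j - c‖ ^ 2)) z a
      = (1 + ∑ j, ‖z j - c‖ ^ 2)⁻¹ * ∑ j, ‖a j‖ ^ 2
        + (-((1 + ∑ j, ‖z j - c‖ ^ 2) ^ 2)⁻¹) * ‖∑ j, conj (z j - c) * a j‖ ^ 2 := by
    rw [levi_comp (u := fun y : Cn n => 1 + ∑ j, ‖y j - c‖ ^ 2) Real.log
      (lift_two (lift_contDiffAt_fs c z)) (Real.contDiffAt_log.2 hu0.ne'), Real.deriv_log,
      Real.deriv_log', deriv_inv, lift_levi_fs, ← lift_dAr_fs c z a]
    rfl
  have cs : ‖∑ j, conj (z j - c) * a j‖ ^ 2 ≤ (∑ j, ‖z j - c‖ ^ 2) * ∑ j, ‖a j‖ ^ 2 := by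
    calc ‖∑ j, conj (z j - c) * a j‖ ^ 2 ≤ (∑ j, ‖z j - c‖ * ‖a j‖) ^ 2 := by
          refine pow_le_pow_left₀ (norm_nonneg _) ((norm_sum_le _ _).trans (le_of_eq ?_)) 2
          refine Finset.sum_congr rfl fun j _ => ?_
          rw [norm_mul, RCLike.norm_conj]
      _ ≤ _ := Finset.sum_mul_sq_le_sq_mul_sq _ _ _
  rw [e2]
  generalize (∑ j, ‖z j - c‖ ^ 2) = s at hu0 cs ⊢
  generalize (∑ j, ‖a j‖ ^ 2) = A at cs ⊢
  generalize ‖∑ j, conj (z j - c) * a j‖ ^ 2 = X at cs ⊢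
  have hne : (1 + s) ≠ 0 := hu0.ne'
  have hinv : 0 < ((1 + s) ^ 2)⁻¹ := inv_pos.2 (pow_pos hu0 2)
  have key : (1 + s)⁻¹ * A + -((1 + s) ^ 2)⁻¹ * X - A / (1 + s) ^ 2
      = ((1 + s) ^ 2)⁻¹ * (s * A - X) := by
    field_simp
    ring
  have : 0 ≤ ((1 + s) ^ 2)⁻¹ * (s * A - X) := mul_nonneg hinv.le (by linarith)
  linarith

theorem contDiffAt_lsq_zetaOf (he : HolAt e z) (he0 : e z ≠ 0) :
    ContDiffAt ℝ ∞ (fun y => lsq (zetaOf C e y)) z := by
  have hev : (fun y => lsq (zetaOf C e y)) =ᶠ[𝓝 z]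
      fun y => lgs (e y) + Real.log (1 + ∑ j, ‖y j - (-C)‖ ^ 2) := by
    filter_upwards [he.differentiableAt.continuousAt.eventually_ne he0] with y hy
    rw [lsq_zetaOf hy]
    simp only [sub_neg_eq_add]
  refine ContDiffAt.congr_of_eventuallyEq ?_ hev
  exact (contDiffAt_lgs he he0).add (lift_contDiffAt_log_fs (-C) z)

/-- **Fubini-Study bound** -/
theorem levi_lsq_zetaOf (he : HolAt e z) (he0 : e z ≠ 0) (a : Cn n) :
    (∑ j, ‖a j‖ ^ 2) / (1 + ∑ j, ‖z j + C‖ ^ 2) ^ 2 ≤ levi (fun y => lsq (zetaOf C e y)) z a := by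
  have hev : (fun y => lsq (zetaOf C e y)) =ᶠ[𝓝 z]
      fun y => lgs (e y) + Real.log (1 + ∑ j, ‖y j - (-C)‖ ^ 2) := by
    filter_upwards [he.differentiableAt.continuousAt.eventually_ne he0] with y hy
    rw [lsq_zetaOf hy]
    simp only [sub_neg_eq_add]
  rw [levi_congr hev, levi_add (lift_two (contDiffAt_lgs he he0))
    (lift_two (lift_contDiffAt_log_fs (-C) z)), levi_lgs he he0, zero_add]
  have := lift_levi_log_fs (-C) z a
  simpa only [sub_neg_eq_add] using this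

end three

/-! ### 4. the weights along holomorphic tuples -/

section four

variable {ι : Type*} [Fintype ι] {z : Cn n} {F : ι → Cn n → ℂ} {e : Cn n → ℂ} {C : ℂ}

theorem contDiffAt_wtT_zetaOf (μ : ℝ) (b q ν : ι → ℝ) (η ε c : ℝ) (hq : ∃ i, 0 < q i)
    (hF : ∀ i, HolAt (F i) z) (hF0 : ∀ i, F i z ≠ 0) (he : HolAt e z) (he0 : e z ≠ 0) :
    ContDiffAt ℝ ∞ (fun y => wtT μ b q ν η ε c (fun i => F i y) (zetaOf C e y)) z := by
  unfold wtT
  refine ((contDiffAt_const.mul (ContDiffAt.sum fun i _ =>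
    contDiffAt_const.mul (contDiffAt_lgs (hF i) (hF0 i)))).add
    (contDiffAt_const.mul (contDiffAt_isoT q ν hq hF hF0 he he0))).add
    (contDiffAt_const.mul (ContDiffAt.sum fun i _ => contDiffAt_poincare μ hF hF0 he he0 i)) |>.add
    (contDiffAt_const.mul (contDiffAt_lsq_zetaOf he he0))

/-- lower bound of the Levi form of the weight of the final lift -/
theorem levi_wtT_zetaOf_ge (μ : ℝ) (b q ν : ι → ℝ) (η ε c : ℝ) (hq : ∃ i, 0 < q i) (hη : 0 ≤ η)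
    (hε : 0 ≤ ε) (hc : 0 ≤ c)
    (hF : ∀ i, HolAt (F i) z) (hF0 : ∀ i, F i z ≠ 0) (he : HolAt e z) (he0 : e z ≠ 0) (a : Cn n) :
    ε * ∑ i, ‖dAr (fun y => pL μ (fun i => F i y) (e y) i) z a‖ ^ 2 / (pL μ (fun i => F i z) (e z) i) ^ 2
        + c * ((∑ j, ‖a j‖ ^ 2) / (1 + ∑ j, ‖z j + C‖ ^ 2) ^ 2)
      ≤ levi (fun y => wtT μ b q ν η ε c (fun i => F i y) (zetaOf C e y)) z a := by
  have two : (2 : WithTop ℕ∞) ≤ ((⊤ : ℕ∞) : WithTop ℕ∞) := by decide
  have g1 : ∀ i, ContDiffAt ℝ 2 (fun y => lgs (F i y)) z := fun i =>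
    (contDiffAt_lgs (hF i) (hF0 i)).of_le two
  have g1' : ∀ i, ContDiffAt ℝ 2 (fun y => b i * lgs (F i y)) z := fun i =>
    contDiffAt_const.mul (g1 i)
  have g1s : ContDiffAt ℝ 2 (fun y => ∑ i, b i * lgs (F i y)) z := ContDiffAt.sum fun i _ => g1' i
  have g2 : ContDiffAt ℝ 2 (fun y => isoT q ν (fun i => F i y) (e y)) z :=
    (contDiffAt_isoT q ν hq hF hF0 he he0).of_le two
  have g3 : ∀ i, ContDiffAt ℝ 2
      (fun y => refT μ (fun i => F i y) (e y) - Real.log (pL μ (fun i => F i y) (e y) i)) z :=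
    fun i => (contDiffAt_poincare μ hF hF0 he he0 i).of_le two
  have g3s : ContDiffAt ℝ 2
      (fun y => ∑ i, (refT μ (fun i => F i y) (e y) - Real.log (pL μ (fun i => F i y) (e y) i))) z :=
    ContDiffAt.sum fun i _ => g3 i
  have g4 : ContDiffAt ℝ 2 (fun y => lsq (zetaOf C e y)) z := (contDiffAt_lsq_zetaOf he he0).of_le two
  have h1 : ContDiffAt ℝ 2 (fun y => (1 - η) * ∑ i, b i * lgs (F i y)) z := contDiffAt_const.mul g1s
  have h2 : ContDiffAt ℝ 2 (fun y => η * isoT q ν (fun i => F i y) (e y)) z := contDiffAt_const.mul g2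
  have h3 : ContDiffAt ℝ 2 (fun y => ε *
      ∑ i, (refT μ (fun i => F i y) (e y) - Real.log (pL μ (fun i => F i y) (e y) i))) z :=
    contDiffAt_const.mul g3s
  have h4 : ContDiffAt ℝ 2 (fun y => c * lsq (zetaOf C e y)) z := contDiffAt_const.mul g4
  have hsplit : (fun y => wtT μ b q ν η ε c (fun i => F i y) (zetaOf C e y)) = fun y =>
      (1 - η) * ∑ i, b i * lgs (F i y) + η * isoT q ν (fun i => F i y) (e y)
        + ε * ∑ i, (refT μ (fun i => F i y) (e y) - Real.log (pL μ (fun i => F i y) (e y) i))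
        + c * lsq (zetaOf C e y) := rfl
  rw [hsplit, levi_add ((h1.add h2).add h3) h4, levi_add (h1.add h2) h3, levi_add h1 h2,
    levi_const_mul _ g1s, levi_const_mul _ g2, levi_const_mul _ g3s, levi_const_mul _ g4,
    levi_sum _ _ (fun i _ => g1' i), levi_sum _ _ (fun i _ => g3 i)]
  have e1 : ∑ i, levi (fun y => b i * lgs (F i y)) z a = 0 :=
    Finset.sum_eq_zero fun i _ => by rw [levi_const_mul _ (g1 i), levi_lgs (hF i) (hF0 i), mul_zero]
  rw [e1, mul_zero, zero_add]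
  have e2 : 0 ≤ η * levi (fun y => isoT q ν (fun i => F i y) (e y)) z a :=
    mul_nonneg hη (levi_isoT_nonneg q ν hq hF hF0 he he0 a)
  have e3 : ε * ∑ i, ‖dAr (fun y => pL μ (fun i => F i y) (e y) i) z a‖ ^ 2
        / (pL μ (fun i => F i z) (e z) i) ^ 2
      ≤ ε * ∑ i, levi (fun y => refT μ (fun i => F i y) (e y)
        - Real.log (pL μ (fun i => F i y) (e y) i)) z a :=
    mul_le_mul_of_nonneg_left (Finset.sum_le_sum fun i _ => levi_poincare μ hF hF0 he he0 i a) hε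
  have e4 : c * ((∑ j, ‖a j‖ ^ 2) / (1 + ∑ j, ‖z j + C‖ ^ 2) ^ 2)
      ≤ c * levi (fun y => lsq (zetaOf C e y)) z a :=
    mul_le_mul_of_nonneg_left (levi_lsq_zetaOf he he0 a) hc
  linarith

theorem contDiffAt_wtO_zetaOf [Nonempty ι] (h c : ℝ)
    (hF : ∀ i, HolAt (F i) z) (hF0 : ∀ i, F i z ≠ 0) (he : HolAt e z) (he0 : e z ≠ 0) :
    ContDiffAt ℝ ∞ (fun y => wtO h c (fun i => F i y) (zetaOf C e y)) z := by
  unfold wtO
  exact (contDiffAt_const.mul (contDiffAt_lsq hF hF0)).add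
    (contDiffAt_const.mul (contDiffAt_lsq_zetaOf he he0))

theorem levi_wtO_zetaOf_ge [Nonempty ι] (h c : ℝ) (hh : 0 < h) (hc : 0 ≤ c)
    (hF : ∀ i, HolAt (F i) z) (hF0 : ∀ i, F i z ≠ 0) (he : HolAt e z) (he0 : e z ≠ 0) (a : Cn n) :
    c * ((∑ j, ‖a j‖ ^ 2) / (1 + ∑ j, ‖z j + C‖ ^ 2) ^ 2)
      ≤ levi (fun y => wtO h c (fun i => F i y) (zetaOf C e y)) z a := by
  have two : (2 : WithTop ℕ∞) ≤ ((⊤ : ℕ∞) : WithTop ℕ∞) := by decide
  have g1 : ContDiffAt ℝ 2 (fun y => lsq (fun i => F i y)) z := (contDiffAt_lsq hF hF0).of_le two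
  have g2 : ContDiffAt ℝ 2 (fun y => lsq (zetaOf C e y)) z := (contDiffAt_lsq_zetaOf he he0).of_le two
  have hsplit : (fun y => wtO h c (fun i => F i y) (zetaOf C e y)) = fun y =>
      1 / h * lsq (fun i => F i y) + c * lsq (zetaOf C e y) := rfl
  rw [hsplit, levi_add (contDiffAt_const.mul g1) (contDiffAt_const.mul g2), levi_const_mul _ g1,
    levi_const_mul _ g2]
  have e1 : 0 ≤ 1 / h * levi (fun y => lsq (fun i => F i y)) z a :=
    mul_nonneg (by positivity) (levi_lsq_nonneg hF hF0 a)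
  have e2 : c * ((∑ j, ‖a j‖ ^ 2) / (1 + ∑ j, ‖z j + C‖ ^ 2) ^ 2)
      ≤ c * levi (fun y => lsq (zetaOf C e y)) z a :=
    mul_le_mul_of_nonneg_left (levi_lsq_zetaOf he he0 a) hc
  linarith

end four

/-! ### 5. universal weights -/

section five

variable {ι : Type*} [Fintype ι]

theorem uw_lgs_scale {t ξ : ℂ} (ht : t ≠ 0) (hξ : ξ ≠ 0) (d : ℕ) :
    lgs (t ^ d * ξ) = lgs ξ + d * lgs t := by
  rw [lgs_mul (pow_ne_zero d ht) hξ, lgs_pow]
  ring

theorem uw_lse_finset_add {α : Type*} (s : Finset α) (hs : s.Nonempty) (U : α → ℝ) (c : ℝ) :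
    Real.log (∑ a ∈ s, Real.exp (U a + c)) = Real.log (∑ a ∈ s, Real.exp (U a)) + c := by
  have hpos : 0 < ∑ a ∈ s, Real.exp (U a) := Finset.sum_pos (fun a _ => Real.exp_pos _) hs
  simp_rw [Real.exp_add]
  rw [← Finset.sum_mul, Real.log_mul hpos.ne' (Real.exp_pos c).ne', Real.log_exp]

theorem uw_lse_finset_le {α : Type*} (s : Finset α) (hs : s.Nonempty) (U : α → ℝ) (M : ℝ)
    (h : ∀ a ∈ s, U a ≤ M) : Real.log (∑ a ∈ s, Real.exp (U a)) ≤ M + Real.log s.card := by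
  have hpos : 0 < ∑ a ∈ s, Real.exp (U a) := Finset.sum_pos (fun a _ => Real.exp_pos _) hs
  have hcard : (0 : ℝ) < s.card := by exact_mod_cast hs.card_pos
  have hle : ∑ a ∈ s, Real.exp (U a) ≤ s.card * Real.exp M := by
    calc ∑ a ∈ s, Real.exp (U a) ≤ ∑ _a ∈ s, Real.exp M :=
          Finset.sum_le_sum fun a ha => Real.exp_le_exp.2 (h a ha)
      _ = s.card * Real.exp M := by rw [Finset.sum_const, nsmul_eq_mul]
  calc Real.log (∑ a ∈ s, Real.exp (U a)) ≤ Real.log (s.card * Real.exp M) :=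
        Real.log_le_log hpos hle
    _ = M + Real.log s.card := by
        rw [Real.log_mul hcard.ne' (Real.exp_pos M).ne', Real.log_exp]
        ring

theorem uw_refT_scale (m k₀ : ℕ) (hk₀ : 1 ≤ k₀) {t : ℂ} (ht : t ≠ 0) {ξ : ι → ℂ}
    (hξ : ∀ i, ξ i ≠ 0) {ζ₀ : ℂ} (hζ : ζ₀ ≠ 0) :
    refT ((m : ℝ) / k₀) (fun i => t ^ m * ξ i) (t ^ k₀ * ζ₀)
      = refT ((m : ℝ) / k₀) ξ ζ₀ + m * lgs t := by
  have hk : (k₀ : ℝ) ≠ 0 := by
    have : 0 < k₀ := hk₀
    exact_mod_cast this.ne'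
  have hpos : 0 < ∑ l, Real.exp (lgs (ξ l)) + Real.exp ((m : ℝ) / k₀ * lgs ζ₀) :=
    add_pos_of_nonneg_of_pos (Finset.sum_nonneg fun l _ => (Real.exp_pos _).le) (Real.exp_pos _)
  have h1 : ∀ l, Real.exp (lgs (t ^ m * ξ l)) = Real.exp (lgs (ξ l)) * Real.exp (m * lgs t) :=
    fun l => by rw [uw_lgs_scale ht (hξ l), Real.exp_add]
  have h2 : Real.exp ((m : ℝ) / k₀ * lgs (t ^ k₀ * ζ₀))
      = Real.exp ((m : ℝ) / k₀ * lgs ζ₀) * Real.exp (m * lgs t) := by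
    rw [uw_lgs_scale ht hζ, ← Real.exp_add]
    congr 1
    field_simp
  unfold refT
  simp_rw [h1]
  rw [h2, ← Finset.sum_mul, ← add_mul, Real.log_mul hpos.ne' (Real.exp_pos _).ne', Real.log_exp]

theorem uw_pL_scale (m k₀ : ℕ) (hk₀ : 1 ≤ k₀) {t : ℂ} (ht : t ≠ 0) {ξ : ι → ℂ}
    (hξ : ∀ i, ξ i ≠ 0) {ζ₀ : ℂ} (hζ : ζ₀ ≠ 0) (i : ι) :
    pL ((m : ℝ) / k₀) (fun i => t ^ m * ξ i) (t ^ k₀ * ζ₀) i = pL ((m : ℝ) / k₀) ξ ζ₀ i := by
  unfold pL
  rw [uw_refT_scale m k₀ hk₀ ht hξ hζ, uw_lgs_scale ht (hξ i)]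
  ring

theorem uw_isoT_scale (m k₀ : ℕ) (q ν : ι → ℝ) (ub : ℝ) (hq : ∃ i, 0 < q i)
    (hub : ∀ i, 0 < q i → m / q i + ν i * k₀ = ub) {t : ℂ} (ht : t ≠ 0) {ξ : ι → ℂ}
    (hξ : ∀ i, ξ i ≠ 0) {ζ₀ : ℂ} (hζ : ζ₀ ≠ 0) :
    isoT q ν (fun i => t ^ m * ξ i) (t ^ k₀ * ζ₀) = isoT q ν ξ ζ₀ + ub * lgs t := by
  have hne : (Finset.univ.filter fun i => 0 < q i).Nonempty := by
    obtain ⟨i, hi⟩ := hq
    exact ⟨i, Finset.mem_filter.2 ⟨Finset.mem_univ i, hi⟩⟩
  unfold isoT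
  rw [← uw_lse_finset_add _ hne]
  congr 1
  refine Finset.sum_congr rfl fun i hi => ?_
  have hi' : 0 < q i := (Finset.mem_filter.1 hi).2
  rw [uw_lgs_scale ht (hξ i), uw_lgs_scale ht hζ, ← hub i hi']
  congr 1
  ring

theorem uw_lsq_scale [Nonempty ι] (d : ℕ) {t : ℂ} (ht : t ≠ 0) {ξ : ι → ℂ} (hξ : ∀ i, ξ i ≠ 0) :
    lsq (fun i => t ^ d * ξ i) = lsq ξ + d * lgs t := by
  have hpos : 0 < ∑ l, ‖ξ l‖ ^ 2 :=
    Finset.sum_pos (fun l _ => by have := norm_pos_iff.2 (hξ l); positivity) Finset.univ_nonempty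
  have ht' : 0 < ‖t‖ ^ 2 := by have := norm_pos_iff.2 ht; positivity
  have h1 : ∀ l, ‖t ^ d * ξ l‖ ^ 2 = (‖t‖ ^ 2) ^ d * ‖ξ l‖ ^ 2 := fun l => by
    rw [norm_mul, norm_pow]
    ring
  unfold lsq lgs
  simp_rw [h1]
  rw [← Finset.mul_sum, Real.log_mul (pow_pos ht' d).ne' hpos.ne', Real.log_pow]
  ring

theorem uw_X_nonneg {κ : Type*} [Fintype κ] (v : κ → ℂ) : 0 ≤ Real.log (1 + ∑ i, ‖v i‖ ^ 2) :=
  Real.log_nonneg (by linarith [Finset.sum_nonneg fun (i : κ) (_ : i ∈ Finset.univ) => sq_nonneg ‖v i‖])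

theorem uw_lgs_le {κ : Type*} [Fintype κ] (v : κ → ℂ) (i : κ) (hi : v i ≠ 0) :
    lgs (v i) ≤ Real.log (1 + ∑ i, ‖v i‖ ^ 2) := by
  have h1 : 0 < ‖v i‖ ^ 2 := by have := norm_pos_iff.2 hi; positivity
  have h2 : ‖v i‖ ^ 2 ≤ ∑ i, ‖v i‖ ^ 2 :=
    Finset.single_le_sum (f := fun i => ‖v i‖ ^ 2) (fun j _ => sq_nonneg _) (Finset.mem_univ i)
  exact Real.log_le_log h1 (by linarith)

/-- `lsq` of a subfamily -/
theorem uw_lsq_le {κ κ' : Type*} [Fintype κ] [Fintype κ'] [Nonempty κ'] (v : κ → ℂ) (f : κ' → κ)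
    (hf : Function.Injective f) (hv : ∀ i, v i ≠ 0) :
    lsq (fun j => v (f j)) ≤ Real.log (1 + ∑ i, ‖v i‖ ^ 2) := by
  classical
  have hpos : 0 < ∑ l, ‖v (f l)‖ ^ 2 :=
    Finset.sum_pos (fun l _ => by have := norm_pos_iff.2 (hv (f l)); positivity) Finset.univ_nonempty
  have hle : ∑ l, ‖v (f l)‖ ^ 2 ≤ ∑ i, ‖v i‖ ^ 2 := by
    rw [← Finset.sum_image (f := fun i => ‖v i‖ ^ 2) (s := Finset.univ) (g := f)
      (fun a _ b _ h => hf h)]
    exact Finset.sum_le_sum_of_subset_of_nonneg (Finset.subset_univ _) fun i _ _ => sq_nonneg _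
  exact Real.log_le_log hpos (by linarith)

theorem uw_refT_le (μ : ℝ) (hμ : 0 ≤ μ) (ξ : ι → ℂ) (ζ₀ : ℂ) (X : ℝ) (hX : 0 ≤ X)
    (hξ : ∀ i, lgs (ξ i) ≤ X) (hζ : lgs ζ₀ ≤ X) :
    refT μ ξ ζ₀ ≤ (1 + μ) * X + Real.log (Fintype.card ι + 1) := by
  have hpos : 0 < ∑ l, Real.exp (lgs (ξ l)) + Real.exp (μ * lgs ζ₀) :=
    add_pos_of_nonneg_of_pos (Finset.sum_nonneg fun l _ => (Real.exp_pos _).le) (Real.exp_pos _)
  have hM : X ≤ (1 + μ) * X := by nlinarith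
  have hM' : μ * lgs ζ₀ ≤ (1 + μ) * X := by nlinarith
  have hle : ∑ l, Real.exp (lgs (ξ l)) + Real.exp (μ * lgs ζ₀)
      ≤ (Fintype.card ι + 1) * Real.exp ((1 + μ) * X) := by
    have h1 : ∑ l, Real.exp (lgs (ξ l)) ≤ ∑ _l : ι, Real.exp ((1 + μ) * X) :=
      Finset.sum_le_sum fun l _ => Real.exp_le_exp.2 ((hξ l).trans hM)
    rw [Finset.sum_const, nsmul_eq_mul, Finset.card_univ] at h1
    have h2 := Real.exp_le_exp.2 hM'
    linarith
  have hc : (0 : ℝ) < Fintype.card ι + 1 := by positivity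
  unfold refT
  calc Real.log (∑ l, Real.exp (lgs (ξ l)) + Real.exp (μ * lgs ζ₀))
      ≤ Real.log ((Fintype.card ι + 1) * Real.exp ((1 + μ) * X)) := Real.log_le_log hpos hle
    _ = (1 + μ) * X + Real.log (Fintype.card ι + 1) := by
        rw [Real.log_mul hc.ne' (Real.exp_pos _).ne', Real.log_exp]
        ring

theorem uw_wtT_scale (m k₀ : ℕ) (hk₀ : 1 ≤ k₀) (b q ν : ι → ℝ) (η ε c ub : ℝ) (hq : ∃ i, 0 < q i)
    (hub : ∀ i, 0 < q i → m / q i + ν i * k₀ = ub) {t : ℂ} (ht : t ≠ 0) {ξ : ι → ℂ}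
    (hξ : ∀ i, ξ i ≠ 0) {ζ : Fin (n + 1) → ℂ} (hζ : ∀ j, ζ j ≠ 0) :
    wtT ((m : ℝ) / k₀) b q ν η ε c (fun i => t ^ m * ξ i) (fun j => t ^ k₀ * ζ j)
      = wtT ((m : ℝ) / k₀) b q ν η ε c ξ ζ
        + ((1 - η) * (m * ∑ i, b i) + η * ub + ε * (Fintype.card ι * m) + c * k₀) * lgs t := by
  have e1 : ∑ i, b i * lgs (t ^ m * ξ i) = ∑ i, b i * lgs (ξ i) + (∑ i, b i) * (m * lgs t) := by
    rw [Finset.sum_mul, ← Finset.sum_add_distrib]
    refine Finset.sum_congr rfl fun i _ => ?_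
    rw [uw_lgs_scale ht (hξ i)]
    ring
  have e2 := uw_isoT_scale m k₀ q ν ub hq hub ht hξ (hζ 0)
  have e3 : ∑ i, (refT ((m : ℝ) / k₀) (fun i => t ^ m * ξ i) (t ^ k₀ * ζ 0)
        - Real.log (pL ((m : ℝ) / k₀) (fun i => t ^ m * ξ i) (t ^ k₀ * ζ 0) i))
      = ∑ i, (refT ((m : ℝ) / k₀) ξ (ζ 0) - Real.log (pL ((m : ℝ) / k₀) ξ (ζ 0) i))
        + Fintype.card ι * (m * lgs t) := by
    have : (Fintype.card ι : ℝ) * (m * lgs t) = ∑ _i : ι, (m * lgs t) := by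
      rw [Finset.sum_const, nsmul_eq_mul, Finset.card_univ]
    rw [this, ← Finset.sum_add_distrib]
    refine Finset.sum_congr rfl fun i _ => ?_
    rw [uw_refT_scale m k₀ hk₀ ht hξ (hζ 0), uw_pL_scale m k₀ hk₀ ht hξ (hζ 0)]
    ring
  have e4 := uw_lsq_scale k₀ ht hζ
  show (1 - η) * ∑ i, b i * lgs (t ^ m * ξ i) + η * isoT q ν (fun i => t ^ m * ξ i) (t ^ k₀ * ζ 0)
      + ε * ∑ i, (refT ((m : ℝ) / k₀) (fun i => t ^ m * ξ i) (t ^ k₀ * ζ 0)
        - Real.log (pL ((m : ℝ) / k₀) (fun i => t ^ m * ξ i) (t ^ k₀ * ζ 0) i))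
      + c * lsq (fun j => t ^ k₀ * ζ j)
    = (1 - η) * ∑ i, b i * lgs (ξ i) + η * isoT q ν ξ (ζ 0)
      + ε * ∑ i, (refT ((m : ℝ) / k₀) ξ (ζ 0) - Real.log (pL ((m : ℝ) / k₀) ξ (ζ 0) i)) + c * lsq ζ
      + ((1 - η) * (m * ∑ i, b i) + η * ub + ε * (Fintype.card ι * m) + c * k₀) * lgs t
  rw [e1, e2, e3, e4]
  ring

theorem uw_wtT_upper (μ : ℝ) (hμ : 0 ≤ μ) (b q ν : ι → ℝ) (η ε c : ℝ) (hb : ∀ i, 0 ≤ b i)
    (hq : ∃ i, 0 < q i) (hη : 0 ≤ η) (hη1 : η ≤ 1) (hε : 0 ≤ ε) (hc : 0 ≤ c)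
    (hν : ∀ i, 0 < q i → 0 ≤ ν i) (ξ : ι → ℂ) (ζ : Fin (n + 1) → ℂ) (X : ℝ) (hX : 0 ≤ X)
    (hξ : ∀ i, lgs (ξ i) ≤ X) (hζ : lgs (ζ 0) ≤ X) (hζs : lsq ζ ≤ X) :
    wtT μ b q ν η ε c ξ ζ
      ≤ (η * Real.log ((Finset.univ.filter fun i => 0 < q i).card)
          + ε * (Fintype.card ι * Real.log (Fintype.card ι + 1)))
        + ((1 - η) * ∑ i, b i + η * ∑ i ∈ Finset.univ.filter (fun i => 0 < q i), (1 / q i + ν i)
          + ε * (Fintype.card ι * (1 + μ)) + c) * X := by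
  have hne : (Finset.univ.filter fun i => 0 < q i).Nonempty := by
    obtain ⟨i, hi⟩ := hq
    exact ⟨i, Finset.mem_filter.2 ⟨Finset.mem_univ i, hi⟩⟩
  have a1 : ∑ i, b i * lgs (ξ i) ≤ (∑ i, b i) * X := by
    rw [Finset.sum_mul]
    exact Finset.sum_le_sum fun i _ => mul_le_mul_of_nonneg_left (hξ i) (hb i)
  have a2 : isoT q ν ξ (ζ 0)
      ≤ (∑ i ∈ Finset.univ.filter (fun i => 0 < q i), (1 / q i + ν i)) * X
        + Real.log ((Finset.univ.filter fun i => 0 < q i).card) := by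
    unfold isoT
    refine uw_lse_finset_le _ hne _ _ fun i hi => ?_
    have hi' : 0 < q i := (Finset.mem_filter.1 hi).2
    have h1 : lgs (ξ i) / q i ≤ X / q i := div_le_div_of_nonneg_right (hξ i) hi'.le
    have h2 : ν i * lgs (ζ 0) ≤ ν i * X := mul_le_mul_of_nonneg_left hζ (hν i hi')
    have h3 : 1 / q i + ν i ≤ ∑ i ∈ Finset.univ.filter (fun i => 0 < q i), (1 / q i + ν i) :=
      Finset.single_le_sum (f := fun i => 1 / q i + ν i) (fun j hj => by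
        have hj' : 0 < q j := (Finset.mem_filter.1 hj).2
        have := hν j hj'
        positivity) hi
    have h4 := mul_le_mul_of_nonneg_right h3 hX
    have h5 : X / q i + ν i * X = (1 / q i + ν i) * X := by ring
    linarith
  have a3 : ∑ i, (refT μ ξ (ζ 0) - Real.log (pL μ ξ (ζ 0) i))
      ≤ Fintype.card ι * ((1 + μ) * X + Real.log (Fintype.card ι + 1)) := by
    have : (Fintype.card ι : ℝ) * ((1 + μ) * X + Real.log (Fintype.card ι + 1))
        = ∑ _i : ι, ((1 + μ) * X + Real.log (Fintype.card ι + 1)) := by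
      rw [Finset.sum_const, nsmul_eq_mul, Finset.card_univ]
    rw [this]
    refine Finset.sum_le_sum fun i _ => ?_
    have h1 := uw_refT_le μ hμ ξ (ζ 0) X hX hξ hζ
    have h2 : 0 ≤ Real.log (pL μ ξ (ζ 0) i) := Real.log_nonneg (one_le_pL μ ξ (ζ 0) i)
    linarith
  have b1 := mul_le_mul_of_nonneg_left a1 (sub_nonneg.2 hη1)
  have b2 := mul_le_mul_of_nonneg_left a2 hη
  have b3 := mul_le_mul_of_nonneg_left a3 hε
  have b4 := mul_le_mul_of_nonneg_left hζs hc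
  unfold wtT
  calc (1 - η) * ∑ i, b i * lgs (ξ i) + η * isoT q ν ξ (ζ 0)
        + ε * ∑ i, (refT μ ξ (ζ 0) - Real.log (pL μ ξ (ζ 0) i)) + c * lsq ζ
      ≤ (1 - η) * ((∑ i, b i) * X)
        + η * ((∑ i ∈ Finset.univ.filter (fun i => 0 < q i), (1 / q i + ν i)) * X
          + Real.log ((Finset.univ.filter fun i => 0 < q i).card))
        + ε * (Fintype.card ι * ((1 + μ) * X + Real.log (Fintype.card ι + 1))) + c * X := by
        linarith
    _ = _ := by ring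

theorem uw_contDiffAt_wtT (μ : ℝ) (b q ν : ι → ℝ) (η ε c : ℝ) (hq : ∃ i, 0 < q i) {z : Cn n}
    {F : ι → Cn n → ℂ} {Z : Fin (n + 1) → Cn n → ℂ}
    (hF : ∀ i, HolAt (F i) z) (hF0 : ∀ i, F i z ≠ 0) (hZ : ∀ j, HolAt (Z j) z)
    (hZ0 : ∀ j, Z j z ≠ 0) :
    ContDiffAt ℝ ∞ (fun y => wtT μ b q ν η ε c (fun i => F i y) (fun j => Z j y)) z := by
  unfold wtT
  refine ((contDiffAt_const.mul (ContDiffAt.sum fun i _ =>
    contDiffAt_const.mul (contDiffAt_lgs (hF i) (hF0 i)))).add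
    (contDiffAt_const.mul (contDiffAt_isoT q ν hq hF hF0 (hZ 0) (hZ0 0)))).add
    (contDiffAt_const.mul (ContDiffAt.sum fun i _ =>
      contDiffAt_poincare μ hF hF0 (hZ 0) (hZ0 0) i)) |>.add
    (contDiffAt_const.mul (contDiffAt_lsq hZ hZ0))

theorem uw_levi_wtT_nonneg (μ : ℝ) (b q ν : ι → ℝ) (η ε c : ℝ) (hq : ∃ i, 0 < q i) (hη : 0 ≤ η)
    (hε : 0 ≤ ε) (hc : 0 ≤ c) {z : Cn n} {F : ι → Cn n → ℂ} {Z : Fin (n + 1) → Cn n → ℂ}
    (hF : ∀ i, HolAt (F i) z) (hF0 : ∀ i, F i z ≠ 0) (hZ : ∀ j, HolAt (Z j) z)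
    (hZ0 : ∀ j, Z j z ≠ 0) (a : Cn n) :
    0 ≤ levi (fun y => wtT μ b q ν η ε c (fun i => F i y) (fun j => Z j y)) z a := by
  have two : (2 : WithTop ℕ∞) ≤ ((⊤ : ℕ∞) : WithTop ℕ∞) := by decide
  have g1 : ∀ i, ContDiffAt ℝ 2 (fun y => lgs (F i y)) z := fun i =>
    (contDiffAt_lgs (hF i) (hF0 i)).of_le two
  have g1' : ∀ i, ContDiffAt ℝ 2 (fun y => b i * lgs (F i y)) z := fun i =>
    contDiffAt_const.mul (g1 i)
  have g1s : ContDiffAt ℝ 2 (fun y => ∑ i, b i * lgs (F i y)) z := ContDiffAt.sum fun i _ => g1' i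
  have g2 : ContDiffAt ℝ 2 (fun y => isoT q ν (fun i => F i y) (Z 0 y)) z :=
    (contDiffAt_isoT q ν hq hF hF0 (hZ 0) (hZ0 0)).of_le two
  have g3 : ∀ i, ContDiffAt ℝ 2
      (fun y => refT μ (fun i => F i y) (Z 0 y) - Real.log (pL μ (fun i => F i y) (Z 0 y) i)) z :=
    fun i => (contDiffAt_poincare μ hF hF0 (hZ 0) (hZ0 0) i).of_le two
  have g3s : ContDiffAt ℝ 2
      (fun y => ∑ i, (refT μ (fun i => F i y) (Z 0 y)
        - Real.log (pL μ (fun i => F i y) (Z 0 y) i))) z :=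
    ContDiffAt.sum fun i _ => g3 i
  have g4 : ContDiffAt ℝ 2 (fun y => lsq (fun j => Z j y)) z := (contDiffAt_lsq hZ hZ0).of_le two
  have h1 : ContDiffAt ℝ 2 (fun y => (1 - η) * ∑ i, b i * lgs (F i y)) z := contDiffAt_const.mul g1s
  have h2 : ContDiffAt ℝ 2 (fun y => η * isoT q ν (fun i => F i y) (Z 0 y)) z :=
    contDiffAt_const.mul g2
  have h3 : ContDiffAt ℝ 2 (fun y => ε *
      ∑ i, (refT μ (fun i => F i y) (Z 0 y) - Real.log (pL μ (fun i => F i y) (Z 0 y) i))) z :=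
    contDiffAt_const.mul g3s
  have h4 : ContDiffAt ℝ 2 (fun y => c * lsq (fun j => Z j y)) z := contDiffAt_const.mul g4
  have hsplit : (fun y => wtT μ b q ν η ε c (fun i => F i y) (fun j => Z j y)) = fun y =>
      (1 - η) * ∑ i, b i * lgs (F i y) + η * isoT q ν (fun i => F i y) (Z 0 y)
        + ε * ∑ i, (refT μ (fun i => F i y) (Z 0 y) - Real.log (pL μ (fun i => F i y) (Z 0 y) i))
        + c * lsq (fun j => Z j y) := rfl
  rw [hsplit, levi_add ((h1.add h2).add h3) h4, levi_add (h1.add h2) h3, levi_add h1 h2,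
    levi_const_mul _ g1s, levi_const_mul _ g2, levi_const_mul _ g3s, levi_const_mul _ g4,
    levi_sum _ _ (fun i _ => g1' i), levi_sum _ _ (fun i _ => g3 i)]
  have e1 : ∑ i, levi (fun y => b i * lgs (F i y)) z a = 0 :=
    Finset.sum_eq_zero fun i _ => by rw [levi_const_mul _ (g1 i), levi_lgs (hF i) (hF0 i), mul_zero]
  rw [e1, mul_zero, zero_add]
  have e2 : 0 ≤ η * levi (fun y => isoT q ν (fun i => F i y) (Z 0 y)) z a :=
    mul_nonneg hη (levi_isoT_nonneg q ν hq hF hF0 (hZ 0) (hZ0 0) a)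
  have e3 : 0 ≤ ε * ∑ i, levi (fun y => refT μ (fun i => F i y) (Z 0 y)
        - Real.log (pL μ (fun i => F i y) (Z 0 y) i)) z a :=
    mul_nonneg hε (Finset.sum_nonneg fun i _ =>
      le_trans (by positivity) (levi_poincare μ hF hF0 (hZ 0) (hZ0 0) i a))
  have e4 : 0 ≤ c * levi (fun y => lsq (fun j => Z j y)) z a :=
    mul_nonneg hc (levi_lsq_nonneg hZ hZ0 a)
  linarith

/-- the weight of the final lift is universal, of degree `(1-η) m ∑ b + η ub + ε |ι| m + c k₀`. -/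
theorem uwt_wtT (m k₀ : ℕ) (hk₀ : 1 ≤ k₀) (b q ν : ι → ℝ) (η ε c ub : ℝ) (hb : ∀ i, 0 ≤ b i)
    (hq : ∃ i, 0 < q i) (hη : 0 ≤ η) (hη1 : η ≤ 1) (hε : 0 ≤ ε) (hc : 0 ≤ c)
    (hν : ∀ i, 0 < q i → 0 ≤ ν i) (hub : ∀ i, 0 < q i → m / q i + ν i * k₀ = ub) :
    UWt n (Sum.elim (fun _ : ι => m) (fun _ : Fin (n + 1) => k₀))
      ((1 - η) * (m * ∑ i, b i) + η * ub + ε * (Fintype.card ι * m) + c * k₀)
      (fun v => wtT ((m : ℝ) / k₀) b q ν η ε c (fun i => v (Sum.inl i)) (fun j => v (Sum.inr j))) := by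
  refine { homog := ?_, upper := ?_, smooth := ?_, psh := ?_ }
  · intro t v ht hv
    exact uw_wtT_scale m k₀ hk₀ b q ν η ε c ub hq hub ht (fun i => hv (Sum.inl i))
      (fun j => hv (Sum.inr j))
  · refine ⟨_, _, fun v hv => uw_wtT_upper ((m : ℝ) / k₀) (by positivity) b q ν η ε c hb hq hη hη1 hε
      hc hν _ _ _ (uw_X_nonneg v) (fun i => uw_lgs_le v _ (hv _)) (uw_lgs_le v _ (hv _))
      (uw_lsq_le v Sum.inr Sum.inr_injective hv)⟩
  · intro z f hf hf0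
    exact uw_contDiffAt_wtT _ b q ν η ε c hq (fun i => hf (Sum.inl i)) (fun i => hf0 (Sum.inl i))
      (fun j => hf (Sum.inr j)) (fun j => hf0 (Sum.inr j))
  · intro z f hf hf0 a
    exact uw_levi_wtT_nonneg _ b q ν η ε c hq hη hε hc (fun i => hf (Sum.inl i))
      (fun i => hf0 (Sum.inl i)) (fun j => hf (Sum.inr j)) (fun j => hf0 (Sum.inr j)) a

/-- the weight of Proposition 3.2 is universal, of degree `D / h + c k₀`. -/
theorem uwt_wtO [Nonempty ι] (D k₀ : ℕ) (h c : ℝ) (hh : 0 < h) (hc : 0 ≤ c) :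
    UWt n (Sum.elim (fun _ : ι => D) (fun _ : Fin (n + 1) => k₀)) (D / h + c * k₀)
      (fun v => wtO h c (fun i => v (Sum.inl i)) (fun j => v (Sum.inr j))) := by
  have two : (2 : WithTop ℕ∞) ≤ ((⊤ : ℕ∞) : WithTop ℕ∞) := by decide
  refine { homog := ?_, upper := ?_, smooth := ?_, psh := ?_ }
  · intro t v ht hv
    show 1 / h * lsq (fun i => t ^ D * v (Sum.inl i)) + c * lsq (fun j => t ^ k₀ * v (Sum.inr j))
      = 1 / h * lsq (fun i => v (Sum.inl i)) + c * lsq (fun j => v (Sum.inr j))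
        + (D / h + c * k₀) * lgs t
    rw [uw_lsq_scale D ht (fun i => hv (Sum.inl i)), uw_lsq_scale k₀ ht (fun j => hv (Sum.inr j))]
    ring
  · refine ⟨0, 1 / h + c, fun v hv => ?_⟩
    have h1 := uw_lsq_le v (Sum.inl : ι → ι ⊕ Fin (n + 1)) Sum.inl_injective hv
    have h2 := uw_lsq_le v (Sum.inr : Fin (n + 1) → ι ⊕ Fin (n + 1)) Sum.inr_injective hv
    have h3 := mul_le_mul_of_nonneg_left h1 (by positivity : 0 ≤ 1 / h)
    have h4 := mul_le_mul_of_nonneg_left h2 hc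
    show 1 / h * lsq (fun i => v (Sum.inl i)) + c * lsq (fun j => v (Sum.inr j)) ≤ _
    linarith
  · intro z f hf hf0
    unfold wtO
    exact (contDiffAt_const.mul (contDiffAt_lsq (fun i => hf (Sum.inl i)) fun i => hf0 (Sum.inl i))).add
      (contDiffAt_const.mul (contDiffAt_lsq (fun j => hf (Sum.inr j)) fun j => hf0 (Sum.inr j)))
  · intro z f hf hf0 a
    have g1 : ContDiffAt ℝ 2 (fun y => lsq (fun i => f (Sum.inl i) y)) z :=
      (contDiffAt_lsq (fun i => hf (Sum.inl i)) fun i => hf0 (Sum.inl i)).of_le two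
    have g2 : ContDiffAt ℝ 2 (fun y => lsq (fun j => f (Sum.inr j) y)) z :=
      (contDiffAt_lsq (fun j => hf (Sum.inr j)) fun j => hf0 (Sum.inr j)).of_le two
    have hsplit : (fun y => wtO h c (fun i => f (Sum.inl i) y) (fun j => f (Sum.inr j) y)) = fun y =>
        1 / h * lsq (fun i => f (Sum.inl i) y) + c * lsq (fun j => f (Sum.inr j) y) := rfl
    show 0 ≤ levi (fun y => wtO h c (fun i => f (Sum.inl i) y) (fun j => f (Sum.inr j) y)) z a
    rw [hsplit, levi_add (contDiffAt_const.mul g1) (contDiffAt_const.mul g2), levi_const_mul _ g1,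
      levi_const_mul _ g2]
    exact add_nonneg
      (mul_nonneg (by positivity) (levi_lsq_nonneg (fun i => hf (Sum.inl i)) (fun i => hf0 (Sum.inl i)) a))
      (mul_nonneg hc (levi_lsq_nonneg (fun j => hf (Sum.inr j)) (fun j => hf0 (Sum.inr j)) a))

/-- the base point free weight `(mm / j) log ∑ |ξ_i|²` -/
theorem hwt_bpf [Nonempty ι] (j : ℕ) (hj : 1 ≤ j) (mm : ℝ) (hmm : 0 ≤ mm) :
    HWt (fun _ : ι => j) mm (fun ξ => mm / j * lsq ξ) := by
  have hj' : (0 : ℝ) < j := by exact_mod_cast hj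
  refine { homog := ?_, upper := ?_ }
  · intro t ξ ht hξ
    show mm / j * lsq (fun i => t ^ j * ξ i) = mm / j * lsq ξ + mm * lgs t
    rw [uw_lsq_scale j ht hξ]
    field_simp
  · refine ⟨0, mm / j, fun ξ hξ => ?_⟩
    have h1 := uw_lsq_le ξ (id : ι → ι) Function.injective_id hξ
    have h2 := mul_le_mul_of_nonneg_left h1 (by positivity : 0 ≤ mm / j)
    show mm / j * lsq ξ ≤ _
    rw [zero_add]
    exact h2

/-- the maximum of two homogeneous weights in two groups of variables -/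
theorem hwt_max {ι' : Type*} [Fintype ι'] {d : ι → ℕ} {d' : ι' → ℕ} {mm : ℝ} {Φ : (ι → ℂ) → ℝ}
    {Φ' : (ι' → ℂ) → ℝ} (h : HWt d mm Φ) (h' : HWt d' mm Φ') :
    HWt (Sum.elim d d') mm
      (fun v => max (Φ fun i => v (Sum.inl i)) (Φ' fun i => v (Sum.inr i))) := by
  refine { homog := ?_, upper := ?_ }
  · intro t v ht hv
    show max (Φ fun i => t ^ d i * v (Sum.inl i)) (Φ' fun i => t ^ d' i * v (Sum.inr i))
      = max (Φ fun i => v (Sum.inl i)) (Φ' fun i => v (Sum.inr i)) + mm * Real.log (‖t‖ ^ 2)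
    rw [h.homog t _ ht fun i => hv (Sum.inl i), h'.homog t _ ht fun i => hv (Sum.inr i),
      max_add_add_right]
  · obtain ⟨C, E, hCE⟩ := h.upper
    obtain ⟨C', E', hCE'⟩ := h'.upper
    refine ⟨max C C', |E| + |E'|, fun v hv => ?_⟩
    have hsum : ∑ i, ‖v i‖ ^ 2 = ∑ i, ‖v (Sum.inl i)‖ ^ 2 + ∑ i, ‖v (Sum.inr i)‖ ^ 2 :=
      Fintype.sum_sum_type _
    have hl0 : 0 ≤ ∑ i, ‖v (Sum.inl i)‖ ^ 2 := Finset.sum_nonneg fun i _ => sq_nonneg _
    have hr0 : 0 ≤ ∑ i, ‖v (Sum.inr i)‖ ^ 2 := Finset.sum_nonneg fun i _ => sq_nonneg _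
    have hX := uw_X_nonneg v
    have hXl := uw_X_nonneg fun i => v (Sum.inl i)
    have hXr := uw_X_nonneg fun i => v (Sum.inr i)
    have hl : Real.log (1 + ∑ i, ‖v (Sum.inl i)‖ ^ 2) ≤ Real.log (1 + ∑ i, ‖v i‖ ^ 2) :=
      Real.log_le_log (by linarith) (by linarith)
    have hr : Real.log (1 + ∑ i, ‖v (Sum.inr i)‖ ^ 2) ≤ Real.log (1 + ∑ i, ‖v i‖ ^ 2) :=
      Real.log_le_log (by linarith) (by linarith)
    refine max_le ?_ ?_
    · have h1 := hCE (fun i => v (Sum.inl i)) fun i => hv (Sum.inl i)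
      have h2 : E * Real.log (1 + ∑ i, ‖v (Sum.inl i)‖ ^ 2)
          ≤ |E| * Real.log (1 + ∑ i, ‖v i‖ ^ 2) :=
        (mul_le_mul_of_nonneg_right (le_abs_self E) hXl).trans
          (mul_le_mul_of_nonneg_left hl (abs_nonneg E))
      have h3 : 0 ≤ |E'| * Real.log (1 + ∑ i, ‖v i‖ ^ 2) := mul_nonneg (abs_nonneg _) hX
      have h4 := le_max_left C C'
      rw [add_mul]
      linarith
    · have h1 := hCE' (fun i => v (Sum.inr i)) fun i => hv (Sum.inr i)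
      have h2 : E' * Real.log (1 + ∑ i, ‖v (Sum.inr i)‖ ^ 2)
          ≤ |E'| * Real.log (1 + ∑ i, ‖v i‖ ^ 2) :=
        (mul_le_mul_of_nonneg_right (le_abs_self E') hXr).trans
          (mul_le_mul_of_nonneg_left hr (abs_nonneg E'))
      have h3 : 0 ≤ |E| * Real.log (1 + ∑ i, ‖v i‖ ^ 2) := mul_nonneg (abs_nonneg _) hX
      have h4 := le_max_right C C'
      rw [add_mul]
      linarith

end five

/-! ### 6. pointwise bounds -/

section six

variable {ι : Type*} [Fintype ι]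

/-- upper bound of `e^{-φ}`: one inequality for every `i` with `q i > 0` -/
theorem neg_wtT_le (μ : ℝ) (b q ν : ι → ℝ) (η ε c : ℝ) (hη : 0 ≤ η) (ξ : ι → ℂ)
    (ζ : Fin (n + 1) → ℂ) (i : ι) (hi : 0 < q i) :
    - wtT μ b q ν η ε c ξ ζ ≤ lamI b q η i (fun i' => - lgs (ξ i')) + ε * ∑ i', Real.log (pL μ ξ (ζ 0) i')
      - η * (ν i * lgs (ζ 0)) - ε * (Fintype.card ι * refT μ ξ (ζ 0)) - c * lsq ζ := by
  have hiso : lgs (ξ i) / q i + ν i * lgs (ζ 0) ≤ isoT q ν ξ (ζ 0) := by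
    unfold isoT
    have h1 : Real.exp (lgs (ξ i) / q i + ν i * lgs (ζ 0)) ≤
        ∑ i ∈ Finset.univ.filter (fun i => 0 < q i), Real.exp (lgs (ξ i) / q i + ν i * lgs (ζ 0)) :=
      Finset.single_le_sum (f := fun i => Real.exp (lgs (ξ i) / q i + ν i * lgs (ζ 0)))
        (fun j _ => (Real.exp_pos _).le) (Finset.mem_filter.2 ⟨Finset.mem_univ i, hi⟩)
    calc lgs (ξ i) / q i + ν i * lgs (ζ 0)
        = Real.log (Real.exp (lgs (ξ i) / q i + ν i * lgs (ζ 0))) := (Real.log_exp _).symm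
      _ ≤ _ := Real.log_le_log (Real.exp_pos _) h1
  have h2 := mul_le_mul_of_nonneg_left hiso hη
  unfold wtT lamI
  rw [Finset.sum_sub_distrib, Finset.sum_const, Finset.card_univ, nsmul_eq_mul]
  have h3 : ∑ i', b i' * -lgs (ξ i') = - ∑ i', b i' * lgs (ξ i') := by
    rw [← Finset.sum_neg_distrib]
    exact Finset.sum_congr rfl fun _ _ => by ring
  rw [h3]
  have h4 : -lgs (ξ i) / q i = -(lgs (ξ i) / q i) := neg_div _ _
  rw [h4]
  nlinarith

/-- lower bound of `e^{-φ}` -/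
theorem le_neg_wtT (μ : ℝ) (b q ν : ι → ℝ) (η ε c : ℝ) (hη : 0 ≤ η) (hε : 0 ≤ ε) (hq : ∃ i, 0 < q i)
    (ξ : ι → ℂ) (ζ : Fin (n + 1) → ℂ) (M : ℝ)
    (hM : ∀ i, 0 < q i → M ≤ - lgs (ξ i) / q i - ν i * lgs (ζ 0)) :
    (1 - η) * ∑ i, b i * (- lgs (ξ i)) + η * (M - Real.log (Fintype.card ι))
      - ε * (Fintype.card ι * refT μ ξ (ζ 0)) - c * lsq ζ ≤ - wtT μ b q ν η ε c ξ ζ := by
  obtain ⟨i₀, hi₀⟩ := hq
  have hcard : (0 : ℝ) < Fintype.card ι := by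
    have : 0 < Fintype.card ι := Fintype.card_pos_iff.2 ⟨i₀⟩
    exact_mod_cast this
  have hiso : isoT q ν ξ (ζ 0) ≤ -M + Real.log (Fintype.card ι) := by
    unfold isoT
    have hpos : 0 < ∑ i ∈ Finset.univ.filter (fun i => 0 < q i),
        Real.exp (lgs (ξ i) / q i + ν i * lgs (ζ 0)) :=
      Finset.sum_pos (fun j _ => Real.exp_pos _) ⟨i₀, Finset.mem_filter.2 ⟨Finset.mem_univ _, hi₀⟩⟩
    have h1 : ∑ i ∈ Finset.univ.filter (fun i => 0 < q i),
        Real.exp (lgs (ξ i) / q i + ν i * lgs (ζ 0)) ≤ Fintype.card ι * Real.exp (-M) := by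
      calc _ ≤ ∑ _i ∈ Finset.univ.filter (fun i => 0 < q i), Real.exp (-M) := by
            refine Finset.sum_le_sum fun j hj => Real.exp_le_exp.2 ?_
            have := hM j (Finset.mem_filter.1 hj).2
            rw [neg_div] at this
            linarith
        _ = ((Finset.univ.filter (fun i => 0 < q i)).card : ℝ) * Real.exp (-M) := by
            rw [Finset.sum_const, nsmul_eq_mul]
        _ ≤ _ := by
            refine mul_le_mul_of_nonneg_right ?_ (Real.exp_pos _).le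
            exact_mod_cast Finset.card_le_univ _
    calc _ ≤ Real.log (Fintype.card ι * Real.exp (-M)) := Real.log_le_log hpos h1
      _ = -M + Real.log (Fintype.card ι) := by
          rw [Real.log_mul hcard.ne' (Real.exp_pos _).ne', Real.log_exp]; ring
  have h2 := mul_le_mul_of_nonneg_left hiso hη
  have hlog : 0 ≤ ∑ i, Real.log (pL μ ξ (ζ 0) i) :=
    Finset.sum_nonneg fun i _ => Real.log_nonneg (one_le_pL μ ξ (ζ 0) i)
  have h5 := mul_nonneg hε hlog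
  unfold wtT
  rw [Finset.sum_sub_distrib, Finset.sum_const, Finset.card_univ, nsmul_eq_mul]
  have h3 : ∑ i', b i' * -lgs (ξ i') = - ∑ i', b i' * lgs (ξ i') := by
    rw [← Finset.sum_neg_distrib]
    exact Finset.sum_congr rfl fun _ _ => by ring
  rw [h3]
  nlinarith

end six

end Claimed.Agent.R242
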