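/-
Row 242 (S0480), package LIFT.  Cutoff: the cut-off functions and the estimate of their `∂̄`.      Architect: helper110.
Paper-free: Mathlib + `SCV/WirtA` (proved) + `Lift/Weights` sections 1-3 (use the statements even while sorried).

LEAVES
  LIFT-C-A : sections 1, 2  (`thS`, `thB`; calculus of `dAb` for products, compositions, quotients)
  LIFT-C-B : section 3      (`chiP`)
  LIFT-C-C : section 4      (`chiT`)

PLANS.
 1. `Real.smoothTransition`: `.contDiff`, `.nonneg`, `.le_one`, `.zero_of_nonpos`, `.one_of_one_le`.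
    `exists_deriv_thS_le`: `deriv Real.smoothTransition` is continuous, vanishes off `[0,1]` (the function is locally constant there),
    so it is bounded (`IsCompact.exists_bound_of_continuousOn` on `Icc 0 1`); chain rule with the affine map.
    `exists_deriv_thB_le`: `deriv (thB δ) τ = deriv (thS δ) (τ²) * 2τ`, which vanishes for `|τ| > δ` (there `thB δ` is locally `0`).
 2. `dAb` is `∑_j dzb j g z * conj (a j)`; `dzb_mul`, `dzb_comp_real`, `dzb_sum` of WirtA.  For products use `Finset.induction_on`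
    (all factors in `[0,1]`).
 3. `dzb j (‖y_k‖²) = if j = k then z_k else 0` (from `dz_normSq_coord` with `c = 0` and `dzb_ofReal`).  `chiP ρ` vanishes off the compact polydisc,
    where `‖z_j‖ ≤ ρ_j`; so `‖dAb (chiP ρ) z a‖ ≤ ∑_j C_j ρ_j ‖a_j‖`; `(∑_j x_j)² ≤ n ∑ x_j²` (`sq_sum_le_card_mul_sum_sq`).
 4. Let `P_i = pL .. i` (smooth, `≥ 1`), `v_i = P_i / P_{i₀} - q_i / q_{i₀}`.
    If `δ < |v_i z|` for some `i`, then `chiT = 0` near `z` (continuity of `v_i`) and the left side is `0`.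
    Otherwise `P_i / P_{i₀} ≤ q_i / q_{i₀} + δ =: c_i` and
    `‖dAb v_i‖ = ‖dAb P_i / P_{i₀} - P_i dAb P_{i₀} / P_{i₀}²‖ ≤ c_i (‖dAr P_i‖ / P_i + ‖dAr P_{i₀}‖ / P_{i₀})`.
    With `C_δ` from `exists_deriv_thB_le`: `‖dAb chiT‖ ≤ ∑_i C_δ c_i (x_i + x_{i₀})`, `x_i = ‖dAr P_i‖ / P_i`.
-/
import Claimed.Agent.R242.Lift.Weights

set_option autoImplicit false

open MeasureTheory Complex Metric
open scoped ContDiff ComplexConjugate ENNReal Topology

namespace Claimed.Agent.R242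

variable {n : ℕ}

/-! ### 1. the one variable bumps -/

theorem thS_nonneg (δ x : ℝ) : 0 ≤ thS δ x := by
  exact Real.smoothTransition.nonneg _

theorem thS_le_one (δ x : ℝ) : thS δ x ≤ 1 := by
  exact Real.smoothTransition.le_one _

theorem thS_eq_one {δ x : ℝ} (hδ : 0 < δ) (h : x ≤ δ ^ 2 / 4) : thS δ x = 1 := by
  unfold thS
  have h2 : 0 < 3 / 4 * δ ^ 2 := by positivity
  exact Real.smoothTransition.one_of_one_le ((one_le_div h2).2 (by linarith))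

theorem thS_eq_zero {δ x : ℝ} (hδ : 0 < δ) (h : δ ^ 2 ≤ x) : thS δ x = 0 := by
  unfold thS
  have h2 : 0 < 3 / 4 * δ ^ 2 := by positivity
  exact Real.smoothTransition.zero_of_nonpos (div_nonpos_of_nonpos_of_nonneg (by linarith) h2.le)

theorem contDiff_thS (δ : ℝ) : ContDiff ℝ ∞ (thS δ) := by
  exact Real.smoothTransition.contDiff.comp ((contDiff_const.sub contDiff_id).div_const _)

theorem cutoff_deriv_smoothTransition_bdd :
    ∃ Θ : ℝ, 0 ≤ Θ ∧ ∀ s, |deriv Real.smoothTransition s| ≤ Θ := by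
  have hc : Continuous (deriv Real.smoothTransition) :=
    (Real.smoothTransition.contDiff (n := 1)).continuous_deriv le_rfl
  obtain ⟨C, hC⟩ := (isCompact_Icc (a := (0:ℝ)) (b := 1)).exists_bound_of_continuousOn
    hc.continuousOn
  refine ⟨max C 0, le_max_right _ _, fun s => ?_⟩
  by_cases hs : s ∈ Set.Icc (0:ℝ) 1
  · exact (hC s hs).trans (le_max_left _ _)
  · have h0 : deriv Real.smoothTransition s = 0 := by
      rw [Set.mem_Icc, not_and_or, not_le, not_le] at hs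
      rcases hs with hs | hs
      · have : Real.smoothTransition =ᶠ[𝓝 s] fun _ => 0 := by
          filter_upwards [eventually_lt_nhds hs] with x hx
          exact Real.smoothTransition.zero_of_nonpos hx.le
        rw [this.deriv_eq]; simp
      · have : Real.smoothTransition =ᶠ[𝓝 s] fun _ => 1 := by
          filter_upwards [eventually_gt_nhds hs] with x hx
          exact Real.smoothTransition.one_of_one_le hx.le
        rw [this.deriv_eq]; simp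
    rw [h0, abs_zero]; exact le_max_right _ _

theorem cutoff_hasDerivAt_thS (δ x : ℝ) :
    HasDerivAt (thS δ)
      (deriv Real.smoothTransition ((δ ^ 2 - x) / (3 / 4 * δ ^ 2)) * ((-1) / (3 / 4 * δ ^ 2))) x := by
  have h1 : HasDerivAt (fun x : ℝ => (δ ^ 2 - x) / (3 / 4 * δ ^ 2)) ((-1) / (3 / 4 * δ ^ 2)) x :=
    ((hasDerivAt_id x).const_sub (δ ^ 2)).div_const _
  have h2 : HasDerivAt Real.smoothTransition
      (deriv Real.smoothTransition ((δ ^ 2 - x) / (3 / 4 * δ ^ 2))) ((δ ^ 2 - x) / (3 / 4 * δ ^ 2)) :=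
    ((Real.smoothTransition.contDiff (n := 1)).differentiable one_ne_zero _).hasDerivAt
  exact h2.comp x h1

theorem cutoff_deriv_thS_eq_zero {δ x : ℝ} (hδ : 0 < δ) (h : δ ^ 2 < x) : deriv (thS δ) x = 0 := by
  have h1 : thS δ =ᶠ[𝓝 x] fun _ => (0 : ℝ) := by
    filter_upwards [eventually_gt_nhds h] with y hy
    exact thS_eq_zero hδ hy.le
  rw [h1.deriv_eq, deriv_const]

theorem exists_deriv_thS_le (δ : ℝ) : ∃ C : ℝ, 0 ≤ C ∧ ∀ x, |deriv (thS δ) x| ≤ C := by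
  obtain ⟨Θ, hΘ0, hΘ⟩ := cutoff_deriv_smoothTransition_bdd
  refine ⟨Θ * |(-1) / (3 / 4 * δ ^ 2)|, by positivity, fun x => ?_⟩
  rw [(cutoff_hasDerivAt_thS δ x).deriv, abs_mul]
  exact mul_le_mul_of_nonneg_right (hΘ _) (abs_nonneg _)

theorem thB_nonneg (δ τ : ℝ) : 0 ≤ thB δ τ := thS_nonneg _ _

theorem thB_le_one (δ τ : ℝ) : thB δ τ ≤ 1 := thS_le_one _ _

theorem thB_eq_one {δ τ : ℝ} (hδ : 0 < δ) (h : |τ| ≤ δ / 2) : thB δ τ = 1 := by
  refine thS_eq_one hδ ?_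
  have h1 : |τ| ^ 2 ≤ (δ / 2) ^ 2 := pow_le_pow_left₀ (abs_nonneg _) h 2
  rw [sq_abs] at h1
  linarith

theorem thB_eq_zero {δ τ : ℝ} (hδ : 0 < δ) (h : δ ≤ |τ|) : thB δ τ = 0 := by
  refine thS_eq_zero hδ ?_
  have h1 : δ ^ 2 ≤ |τ| ^ 2 := pow_le_pow_left₀ hδ.le h 2
  rwa [sq_abs] at h1

theorem contDiff_thB (δ : ℝ) : ContDiff ℝ ∞ (thB δ) := by
  exact (contDiff_thS δ).comp (contDiff_id.pow 2)

theorem exists_deriv_thB_le {δ : ℝ} (hδ : 0 < δ) : ∃ C : ℝ, 0 ≤ C ∧ ∀ τ, |deriv (thB δ) τ| ≤ C := by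
  obtain ⟨C, hC0, hC⟩ := exists_deriv_thS_le δ
  refine ⟨C * (2 * δ), by positivity, fun τ => ?_⟩
  have h1 : HasDerivAt (thB δ) (deriv (thS δ) (τ ^ 2) * (2 * τ)) τ := by
    have h2 : HasDerivAt (fun τ : ℝ => τ ^ 2) (2 * τ) τ := by
      simpa using hasDerivAt_pow 2 τ
    have h3 : HasDerivAt (thS δ) (deriv (thS δ) (τ ^ 2)) (τ ^ 2) :=
      ((contDiff_thS δ).differentiable (by simp) _).hasDerivAt
    exact HasDerivAt.comp (h₂ := thS δ) (h := fun τ : ℝ => τ ^ 2) τ h3 h2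
  rw [h1.deriv]
  by_cases hτ : |τ| ≤ δ
  · rw [abs_mul, abs_mul, abs_two]
    exact mul_le_mul (hC _) (by linarith) (by positivity) hC0
  · have h4 : δ ^ 2 < τ ^ 2 := by
      rw [← sq_abs τ]
      exact pow_lt_pow_left₀ (not_le.1 hτ) hδ.le two_ne_zero
    rw [cutoff_deriv_thS_eq_zero hδ h4, zero_mul, abs_zero]
    positivity

/-! ### 2. calculus of `dAb` -/

section two

variable {z a : Cn n}

theorem dAb_congr {g₁ g₂ : Cn n → ℂ} (h : g₁ =ᶠ[𝓝 z] g₂) : dAb g₁ z a = dAb g₂ z a := by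
  unfold dAb
  simp only [dzb_congr h]

theorem dAb_const (c : ℂ) : dAb (fun _ : Cn n => c) z a = 0 := by
  unfold dAb
  simp only [dzb_const, zero_mul, Finset.sum_const_zero]

theorem dAb_mul {g₁ g₂ : Cn n → ℂ} (h₁ : DifferentiableAt ℝ g₁ z) (h₂ : DifferentiableAt ℝ g₂ z) :
    dAb (fun y => g₁ y * g₂ y) z a = dAb g₁ z a * g₂ z + g₁ z * dAb g₂ z a := by
  unfold dAb
  simp only [dzb_mul h₁ h₂]
  rw [Finset.sum_mul, Finset.mul_sum, ← Finset.sum_add_distrib]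
  refine Finset.sum_congr rfl fun j _ => ?_
  ring

theorem dAb_comp_real (u : Cn n → ℝ) (χ : ℝ → ℝ) (hu : DifferentiableAt ℝ u z)
    (hχ : DifferentiableAt ℝ χ (u z)) :
    dAb (fun y => ((χ (u y) : ℝ) : ℂ)) z a = ((deriv χ (u z) : ℝ) : ℂ) * dAb (fun y => (u y : ℂ)) z a := by
  unfold dAb
  simp only [dzb_comp_real u χ hu hχ]
  rw [Finset.mul_sum]
  refine Finset.sum_congr rfl fun j _ => ?_
  ring

theorem cutoff_differentiableAt_ofReal {u : Cn n → ℝ} (hu : DifferentiableAt ℝ u z) :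
    DifferentiableAt ℝ (fun y => (u y : ℂ)) z :=
  Complex.ofRealCLM.differentiableAt.comp z hu

theorem dAb_sub_const {g : Cn n → ℂ} (hg : DifferentiableAt ℝ g z) (c : ℂ) :
    dAb (fun y => g y - c) z a = dAb g z a := by
  unfold dAb
  simp only [dzb_sub hg (differentiableAt_const c), dzb_const, sub_zero]

/-- product of real functions with values in `[0,1]` -/
theorem norm_dAb_prod_le {α : Type*} (s : Finset α) (h : α → Cn n → ℝ)
    (hd : ∀ i ∈ s, DifferentiableAt ℝ (h i) z) (h0 : ∀ i ∈ s, 0 ≤ h i z) (h1 : ∀ i ∈ s, h i z ≤ 1) :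
    ‖dAb (fun y => ((∏ i ∈ s, h i y : ℝ) : ℂ)) z a‖ ≤ ∑ i ∈ s, ‖dAb (fun y => (h i y : ℂ)) z a‖ := by
  classical
  induction s using Finset.induction_on with
  | empty =>
    simp only [Finset.prod_empty, Finset.sum_empty]
    rw [dAb_const, norm_zero]
  | insert i s hi ih =>
    have hd' : ∀ k ∈ s, DifferentiableAt ℝ (h k) z := fun k hk => hd k (Finset.mem_insert_of_mem hk)
    have h0' : ∀ k ∈ s, 0 ≤ h k z := fun k hk => h0 k (Finset.mem_insert_of_mem hk)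
    have h1' : ∀ k ∈ s, h k z ≤ 1 := fun k hk => h1 k (Finset.mem_insert_of_mem hk)
    have ih' := ih hd' h0' h1'
    have e : (fun y => ((∏ k ∈ insert i s, h k y : ℝ) : ℂ))
        = fun y => (h i y : ℂ) * ((∏ k ∈ s, h k y : ℝ) : ℂ) := by
      funext y
      rw [Finset.prod_insert hi, Complex.ofReal_mul]
    have d1 : DifferentiableAt ℝ (fun y => (h i y : ℂ)) z :=
      cutoff_differentiableAt_ofReal (hd i (Finset.mem_insert_self i s))
    have d2 : DifferentiableAt ℝ (fun y => ((∏ k ∈ s, h k y : ℝ) : ℂ)) z :=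
      cutoff_differentiableAt_ofReal
        (HasFDerivAt.finsetProd fun k hk => (hd' k hk).hasFDerivAt).differentiableAt
    rw [e, dAb_mul d1 d2, Finset.sum_insert hi]
    have p0 : 0 ≤ ∏ k ∈ s, h k z := Finset.prod_nonneg h0'
    have p1 : ∏ k ∈ s, h k z ≤ 1 := Finset.prod_le_one h0' h1'
    have q0 := h0 i (Finset.mem_insert_self i s)
    have q1 := h1 i (Finset.mem_insert_self i s)
    calc ‖dAb (fun y => (h i y : ℂ)) z a * ((∏ k ∈ s, h k z : ℝ) : ℂ)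
          + (h i z : ℂ) * dAb (fun y => ((∏ k ∈ s, h k y : ℝ) : ℂ)) z a‖
        ≤ ‖dAb (fun y => (h i y : ℂ)) z a‖ * (∏ k ∈ s, h k z)
          + h i z * ‖dAb (fun y => ((∏ k ∈ s, h k y : ℝ) : ℂ)) z a‖ := by
          refine (norm_add_le _ _).trans (le_of_eq ?_)
          rw [norm_mul, norm_mul, Complex.norm_real, Complex.norm_real, Real.norm_of_nonneg p0,
            Real.norm_of_nonneg q0]
      _ ≤ ‖dAb (fun y => (h i y : ℂ)) z a‖ * 1
          + 1 * ‖dAb (fun y => ((∏ k ∈ s, h k y : ℝ) : ℂ)) z a‖ :=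
          add_le_add (mul_le_mul_of_nonneg_left p1 (norm_nonneg _))
            (mul_le_mul_of_nonneg_right q1 (norm_nonneg _))
      _ ≤ _ := by
          rw [mul_one, one_mul]
          exact add_le_add le_rfl ih'

/-- quotient of two positive real functions -/
theorem norm_dAb_div_le (P Q : Cn n → ℝ) (hP : DifferentiableAt ℝ P z) (hQ : DifferentiableAt ℝ Q z)
    (hP0 : 0 < P z) (hQ0 : 0 < Q z) (c : ℝ) :
    ‖dAb (fun y => ((P y / Q y - c : ℝ) : ℂ)) z a‖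
      ≤ P z / Q z * (‖dAr P z a‖ / P z + ‖dAr Q z a‖ / Q z) := by
  have dP : DifferentiableAt ℝ (fun y => (P y : ℂ)) z := cutoff_differentiableAt_ofReal hP
  have hinv : DifferentiableAt ℝ (fun t : ℝ => t⁻¹) (Q z) := differentiableAt_inv hQ0.ne'
  have dQi : DifferentiableAt ℝ (fun y => (((Q y)⁻¹ : ℝ) : ℂ)) z :=
    cutoff_differentiableAt_ofReal (hQ.inv hQ0.ne')
  have e : (fun y => ((P y / Q y - c : ℝ) : ℂ))
      = fun y => (P y : ℂ) * (((Q y)⁻¹ : ℝ) : ℂ) - (c : ℂ) := by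
    funext y
    rw [div_eq_mul_inv]
    push_cast
    ring
  have e2 := dAb_comp_real (z := z) (a := a) Q (fun t : ℝ => t⁻¹) hQ hinv
  have dPQ : DifferentiableAt ℝ (fun y => (P y : ℂ) * (((Q y)⁻¹ : ℝ) : ℂ)) z := dP.mul dQi
  rw [e, dAb_sub_const dPQ, dAb_mul dP dQi, e2, deriv_inv]
  have n1 := norm_dAb_ofReal P z a
  have n2 := norm_dAb_ofReal Q z a
  calc ‖dAb (fun y => (P y : ℂ)) z a * (((Q z)⁻¹ : ℝ) : ℂ)
        + (P z : ℂ) * (((-(Q z ^ 2)⁻¹ : ℝ) : ℂ) * dAb (fun y => (Q y : ℂ)) z a)‖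
      ≤ ‖dAr P z a‖ * (Q z)⁻¹ + P z * ((Q z ^ 2)⁻¹ * ‖dAr Q z a‖) := by
        refine (norm_add_le _ _).trans (le_of_eq ?_)
        rw [norm_mul, norm_mul, norm_mul, Complex.norm_real, Complex.norm_real, Complex.norm_real,
          n1, n2, Real.norm_of_nonneg (inv_pos.2 hQ0).le, Real.norm_of_nonneg hP0.le, norm_neg,
          Real.norm_of_nonneg (by positivity)]
    _ = P z / Q z * (‖dAr P z a‖ / P z + ‖dAr Q z a‖ / Q z) := by
        field_simp

end two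

/-! ### 3. the cut-off of a polydisc -/

section three

variable (ρ : Fin n → ℝ)

theorem chiP_nonneg (z : Cn n) : 0 ≤ chiP ρ z := by
  exact Finset.prod_nonneg fun j _ => thS_nonneg _ _

theorem chiP_le_one (z : Cn n) : chiP ρ z ≤ 1 := by
  exact Finset.prod_le_one (fun j _ => thS_nonneg _ _) fun j _ => thS_le_one _ _

theorem chiP_eq_one (hρ : ∀ j, 0 < ρ j) {z : Cn n} (h : ∀ j, ‖z j‖ ≤ ρ j / 2) : chiP ρ z = 1 := by
  refine Finset.prod_eq_one fun j _ => thS_eq_one (hρ j) ?_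
  have h1 : ‖z j‖ ^ 2 ≤ (ρ j / 2) ^ 2 := pow_le_pow_left₀ (norm_nonneg _) (h j) 2
  linarith

theorem chiP_eq_zero (hρ : ∀ j, 0 < ρ j) {z : Cn n} (h : ∃ j, ρ j ≤ ‖z j‖) : chiP ρ z = 0 := by
  obtain ⟨j, hj⟩ := h
  exact Finset.prod_eq_zero (Finset.mem_univ j)
    (thS_eq_zero (hρ j) (pow_le_pow_left₀ (hρ j).le hj 2))

theorem cutoff_contDiff_normSq (j : Fin n) : ContDiff ℝ ∞ (fun z : Cn n => ‖z j‖ ^ 2) :=
  (contDiff_apply ℝ ℂ j).norm_sq ℝ

theorem cutoff_dAb_normSq (j : Fin n) (z a : Cn n) :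
    dAb (fun y : Cn n => ((‖y j‖ ^ 2 : ℝ) : ℂ)) z a = z j * conj (a j) := by
  unfold dAb
  have h : ∀ k, dzb k (fun y : Cn n => ((‖y j‖ ^ 2 : ℝ) : ℂ)) z = if k = j then z j else 0 := by
    intro k
    rw [dzb_ofReal (fun y : Cn n => ‖y j‖ ^ 2)]
    have h1 := dz_normSq_coord (z := z) k j 0
    simp only [sub_zero] at h1
    rw [h1]
    split_ifs <;> simp
  simp only [h, ite_mul, zero_mul, Finset.sum_ite_eq', Finset.mem_univ, if_true]

theorem cutoff_norm_dAb_factor {δ C : ℝ} (hδ : 0 < δ) (hC0 : 0 ≤ C) (hC : ∀ x, |deriv (thS δ) x| ≤ C)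
    (j : Fin n) (z a : Cn n) :
    ‖dAb (fun y : Cn n => ((thS δ (‖y j‖ ^ 2) : ℝ) : ℂ)) z a‖ ≤ C * δ * ‖a j‖ := by
  have h1 := dAb_comp_real (z := z) (a := a) (fun y : Cn n => ‖y j‖ ^ 2) (thS δ)
    ((cutoff_contDiff_normSq j).differentiable (by simp) z)
    ((contDiff_thS δ).differentiable (by simp) _)
  rw [h1, cutoff_dAb_normSq, norm_mul, norm_mul, Complex.norm_real, Real.norm_eq_abs,
    RCLike.norm_conj]
  by_cases hz : ‖z j‖ ≤ δ
  · rw [← mul_assoc]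
    exact mul_le_mul_of_nonneg_right (mul_le_mul (hC _) hz (norm_nonneg _) hC0) (norm_nonneg _)
  · have h2 : δ ^ 2 < ‖z j‖ ^ 2 := pow_lt_pow_left₀ (not_le.1 hz) hδ.le two_ne_zero
    rw [cutoff_deriv_thS_eq_zero hδ h2, abs_zero, zero_mul]
    positivity

theorem contDiff_chiP : ContDiff ℝ ∞ (chiP ρ) := by
  exact contDiff_prod fun j _ => (contDiff_thS (ρ j)).comp (cutoff_contDiff_normSq j)

theorem exists_dAb_chiP_le (hρ : ∀ j, 0 < ρ j) :
    ∃ C : ℝ, 0 ≤ C ∧ ∀ z a : Cn n, ‖dAb (fun y => (chiP ρ y : ℂ)) z a‖ ^ 2 ≤ C * ∑ j, ‖a j‖ ^ 2 := by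
  choose C hC0 hC using fun j => exists_deriv_thS_le (ρ j)
  refine ⟨∑ j, (C j * ρ j) ^ 2, Finset.sum_nonneg fun j _ => by positivity, fun z a => ?_⟩
  have h1 : ‖dAb (fun y => (chiP ρ y : ℂ)) z a‖ ≤ ∑ j, (C j * ρ j) * ‖a j‖ := by
    refine (norm_dAb_prod_le Finset.univ (fun j (y : Cn n) => thS (ρ j) (‖y j‖ ^ 2))
      (fun j _ => (((contDiff_thS (ρ j)).comp (cutoff_contDiff_normSq j)).differentiable (by simp) z))
      (fun j _ => thS_nonneg _ _) (fun j _ => thS_le_one _ _)).trans ?_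
    exact Finset.sum_le_sum fun j _ => cutoff_norm_dAb_factor (hρ j) (hC0 j) (hC j) j z a
  calc ‖dAb (fun y => (chiP ρ y : ℂ)) z a‖ ^ 2 ≤ (∑ j, (C j * ρ j) * ‖a j‖) ^ 2 :=
        pow_le_pow_left₀ (norm_nonneg _) h1 2
    _ ≤ _ := Finset.sum_mul_sq_le_sq_mul_sq _ _ _

/-- `∂̄ chiP = 0` on the inner open polydisc and off the closed polydisc -/
theorem dAb_chiP_eq_zero (hρ : ∀ j, 0 < ρ j) {z : Cn n}
    (h : (∀ j, ‖z j‖ < ρ j / 2) ∨ ∃ j, ρ j < ‖z j‖) (a : Cn n) :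
    dAb (fun y => (chiP ρ y : ℂ)) z a = 0 := by
  rcases h with h | ⟨j, hj⟩
  · have h1 : (fun y => (chiP ρ y : ℂ)) =ᶠ[𝓝 z] fun _ => (1 : ℂ) := by
      have h2 : ∀ᶠ y : Cn n in 𝓝 z, ∀ j, ‖y j‖ < ρ j / 2 := by
        refine Filter.eventually_all.2 fun j => ?_
        exact ((continuous_apply j).norm.continuousAt (x := z)).eventually_lt continuousAt_const (h j)
      filter_upwards [h2] with y hy
      rw [chiP_eq_one ρ hρ fun j => (hy j).le, Complex.ofReal_one]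
    rw [dAb_congr h1, dAb_const]
  · have h1 : (fun y => (chiP ρ y : ℂ)) =ᶠ[𝓝 z] fun _ => (0 : ℂ) := by
      have h2 : ∀ᶠ y : Cn n in 𝓝 z, ρ j < ‖y j‖ :=
        continuousAt_const.eventually_lt ((continuous_apply j).norm.continuousAt (x := z)) hj
      filter_upwards [h2] with y hy
      rw [chiP_eq_zero ρ hρ ⟨j, hy.le⟩, Complex.ofReal_zero]
    rw [dAb_congr h1, dAb_const]

end three

/-! ### 4. the tropical cut-off -/

section four

variable {ι : Type*} [Fintype ι] {z : Cn n} {F : ι → Cn n → ℂ} {e : Cn n → ℂ}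

theorem chiT_nonneg (μ : ℝ) (q : ι → ℝ) (i₀ : ι) (δ : ℝ) (ξ : ι → ℂ) (ζ₀ : ℂ) : 0 ≤ chiT μ q i₀ δ ξ ζ₀ :=
  Finset.prod_nonneg fun _ _ => thB_nonneg _ _

theorem chiT_le_one (μ : ℝ) (q : ι → ℝ) (i₀ : ι) (δ : ℝ) (ξ : ι → ℂ) (ζ₀ : ℂ) : chiT μ q i₀ δ ξ ζ₀ ≤ 1 :=
  Finset.prod_le_one (fun _ _ => thB_nonneg _ _) fun _ _ => thB_le_one _ _

theorem chiT_eq_one (μ : ℝ) (q : ι → ℝ) (i₀ : ι) {δ : ℝ} (hδ : 0 < δ) (ξ : ι → ℂ) (ζ₀ : ℂ)
    (h : ∀ i, |spr μ q i₀ ξ ζ₀ i| ≤ δ / 2) : chiT μ q i₀ δ ξ ζ₀ = 1 :=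
  Finset.prod_eq_one fun i _ => thB_eq_one hδ (h i)

theorem chiT_eq_zero (μ : ℝ) (q : ι → ℝ) (i₀ : ι) {δ : ℝ} (hδ : 0 < δ) (ξ : ι → ℂ) (ζ₀ : ℂ)
    (h : ∃ i, δ ≤ |spr μ q i₀ ξ ζ₀ i|) : chiT μ q i₀ δ ξ ζ₀ = 0 := by
  obtain ⟨i, hi⟩ := h
  exact Finset.prod_eq_zero (Finset.mem_univ i) (thB_eq_zero hδ hi)

theorem contDiffAt_spr (μ : ℝ) (q : ι → ℝ) (i₀ i : ι) (hF : ∀ i, HolAt (F i) z) (hF0 : ∀ i, F i z ≠ 0)
    (he : HolAt e z) (he0 : e z ≠ 0) :
    ContDiffAt ℝ ∞ (fun y => spr μ q i₀ (fun i => F i y) (e y) i) z := by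
  unfold spr
  have h0 : pL μ (fun i => F i z) (e z) i₀ ≠ 0 := by
    have := one_le_pL μ (fun i => F i z) (e z) i₀
    linarith
  exact ((contDiffAt_pL μ hF hF0 he he0 i).div (contDiffAt_pL μ hF hF0 he he0 i₀) h0).sub
    contDiffAt_const

theorem contDiffAt_chiT (μ : ℝ) (q : ι → ℝ) (i₀ : ι) (δ : ℝ) (hF : ∀ i, HolAt (F i) z)
    (hF0 : ∀ i, F i z ≠ 0) (he : HolAt e z) (he0 : e z ≠ 0) :
    ContDiffAt ℝ ∞ (fun y => chiT μ q i₀ δ (fun i => F i y) (e y)) z := by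
  unfold chiT
  refine contDiffAt_prod fun i _ => ?_
  exact (contDiff_thB δ).contDiffAt.comp z (contDiffAt_spr μ q i₀ i hF hF0 he he0)

/-- `∂̄ chiT = 0` where the spread is `< δ/2` everywhere or `> δ` somewhere -/
theorem dAb_chiT_eq_zero (μ : ℝ) (q : ι → ℝ) (i₀ : ι) {δ : ℝ} (hδ : 0 < δ) (hF : ∀ i, HolAt (F i) z)
    (hF0 : ∀ i, F i z ≠ 0) (he : HolAt e z) (he0 : e z ≠ 0)
    (h : (∀ i, |spr μ q i₀ (fun i => F i z) (e z) i| < δ / 2) ∨
      ∃ i, δ < |spr μ q i₀ (fun i => F i z) (e z) i|) (a : Cn n) :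
    dAb (fun y => (chiT μ q i₀ δ (fun i => F i y) (e y) : ℂ)) z a = 0 := by
  have hc : ∀ i, ContinuousAt (fun y => |spr μ q i₀ (fun i => F i y) (e y) i|) z := fun i =>
    (contDiffAt_spr μ q i₀ i hF hF0 he he0).continuousAt.abs
  rcases h with h | ⟨i, hi⟩
  · have h1 : ∀ᶠ y in 𝓝 z, ∀ i, |spr μ q i₀ (fun i => F i y) (e y) i| < δ / 2 :=
      Filter.eventually_all.2 fun i => (hc i).eventually_lt continuousAt_const (h i)
    have h2 : (fun y => (chiT μ q i₀ δ (fun i => F i y) (e y) : ℂ)) =ᶠ[𝓝 z] fun _ => (1 : ℂ) := by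
      filter_upwards [h1] with y hy
      rw [chiT_eq_one μ q i₀ hδ _ _ fun i => (hy i).le]
      simp
    rw [dAb_congr h2, dAb_const]
  · have h1 : ∀ᶠ y in 𝓝 z, δ < |spr μ q i₀ (fun i => F i y) (e y) i| :=
      continuousAt_const.eventually_lt (hc i) hi
    have h2 : (fun y => (chiT μ q i₀ δ (fun i => F i y) (e y) : ℂ)) =ᶠ[𝓝 z] fun _ => (0 : ℂ) := by
      filter_upwards [h1] with y hy
      rw [chiT_eq_zero μ q i₀ hδ _ _ ⟨i, hy.le⟩]
      simp
    rw [dAb_congr h2, dAb_const]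

/-- **`∂̄` of the tropical cut-off is controlled by the Poincare terms**; the constant depends only on `q, i₀, δ`. -/
theorem exists_dAb_chiT_le (μ : ℝ) (q : ι → ℝ) (i₀ : ι) {δ : ℝ} (hδ : 0 < δ) (hq : ∀ i, 0 ≤ q i)
    (hq0 : 0 < q i₀) :
    ∃ C : ℝ, 0 ≤ C ∧ ∀ (z : Cn n) (F : ι → Cn n → ℂ) (e : Cn n → ℂ), (∀ i, HolAt (F i) z) →
      (∀ i, F i z ≠ 0) → HolAt e z → e z ≠ 0 → ∀ a : Cn n,
      ‖dAb (fun y => (chiT μ q i₀ δ (fun i => F i y) (e y) : ℂ)) z a‖ ^ 2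
        ≤ C * ∑ i, ‖dAr (fun y => pL μ (fun i => F i y) (e y) i) z a‖ ^ 2
            / (pL μ (fun i => F i z) (e z) i) ^ 2 := by
  obtain ⟨Cδ, hCδ, hCδb⟩ := exists_deriv_thB_le hδ
  set c : ι → ℝ := fun i => q i / q i₀ + δ with hc
  have hc0 : ∀ i, 0 ≤ c i := fun i => by
    have := div_nonneg (hq i) hq0.le
    simp only [hc]
    linarith
  refine ⟨(Fintype.card ι : ℝ) * (4 * Cδ ^ 2 * ∑ i, c i ^ 2), by positivity, ?_⟩
  intro z F e hF hF0 he he0 a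
  set P : ι → Cn n → ℝ := fun i y => pL μ (fun i => F i y) (e y) i with hP
  set x : ι → ℝ := fun i => ‖dAr (P i) z a‖ / P i z with hx
  have hP1 : ∀ i, 1 ≤ P i z := fun i => one_le_pL μ (fun i => F i z) (e z) i
  have hPpos : ∀ i, 0 < P i z := fun i => lt_of_lt_of_le one_pos (hP1 i)
  have hPd : ∀ i, DifferentiableAt ℝ (P i) z := fun i =>
    (contDiffAt_pL μ hF hF0 he he0 i).differentiableAt (by simp)
  have hx0 : ∀ i, 0 ≤ x i := fun i => div_nonneg (norm_nonneg _) (hPpos i).le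
  have hsum : ∑ i, ‖dAr (fun y => pL μ (fun i => F i y) (e y) i) z a‖ ^ 2
      / (pL μ (fun i => F i z) (e z) i) ^ 2 = ∑ i, x i ^ 2 :=
    Finset.sum_congr rfl fun i _ => by simp only [hx, hP, div_pow]
  rw [hsum]
  set S : ℝ := ∑ i, x i ^ 2 with hS
  have hS0 : 0 ≤ S := Finset.sum_nonneg fun i _ => by positivity
  have hxS : ∀ i, x i ^ 2 ≤ S := fun i =>
    Finset.single_le_sum (f := fun i => x i ^ 2) (fun i _ => by positivity) (Finset.mem_univ i)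
  by_cases hbig : ∃ i, δ < |spr μ q i₀ (fun i => F i z) (e z) i|
  · rw [dAb_chiT_eq_zero μ q i₀ hδ hF hF0 he he0 (Or.inr hbig) a]
    have hK : 0 ≤ (Fintype.card ι : ℝ) * (4 * Cδ ^ 2 * ∑ i, c i ^ 2) := by positivity
    have := mul_nonneg hK hS0
    simpa using this
  push Not at hbig
  -- the spread functions
  set v : ι → Cn n → ℝ := fun i y => spr μ q i₀ (fun i => F i y) (e y) i with hv
  have hvd : ∀ i, DifferentiableAt ℝ (v i) z := fun i =>
    (contDiffAt_spr μ q i₀ i hF hF0 he he0).differentiableAt (by simp)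
  have hratio : ∀ i, P i z / P i₀ z ≤ c i := by
    intro i
    have h1 := (abs_le.1 (hbig i)).2
    simp only [spr] at h1
    simp only [hc, hP]
    linarith
  have hterm : ∀ i, ‖dAb (fun y => ((thB δ (v i y) : ℝ) : ℂ)) z a‖ ≤ Cδ * (c i * (x i + x i₀)) := by
    intro i
    rw [dAb_comp_real (v i) (thB δ) (hvd i) ((contDiff_thB δ).differentiable (by simp)).differentiableAt,
      norm_mul, Complex.norm_real, Real.norm_eq_abs]
    have h1 : ‖dAb (fun y => ((v i y : ℝ) : ℂ)) z a‖ ≤ c i * (x i + x i₀) := by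
      have h2 := norm_dAb_div_le (a := a) (P i) (P i₀) (hPd i) (hPd i₀) (hPpos i) (hPpos i₀)
        (q i / q i₀)
      refine h2.trans ?_
      exact mul_le_mul_of_nonneg_right (hratio i) (add_nonneg (hx0 i) (hx0 i₀))
    exact mul_le_mul (hCδb _) h1 (norm_nonneg _) hCδ
  have hprod : ‖dAb (fun y => (chiT μ q i₀ δ (fun i => F i y) (e y) : ℂ)) z a‖
      ≤ ∑ i, Cδ * (c i * (x i + x i₀)) := by
    have h1 := norm_dAb_prod_le (a := a) (z := z) Finset.univ (fun i y => thB δ (v i y))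
      (fun i _ => ((contDiff_thB δ).differentiable (by simp)).differentiableAt.comp z (hvd i))
      (fun i _ => thB_nonneg _ _) (fun i _ => thB_le_one _ _)
    exact h1.trans (Finset.sum_le_sum fun i _ => hterm i)
  have hsq : (∑ i, Cδ * (c i * (x i + x i₀))) ^ 2 ≤
      (Fintype.card ι : ℝ) * ∑ i, (Cδ * (c i * (x i + x i₀))) ^ 2 := by
    have := sq_sum_le_card_mul_sum_sq (s := Finset.univ) (f := fun i => Cδ * (c i * (x i + x i₀)))
    simpa using this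
  calc ‖dAb (fun y => (chiT μ q i₀ δ (fun i => F i y) (e y) : ℂ)) z a‖ ^ 2
      ≤ (∑ i, Cδ * (c i * (x i + x i₀))) ^ 2 := pow_le_pow_left₀ (norm_nonneg _) hprod 2
    _ ≤ (Fintype.card ι : ℝ) * ∑ i, (Cδ * (c i * (x i + x i₀))) ^ 2 := hsq
    _ ≤ (Fintype.card ι : ℝ) * ∑ i, (4 * Cδ ^ 2 * c i ^ 2 * S) := by
        refine mul_le_mul_of_nonneg_left (Finset.sum_le_sum fun i _ => ?_) (by positivity)
        have h1 : (x i + x i₀) ^ 2 ≤ 4 * S := by
          nlinarith [hxS i, hxS i₀, sq_nonneg (x i - x i₀)]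
        calc (Cδ * (c i * (x i + x i₀))) ^ 2 = Cδ ^ 2 * c i ^ 2 * (x i + x i₀) ^ 2 := by ring
          _ ≤ Cδ ^ 2 * c i ^ 2 * (4 * S) := mul_le_mul_of_nonneg_left h1 (by positivity)
          _ = 4 * Cδ ^ 2 * c i ^ 2 * S := by ring
    _ = (Fintype.card ι : ℝ) * (4 * Cδ ^ 2 * ∑ i, c i ^ 2) * S := by
        rw [← Finset.sum_mul, ← Finset.mul_sum]
        ring

end four

end Claimed.Agent.R242
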