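/-
Row 242 (S0480), package LIFT.  Trop: LIFT 2 (the final lift with the tropical cut-off), local part.      Architect: helper110.
Paper-free: Mathlib + `SCV/Howald` (proved) + `Lift/Weights`, `Lift/Cutoff`, `Lift/Cone` (use the statements even while sorried).

RESULT:  `trop_locLift : T.Ok → LocLift T.r0 T.D0 T.φ`.

SETTING (`TropData`, `TropData.Ok`).  `f i` (= the sections `s_i` of `mL`), `e` (= `σ_0`, no zero) holomorphic on `ball 0 r0`;
finitely many monomial leaves `lf l` whose compact parts cover a neighbourhood of `0`; one more monomial chart `att` through `0` with weights `u`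
such that `ow att.o u = disc att.k u • q` (the valuation computing the threshold); `∑ b q = 1`; the cone hypothesis on every leaf.
  φ   = wtT μ b q ν η ε c (f ·) (zetaOf r0 e ·),      D0 = ball 0 r0 minus the zero sets of the `f i`,
  P i = pL .. i = - log |f i|² + O(1),   sp i = P i / P i₀ - q i / q i₀,
  g   = chiP (r1, .., r1) * chiT δ,     E = {‖z‖ ≤ r1, all |sp i| ≤ δ} minus {‖z‖ < r1/2, all |sp i| < δ/2}   (contains the support of `∂̄ g`).

LEAVES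
  LIFT-T-A : section 1  (`adm_mono`, `leaf_adm`, `leaf_ctr`: compactness / uniform continuity on the compact part of a leaf)
  LIFT-T-B : section 2  (`leaf_log`, `trop_bounds`, `trop_P_sub`: logarithmic coordinates, bounded terms)
  LIFT-T-C : section 3  (`trop_g_*`, `trop_E_meas`, `trop_dbar`: the cut-off)
  LIFT-T-D : section 4  (`truncW_*`, `trop_profile`)
  LIFT-T-E : section 4  (`trop_pointwise`: the key estimate)
  LIFT-T-F : section 5  (`lift_lintegral_prod_rpow`, `trop_int`, `trop_choice`)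
  LIFT-T-G : section 6  (`lift_tube_eq_top`, `trop_tube`, `trop_div`: divergence)
  LIFT-T-H : section 7  (`trop_locLift`: assembly)

PLANS.
 1. `K = closedBall 0 (ρ/2)` is compact, contained in `ball 0 ρ`, `σ` is continuous on it, hence uniformly continuous (`IsCompact.uniformContinuousOn_of_continuous`).
    For `y ∈ K` and `J` let `y^J` be `y` with the coordinates in `J` replaced by `0`: `y^J ∈ K`, `‖y - y^J‖ = max_{j ∈ J} ‖y_j‖`.
    `leaf_adm`: for every `J` with `¬ Adm J` the compact set `K ∩ {y_j = 0, j ∈ J}` does not meet `σ⁻¹ 0`, so `‖σ‖ ≥ 2 c_J > 0` on it (or the set is empty); choose `s_J` with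
    `‖y - y'‖ < s_J → ‖σ y - σ y'‖ < c_J` on `K`.  `s = min s_J`, `c₁ = min c_J` over the finitely many `J` (`Finset.univ : Finset (Finset (Fin n))`).
    If `‖σ y‖ < c₁` and `J = {j | ‖y_j‖ < s}` were not admissible: `‖σ y‖ ≥ ‖σ y^J‖ - c_J ≥ c_J ≥ c₁`.  (If `J = ∅`: `y^J = y`.)
    `leaf_ctr`: `σ y^J = 0`, uniform continuity.
 2. `f i (σ y) = U i y * ∏ y_j^(o j i)`: `lgs_mul`, `lgs_prod`, `lgs_pow`, `lgs (y_j) = 2 log ‖y_j‖`; `|lgs (U i y)|` is bounded on `K` (continuous, no zero).  Same for `cjac`.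
    `trop_bounds`: on `closedBall 0 r1`: `exp (lgs (f l z)) ≤ max 1 (sup ‖f l‖²)`; `exp (μ lgs (e z))` is continuous and positive.  `lsq_zetaOf`.
 3. `D0` is open; on `D0` all `f i`, `e` are `HolAt` and `≠ 0`.  `trop_dbar`: for `z ∈ D0 \ E` one of: `r1 < ‖z‖` (some `‖z_j‖ > r1`: `dAb_chiP_eq_zero` and `chiP = 0`), some `|sp i| > δ`
    (`dAb_chiT_eq_zero`, `chiT = 0`), or (`‖z‖ < r1/2` and all `|sp i| < δ/2`: both `dAb` vanish); by `dAb_mul` the left side is `0`, the right side is `0`.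
    For `z ∈ D0 ∩ E`: `‖dAb g‖² ≤ 2 ‖dAb chiP‖² + 2 ‖dAb chiT‖² ≤ 2 C₁ |a|² + 2 C₂ ∑ ‖dAr P_i‖²/P_i²`, and `levi_wtT_zetaOf_ge` with `1 + ∑‖z_j + r0‖² ≤ 1 + 4 n r0²`.
    `trop_E_meas`: on the measurable set `closedBall 0 r1` the functions `f i`, `e` are continuous; replace them by `indicator`s, or use
    `ContinuousOn.measurable_piecewise` / `measurable_of_continuousOn_compl_singleton`-style arguments; `Real.log`, `Real.exp`, `norm` are measurable.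
 4. See the docstrings.
 5. `lift_lintegral_prod_rpow` = `r242_howald_lt_top` with `N = 1`, `β = 0`, `c = 0`, `b = κ - 1`.
    `trop_int`: `D0 ∩ E ⊆ ⋃_l σ_l '' K'_l`, `K'_l = K_l ∩ σ_l⁻¹ (D0 ∩ E)` (measurable); `lintegral_iUnion_le`/finite union bound; `r242_lintegral_image_le` (`D = ball 0 ρ_l`, the sets `A`);
    a.e. `y_j ≠ 0` (`r242_ae_ne_zero`).
 6. `lift_tube_eq_top`: copy the proof of `r242_tube_eq_top` (SCV/Howald) with `a0 i = - log (ρ i)`; it rests on `r242_logpolar_le` and `r242_orth_eq_top`, which allow a base point `a : Fin n → ℝ`.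
-/
import Claimed.Agent.R242.Lift.Cutoff
import Claimed.Agent.R242.Lift.Cone

set_option autoImplicit false

open MeasureTheory Complex Metric
open scoped ContDiff ComplexConjugate ENNReal Topology

namespace Claimed.Agent.R242

variable {n N : ℕ}

/-- the data of the final lift in the coordinates at `x = 0`. -/
structure TropData (n N : ℕ) where
  r0 : ℝ
  f : Fin N → Cn n → ℂ
  e : Cn n → ℂ
  nl : ℕ
  lf : Fin nl → MLeaf n (Fin N)
  att : MLeaf n (Fin N)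
  u : Fin n → ℝ
  μ : ℝ
  b : Fin N → ℝ
  q : Fin N → ℝ
  ν : Fin N → ℝ
  η : ℝ
  θ : ℝ
  ε : ℝ
  c : ℝ
  i₀ : Fin N

namespace TropData

variable (T : TropData n N)

structure Ok : Prop where
  r0_pos : 0 < T.r0
  f_hol : ∀ i, DifferentiableOn ℂ (T.f i) (ball 0 T.r0)
  e_hol : DifferentiableOn ℂ T.e (ball 0 T.r0)
  e_ne : ∀ z ∈ ball (0 : Cn n) T.r0, T.e z ≠ 0
  good : ∀ l, (T.lf l).Good T.r0 T.f
  cover : (⋃ l, (T.lf l).σ '' closedBall 0 ((T.lf l).ρ / 2)) ∈ 𝓝 (0 : Cn n)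
  b_pos : ∀ i, 0 < T.b i
  q_nonneg : ∀ i, 0 ≤ T.q i
  q_pos : 0 < T.q T.i₀
  η_pos : 0 < T.η
  η_lt : T.η < 1
  θ_pos : 0 < T.θ
  ε_pos : 0 < T.ε
  c_pos : 0 < T.c
  sum_bq : ∑ i, T.b i * T.q i = 1
  cone : ∀ l, ConeHyp (T.lf l).k (T.lf l).o T.b T.q T.η T.θ (T.lf l).Adm (T.lf l).Ctr
  att_good : T.att.Good T.r0 T.f
  att_zero : T.att.σ 0 = 0
  u_nonneg : ∀ j, 0 ≤ T.u j
  u_ne : T.u ≠ 0
  att_eq : ∀ i, ow T.att.o T.u i = disc T.att.k T.u * T.q i

/-- the weight -/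
noncomputable def φ (z : Cn n) : ℝ :=
  wtT T.μ T.b T.q T.ν T.η T.ε T.c (fun i => T.f i z) (zetaOf (T.r0 : ℂ) T.e z)

/-- the domain -/
def D0 : Set (Cn n) := {z | z ∈ ball (0 : Cn n) T.r0 ∧ ∀ i, T.f i z ≠ 0}

/-- the profile -/
noncomputable def P (z : Cn n) (i : Fin N) : ℝ := pL T.μ (fun i => T.f i z) (T.e z) i

/-- the spread -/
noncomputable def sp (z : Cn n) (i : Fin N) : ℝ := spr T.μ T.q T.i₀ (fun i => T.f i z) (T.e z) i

/-- the cut-off -/
noncomputable def g (r1 δ : ℝ) (z : Cn n) : ℂ :=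
  ((chiP (fun _ => r1) z * chiT T.μ T.q T.i₀ δ (fun i => T.f i z) (T.e z) : ℝ) : ℂ)

/-- a closed set (relative to `D0`) that contains the support of `∂̄ g` -/
def E (r1 δ : ℝ) : Set (Cn n) :=
  {z | ‖z‖ ≤ r1 ∧ (∀ i, |T.sp z i| ≤ δ) ∧ ¬ (‖z‖ < r1 / 2 ∧ ∀ i, |T.sp z i| < δ / 2)}

end TropData

/-! ### 1. geometry of a leaf -/

section one

variable {ι : Type*} (𝔩 : MLeaf n ι) {r0 : ℝ} {f : ι → Cn n → ℂ}

theorem adm_mono (J J' : Finset (Fin n)) (h : J' ⊆ J) (hJ : 𝔩.Adm J) : 𝔩.Adm J' := by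
  obtain ⟨c, hc, h0, hz⟩ := hJ
  exact ⟨c, hc, h0, fun j hj => hz j (h hj)⟩

/-- zeroing the coordinates in `J`. -/
noncomputable def tropZ (J : Finset (Fin n)) (y : Cn n) : Cn n := fun j => if j ∈ J then 0 else y j

theorem tropZ_mem {J : Finset (Fin n)} {y : Cn n} {R : ℝ} (hy : y ∈ closedBall (0 : Cn n) R) :
    tropZ J y ∈ closedBall (0 : Cn n) R := by
  rw [mem_closedBall_zero_iff] at hy ⊢
  have hR : 0 ≤ R := (norm_nonneg _).trans hy
  rw [pi_norm_le_iff_of_nonneg hR] at hy ⊢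
  intro j
  unfold tropZ
  split_ifs
  · simpa using hR
  · exact hy j

theorem tropZ_dist {J : Finset (Fin n)} {y : Cn n} {s : ℝ} (hs : 0 < s) (h : ∀ j ∈ J, ‖y j‖ < s) :
    dist y (tropZ J y) < s := by
  rw [dist_pi_lt_iff hs]
  intro j
  unfold tropZ
  split_ifs with hj
  · rw [dist_zero_right]
    exact h j hj
  · rw [dist_self]
    exact hs

theorem tropZ_apply_mem {J : Finset (Fin n)} (y : Cn n) {j : Fin n} (hj : j ∈ J) : tropZ J y j = 0 :=
  if_pos hj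

theorem leaf_subset (h : 𝔩.Good r0 f) : closedBall (0 : Cn n) (𝔩.ρ / 2) ⊆ ball 0 𝔩.ρ :=
  closedBall_subset_ball (by linarith [h.ρ_pos])

theorem leaf_continuousOn (h : 𝔩.Good r0 f) : ContinuousOn 𝔩.σ (closedBall (0 : Cn n) (𝔩.ρ / 2)) :=
  h.hol.continuousOn.mono (leaf_subset 𝔩 h)

theorem leaf_unifCont (h : 𝔩.Good r0 f) : ∀ ε > 0, ∃ δ > 0, ∀ x ∈ closedBall (0 : Cn n) (𝔩.ρ / 2),
    ∀ y ∈ closedBall (0 : Cn n) (𝔩.ρ / 2), dist x y < δ → dist (𝔩.σ x) (𝔩.σ y) < ε :=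
  Metric.uniformContinuousOn_iff.1
    ((isCompact_closedBall _ _).uniformContinuousOn_of_continuous (leaf_continuousOn 𝔩 h))

theorem leaf_adm_aux (h : 𝔩.Good r0 f) (J : Finset (Fin n)) : ∃ s c : ℝ, 0 < s ∧ 0 < c ∧
    (¬ 𝔩.Adm J → ∀ y ∈ closedBall (0 : Cn n) (𝔩.ρ / 2), (∀ j ∈ J, ‖y j‖ < s) → c ≤ ‖𝔩.σ y‖) := by
  by_cases hA : 𝔩.Adm J
  · exact ⟨1, 1, one_pos, one_pos, fun h' => absurd hA h'⟩
  set K : Set (Cn n) := closedBall (0 : Cn n) (𝔩.ρ / 2) ∩ {y | ∀ j ∈ J, y j = 0} with hK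
  have hcl : IsClosed {y : Cn n | ∀ j ∈ J, y j = 0} := by
    have e : {y : Cn n | ∀ j ∈ J, y j = 0} = ⋂ j ∈ J, {y : Cn n | y j = 0} := by
      ext y
      simp
    rw [e]
    exact isClosed_biInter fun j _ => isClosed_eq (continuous_apply j) continuous_const
  have hKc : IsCompact K := (isCompact_closedBall _ _).inter_right hcl
  have hKne : K.Nonempty :=
    ⟨0, mem_closedBall_self (by linarith [h.ρ_pos]), fun j _ => rfl⟩
  obtain ⟨y₀, hy₀, hmin⟩ := hKc.exists_isMinOn hKne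
    ((leaf_continuousOn 𝔩 h).norm.mono Set.inter_subset_left)
  have hm : 0 < ‖𝔩.σ y₀‖ := by
    rw [norm_pos_iff]
    intro h0
    exact hA ⟨y₀, hy₀.1, h0, hy₀.2⟩
  obtain ⟨s, hs, hu⟩ := leaf_unifCont 𝔩 h (‖𝔩.σ y₀‖ / 2) (by positivity)
  refine ⟨s, ‖𝔩.σ y₀‖ / 2, hs, by positivity, fun _ y hy hsm => ?_⟩
  have h1 : tropZ J y ∈ K := ⟨tropZ_mem hy, fun j hj => tropZ_apply_mem y hj⟩
  have h2 : ‖𝔩.σ y₀‖ ≤ ‖𝔩.σ (tropZ J y)‖ := hmin h1
  have h3 := hu y hy _ (tropZ_mem hy) (tropZ_dist hs hsm)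
  rw [dist_eq_norm] at h3
  have h4 : ‖𝔩.σ (tropZ J y)‖ ≤ ‖𝔩.σ y‖ + ‖𝔩.σ y - 𝔩.σ (tropZ J y)‖ := by
    have := norm_sub_le (𝔩.σ y) (𝔩.σ y - 𝔩.σ (tropZ J y))
    rwa [sub_sub_cancel] at this
  linarith

/-- over a small neighbourhood of `0` the set of the small coordinates is admissible -/
theorem leaf_adm (h : 𝔩.Good r0 f) : ∃ s c₁ : ℝ, 0 < s ∧ s ≤ 1 ∧ 0 < c₁ ∧
    ∀ y ∈ closedBall (0 : Cn n) (𝔩.ρ / 2), ‖𝔩.σ y‖ < c₁ →
      𝔩.Adm (Finset.univ.filter fun j => ‖y j‖ < s) := by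
  classical
  choose sJ cJ hs hc hJ using leaf_adm_aux 𝔩 h
  obtain ⟨J₁, hJ₁⟩ := Finite.exists_min sJ
  obtain ⟨J₂, hJ₂⟩ := Finite.exists_min cJ
  refine ⟨min 1 (sJ J₁), cJ J₂, lt_min one_pos (hs J₁), min_le_left _ _, hc J₂, fun y hy hσ => ?_⟩
  by_contra hA
  have h1 := hJ _ hA y hy fun j hj =>
    lt_of_lt_of_le (Finset.mem_filter.1 hj).2 ((min_le_right _ _).trans (hJ₁ _))
  exact absurd (lt_of_lt_of_le hσ (hJ₂ _)) (not_lt.2 h1)

/-- near a contracted stratum the leaf map is small -/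
theorem leaf_ctr (h : 𝔩.Good r0 f) (r : ℝ) (hr : 0 < r) : ∃ s : ℝ, 0 < s ∧
    ∀ J : Finset (Fin n), 𝔩.Ctr J → ∀ y ∈ closedBall (0 : Cn n) (𝔩.ρ / 2), (∀ j ∈ J, ‖y j‖ < s) →
      ‖𝔩.σ y‖ < r := by
  obtain ⟨s, hs, hu⟩ := leaf_unifCont 𝔩 h r hr
  refine ⟨s, hs, fun J hJ y hy hsm => ?_⟩
  have h1 : 𝔩.σ (tropZ J y) = 0 :=
    hJ _ (leaf_subset 𝔩 h (tropZ_mem hy)) fun j hj => tropZ_apply_mem y hj
  have h3 := hu y hy _ (tropZ_mem hy) (tropZ_dist hs hsm)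
  rwa [h1, dist_zero_right] at h3

end one

/-! ### 2. logarithmic coordinates, bounded terms -/

section two

/-- `log |U|²` is bounded on a compact set on which `U` is continuous without zeros -/
theorem lift_lgs_bdd {K : Set (Cn n)} (hK : IsCompact K) {U : Cn n → ℂ} (hU : ContinuousOn U K)
    (h0 : ∀ y ∈ K, U y ≠ 0) : ∃ A : ℝ, 0 ≤ A ∧ ∀ y ∈ K, |lgs (U y)| ≤ A := by
  have hc : ContinuousOn (fun y => lgs (U y)) K := by
    unfold lgs
    refine ContinuousOn.log (hU.norm.pow 2) fun y hy => ?_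
    have : 0 < ‖U y‖ := norm_pos_iff.2 (h0 y hy)
    positivity
  obtain ⟨C, hC⟩ := hK.exists_bound_of_continuousOn hc
  exact ⟨max C 0, le_max_right _ _, fun y hy => le_trans (hC y hy) (le_max_left _ _)⟩

theorem lift_lgs_eq (ζ : ℂ) : lgs ζ = 2 * Real.log ‖ζ‖ := by
  unfold lgs
  rw [Real.log_pow]
  norm_num

/-- `log |U ∏ y_j^{k_j}|²` -/
theorem lift_lgs_mono (w : ℂ) (hw : w ≠ 0) (y : Cn n) (hy : ∀ j, y j ≠ 0) (k : Fin n → ℕ) :
    lgs (w * ∏ j, y j ^ k j) = lgs w - 2 * ∑ j, (k j : ℝ) * (- Real.log ‖y j‖) := by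
  rw [lgs_mul hw (Finset.prod_ne_zero_iff.2 fun j _ => pow_ne_zero _ (hy j)),
    lgs_prod _ _ fun j _ => pow_ne_zero _ (hy j), Finset.mul_sum, sub_eq_add_neg,
    ← Finset.sum_neg_distrib]
  congr 1
  refine Finset.sum_congr rfl fun j _ => ?_
  rw [lgs_pow, lift_lgs_eq]
  ring

theorem lift_closedBall_half_subset {ρ : ℝ} (hρ : 0 < ρ) :
    closedBall (0 : Cn n) (ρ / 2) ⊆ ball (0 : Cn n) ρ :=
  closedBall_subset_ball (by linarith)

/-- in a leaf: `- log |f_i ∘ σ|² = 2 ∑_j o_{j i} t_j + O(1)`, `|Jac σ|² ≍ exp (- 2 ∑ k_j t_j)`, `t_j = - log ‖y_j‖`. -/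
theorem leaf_log {ι : Type*} [Finite ι] (𝔩 : MLeaf n ι) {r0 : ℝ} {f : ι → Cn n → ℂ} (h : 𝔩.Good r0 f) :
    ∃ C : ℝ, 0 < C ∧ ∀ y ∈ closedBall (0 : Cn n) (𝔩.ρ / 2), (∀ j, y j ≠ 0) →
      (∀ i, |(- lgs (f i (𝔩.σ y))) - 2 * ∑ j, (𝔩.o j i : ℝ) * (- Real.log ‖y j‖)| ≤ C) ∧
      ‖cjac 𝔩.σ y‖ ^ 2 ≤ C * Real.exp (- 2 * ∑ j, (𝔩.k j : ℝ) * (- Real.log ‖y j‖)) ∧
      C⁻¹ * Real.exp (- 2 * ∑ j, (𝔩.k j : ℝ) * (- Real.log ‖y j‖)) ≤ ‖cjac 𝔩.σ y‖ ^ 2 := by
  classical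
  have := Fintype.ofFinite ι
  have hsub := lift_closedBall_half_subset (n := n) h.ρ_pos
  have hK : IsCompact (closedBall (0 : Cn n) (𝔩.ρ / 2)) := isCompact_closedBall _ _
  have hA : ∀ i, ∃ A : ℝ, 0 ≤ A ∧ ∀ y ∈ closedBall (0 : Cn n) (𝔩.ρ / 2), |lgs (𝔩.U i y)| ≤ A :=
    fun i => lift_lgs_bdd hK ((h.U_cont i).mono hsub) fun y hy => h.U_ne i y (hsub hy)
  choose A hA0 hA using hA
  obtain ⟨AJ, hAJ0, hAJ⟩ := lift_lgs_bdd hK (h.UJ_cont.mono hsub) fun y hy => h.UJ_ne y (hsub hy)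
  have hS0 : 0 ≤ ∑ i, A i := Finset.sum_nonneg fun i _ => hA0 i
  have hCpos : 0 < ∑ i, A i + Real.exp AJ := by
    have := Real.exp_pos AJ
    linarith
  refine ⟨∑ i, A i + Real.exp AJ, hCpos, fun y hy hy0 => ⟨fun i => ?_, ?_⟩⟩
  · rw [h.mono i y (hsub hy), lift_lgs_mono _ (h.U_ne i y (hsub hy)) y hy0]
    have h1 := hA i y hy
    have h2 : A i ≤ ∑ i, A i := Finset.single_le_sum (fun i _ => hA0 i) (Finset.mem_univ i)
    have h3 := Real.exp_pos AJ
    have e : -(lgs (𝔩.U i y) - 2 * ∑ j, (𝔩.o j i : ℝ) * (- Real.log ‖y j‖))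
        - 2 * ∑ j, (𝔩.o j i : ℝ) * (- Real.log ‖y j‖) = - lgs (𝔩.U i y) := by ring
    rw [e, abs_neg]
    linarith
  · have hne : cjac 𝔩.σ y ≠ 0 := by
      rw [h.jac y (hsub hy)]
      exact mul_ne_zero (h.UJ_ne y (hsub hy))
        (Finset.prod_ne_zero_iff.2 fun j _ => pow_ne_zero _ (hy0 j))
    have e1 : ‖cjac 𝔩.σ y‖ ^ 2 = Real.exp (lgs (𝔩.UJ y))
        * Real.exp (- 2 * ∑ j, (𝔩.k j : ℝ) * (- Real.log ‖y j‖)) := by
      rw [← exp_lgs hne, h.jac y (hsub hy), lift_lgs_mono _ (h.UJ_ne y (hsub hy)) y hy0,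
        ← Real.exp_add]
      congr 1
      ring
    have h1 := abs_le.1 (hAJ y hy)
    have hE := Real.exp_pos (- 2 * ∑ j, (𝔩.k j : ℝ) * (- Real.log ‖y j‖))
    rw [e1]
    constructor
    · refine mul_le_mul_of_nonneg_right ?_ hE.le
      have := Real.exp_le_exp.2 h1.2
      linarith
    · refine mul_le_mul_of_nonneg_right ?_ hE.le
      have h2 : Real.exp (-AJ) ≤ Real.exp (lgs (𝔩.UJ y)) := Real.exp_le_exp.2 h1.1
      have h3 : (∑ i, A i + Real.exp AJ)⁻¹ ≤ (Real.exp AJ)⁻¹ :=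
        inv_anti₀ (Real.exp_pos _) (by linarith)
      rw [← Real.exp_neg] at h3
      linarith

variable {T : TropData n N}

theorem lift_exp_lgs_le (ζ : ℂ) : Real.exp (lgs ζ) ≤ 1 + ‖ζ‖ ^ 2 := by
  by_cases h : ζ = 0
  · subst h
    simp [lgs]
  · rw [exp_lgs h]
    linarith

theorem trop_bounds (hT : T.Ok) {r1 : ℝ} (hr1 : r1 < T.r0) :
    ∃ A : ℝ, 0 ≤ A ∧ ∀ z ∈ closedBall (0 : Cn n) r1,
      |refT T.μ (fun i => T.f i z) (T.e z)| ≤ A ∧ |lgs (T.e z)| ≤ A ∧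
      |lsq (zetaOf (T.r0 : ℂ) T.e z)| ≤ A := by
  have hsub : closedBall (0 : Cn n) r1 ⊆ ball (0 : Cn n) T.r0 := closedBall_subset_ball hr1
  have hK : IsCompact (closedBall (0 : Cn n) r1) := isCompact_closedBall _ _
  obtain ⟨A1, hA10, hA1⟩ := lift_lgs_bdd hK (hT.e_hol.continuousOn.mono hsub)
    fun z hz => hT.e_ne z (hsub hz)
  have hc2 : ContinuousOn (fun z : Cn n => Real.log (1 + ∑ j, ‖z j + (T.r0 : ℂ)‖ ^ 2))
      (closedBall (0 : Cn n) r1) := by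
    refine ContinuousOn.log (by fun_prop) fun z _ => ?_
    have : 0 ≤ ∑ j, ‖z j + (T.r0 : ℂ)‖ ^ 2 := Finset.sum_nonneg fun j _ => by positivity
    linarith
  obtain ⟨A2, hA2⟩ := hK.exists_bound_of_continuousOn hc2
  have hM : ∀ l, ∃ M : ℝ, ∀ z ∈ closedBall (0 : Cn n) r1, ‖T.f l z‖ ≤ M := fun l =>
    hK.exists_bound_of_continuousOn ((hT.f_hol l).continuousOn.mono hsub)
  choose M hM using hM
  obtain ⟨B, hB⟩ : ∃ B : ℝ, B = ∑ l, (1 + M l ^ 2) + Real.exp (|T.μ| * A1) := ⟨_, rfl⟩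
  have hμA : 0 ≤ |T.μ| * A1 := mul_nonneg (abs_nonneg _) hA10
  have hB1 : 1 ≤ B := by
    rw [hB]
    have h1 : 0 ≤ ∑ l, (1 + M l ^ 2) := Finset.sum_nonneg fun l _ => by positivity
    have h2 : 1 ≤ Real.exp (|T.μ| * A1) := Real.one_le_exp hμA
    linarith
  have hlB : 0 ≤ Real.log B := Real.log_nonneg hB1
  refine ⟨A1 + |A2| + Real.log B + |T.μ| * A1, by positivity, fun z hz => ⟨?_, ?_, ?_⟩⟩
  · have h1 := abs_le.1 (hA1 z hz)
    have h2 : |T.μ * lgs (T.e z)| ≤ |T.μ| * A1 := by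
      rw [abs_mul]
      exact mul_le_mul_of_nonneg_left (hA1 z hz) (abs_nonneg _)
    have h3 := abs_le.1 h2
    have hlow : Real.exp (-(|T.μ| * A1))
        ≤ ∑ l, Real.exp (lgs (T.f l z)) + Real.exp (T.μ * lgs (T.e z)) := by
      have h4 : 0 ≤ ∑ l, Real.exp (lgs (T.f l z)) := Finset.sum_nonneg fun l _ => (Real.exp_pos _).le
      have h5 := Real.exp_le_exp.2 h3.1
      linarith
    have hup : ∑ l, Real.exp (lgs (T.f l z)) + Real.exp (T.μ * lgs (T.e z)) ≤ B := by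
      rw [hB]
      refine add_le_add (Finset.sum_le_sum fun l _ => ?_) (Real.exp_le_exp.2 h3.2)
      refine le_trans (lift_exp_lgs_le _) ?_
      have h6 := hM l z hz
      have h7 : ‖T.f l z‖ ^ 2 ≤ M l ^ 2 := pow_le_pow_left₀ (norm_nonneg _) h6 2
      linarith
    have hpos : 0 < ∑ l, Real.exp (lgs (T.f l z)) + Real.exp (T.μ * lgs (T.e z)) :=
      lt_of_lt_of_le (Real.exp_pos _) hlow
    unfold refT
    rw [abs_le]
    constructor
    · have := Real.log_le_log (Real.exp_pos _) hlow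
      rw [Real.log_exp] at this
      have := abs_nonneg A2
      linarith
    · have := Real.log_le_log hpos hup
      have := abs_nonneg A2
      linarith
  · have := hA1 z hz
    have := abs_nonneg A2
    linarith
  · rw [lsq_zetaOf (hT.e_ne z (hsub hz))]
    have h1 := hA1 z hz
    have h2 : |Real.log (1 + ∑ j, ‖z j + (T.r0 : ℂ)‖ ^ 2)| ≤ A2 := hA2 z hz
    have h3 := le_abs_self A2
    have h4 := abs_add_le (lgs (T.e z)) (Real.log (1 + ∑ j, ‖z j + (T.r0 : ℂ)‖ ^ 2))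
    linarith

/-- `P i = - log |f i|² + O(1)` -/
theorem trop_P_sub (hT : T.Ok) {r1 : ℝ} (hr1 : r1 < T.r0) :
    ∃ A : ℝ, 0 ≤ A ∧ ∀ z ∈ closedBall (0 : Cn n) r1, ∀ i, |T.P z i - (- lgs (T.f i z))| ≤ A := by
  obtain ⟨A, hA0, hA⟩ := trop_bounds hT hr1
  refine ⟨1 + A, by linarith, fun z hz i => ?_⟩
  have h1 := (hA z hz).1
  have e : T.P z i - (- lgs (T.f i z)) = 1 + refT T.μ (fun i => T.f i z) (T.e z) := by
    unfold TropData.P pL
    ring
  rw [e]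
  have h2 := abs_add_le 1 (refT T.μ (fun i => T.f i z) (T.e z))
  rw [abs_one] at h2
  linarith

end two

/-! ### 3. the cut-off -/

section three

variable {T : TropData n N}

theorem trop_isOpen_D0 (hT : T.Ok) : IsOpen T.D0 := by
  have e : T.D0 = ball (0 : Cn n) T.r0 ∩ ⋂ i, (ball (0 : Cn n) T.r0 ∩ T.f i ⁻¹' {0}ᶜ) := by
    ext z
    simp only [TropData.D0, Set.mem_ofPred_eq, Set.mem_inter_iff, Set.mem_iInter, Set.mem_preimage,
      Set.mem_compl_iff, Set.mem_singleton_iff]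
    constructor
    · rintro ⟨h1, h2⟩
      exact ⟨h1, fun i => ⟨h1, h2 i⟩⟩
    · rintro ⟨h1, h2⟩
      exact ⟨h1, fun i => (h2 i).2⟩
  rw [e]
  exact isOpen_ball.inter (isOpen_iInter_of_finite fun i =>
    (hT.f_hol i).continuousOn.isOpen_inter_preimage isOpen_ball isOpen_compl_singleton)

theorem trop_holAt (hT : T.Ok) {z : Cn n} (hz : z ∈ T.D0) :
    (∀ i, HolAt (T.f i) z) ∧ (∀ i, T.f i z ≠ 0) ∧ HolAt T.e z ∧ T.e z ≠ 0 :=
  ⟨fun i => holAt_of_differentiableOn isOpen_ball (hT.f_hol i) hz.1, hz.2,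
    holAt_of_differentiableOn isOpen_ball hT.e_hol hz.1, hT.e_ne z hz.1⟩

theorem trop_g_smooth (hT : T.Ok) (r1 δ : ℝ) : ContDiffOn ℝ ∞ (T.g r1 δ) T.D0 := by
  intro z hz
  obtain ⟨h1, h2, h3, h4⟩ := trop_holAt hT hz
  refine ContDiffAt.contDiffWithinAt ?_
  unfold TropData.g
  exact Complex.ofRealCLM.contDiff.contDiffAt.comp z
    ((contDiff_chiP _).contDiffAt.mul (contDiffAt_chiT T.μ T.q T.i₀ δ h1 h2 h3 h4))

theorem trop_g_norm_le (r1 δ : ℝ) (z : Cn n) : ‖T.g r1 δ z‖ ≤ 1 := by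
  unfold TropData.g
  rw [Complex.norm_real, Real.norm_eq_abs, abs_of_nonneg (mul_nonneg (chiP_nonneg _ _) (chiT_nonneg _ _ _ _ _ _))]
  exact mul_le_one₀ (chiP_le_one _ _) (chiT_nonneg _ _ _ _ _ _) (chiT_le_one _ _ _ _ _ _)

theorem trop_g_eq_zero {r1 : ℝ} (hr1 : 0 < r1) (δ : ℝ) {z : Cn n} (hz : r1 ≤ ‖z‖) : T.g r1 δ z = 0 := by
  have h : ∃ j, r1 ≤ ‖z j‖ := by
    by_contra hc
    push Not at hc
    exact absurd ((pi_norm_lt_iff hr1).2 hc) (not_lt.2 hz)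
  unfold TropData.g
  rw [chiP_eq_zero (fun _ => r1) (fun _ => hr1) h, zero_mul, Complex.ofReal_zero]

theorem trop_g_eq_one {r1 δ : ℝ} (hr1 : 0 < r1) (hδ : 0 < δ) {z : Cn n} (hz : ‖z‖ ≤ r1 / 2)
    (hs : ∀ i, |T.sp z i| ≤ δ / 2) : T.g r1 δ z = 1 := by
  unfold TropData.g
  rw [chiP_eq_one (fun _ => r1) (fun _ => hr1) fun j => (norm_le_pi_norm z j).trans hz,
    chiT_eq_one T.μ T.q T.i₀ hδ _ _ hs, one_mul, Complex.ofReal_one]

theorem tropC_measurable_lgs : Measurable lgs := by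
  unfold lgs
  exact Real.measurable_log.comp (measurable_norm.pow_const 2)

theorem trop_E_meas (hT : T.Ok) {r1 : ℝ} (hr1 : r1 < T.r0) (δ : ℝ) : MeasurableSet (T.E r1 δ) := by
  classical
  set K : Set (Cn n) := closedBall (0 : Cn n) r1 with hKdef
  have hK : MeasurableSet K := isClosed_closedBall.measurableSet
  have hsub : K ⊆ ball (0 : Cn n) T.r0 := closedBall_subset_ball hr1
  let f' : Fin N → Cn n → ℂ := fun i => K.piecewise (T.f i) (fun _ => 0)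
  let e' : Cn n → ℂ := K.piecewise T.e (fun _ => 0)
  have hf' : ∀ i, Measurable (f' i) := fun i =>
    ContinuousOn.measurable_piecewise ((hT.f_hol i).continuousOn.mono hsub) continuousOn_const hK
  have he' : Measurable e' :=
    ContinuousOn.measurable_piecewise (hT.e_hol.continuousOn.mono hsub) continuousOn_const hK
  have hl : ∀ i, Measurable fun z => lgs (f' i z) := fun i => tropC_measurable_lgs.comp (hf' i)
  have hle : Measurable fun z => lgs (e' z) := tropC_measurable_lgs.comp he'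
  have href : Measurable fun z => refT T.μ (fun i => f' i z) (e' z) := by
    unfold refT
    refine Real.measurable_log.comp (Measurable.add ?_ ?_)
    · exact Finset.measurable_sum _ fun i _ => Real.measurable_exp.comp (hl i)
    · exact Real.measurable_exp.comp (hle.const_mul _)
  have hpL : ∀ i, Measurable fun z => pL T.μ (fun i => f' i z) (e' z) i := by
    intro i
    unfold pL
    exact (measurable_const.add href).sub (hl i)
  have hsp : ∀ i, Measurable fun z => |spr T.μ T.q T.i₀ (fun i => f' i z) (e' z) i| := by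
    intro i
    unfold spr
    exact (((hpL i).div (hpL T.i₀)).sub measurable_const).abs
  have heq : T.E r1 δ = K ∩ ((⋂ i, {z | |spr T.μ T.q T.i₀ (fun i => f' i z) (e' z) i| ≤ δ}) ∩
      ({z | ‖z‖ < r1 / 2} ∩ ⋂ i, {z | |spr T.μ T.q T.i₀ (fun i => f' i z) (e' z) i| < δ / 2})ᶜ) := by
    ext z
    by_cases hz : z ∈ K
    · have e1 : ∀ i, f' i z = T.f i z := fun i => Set.piecewise_eq_of_mem _ _ _ hz
      have e2 : e' z = T.e z := Set.piecewise_eq_of_mem _ _ _ hz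
      have hz' : ‖z‖ ≤ r1 := by simpa [hKdef] using hz
      simp only [TropData.E, TropData.sp, Set.mem_ofPred_eq, Set.mem_inter_iff, Set.mem_iInter,
        Set.mem_compl_iff, e1, e2, hz, hz', true_and]
    · have hz' : ¬ ‖z‖ ≤ r1 := by simpa [hKdef] using hz
      simp only [TropData.E, Set.mem_ofPred_eq, Set.mem_inter_iff, hz, hz', false_and]
  rw [heq]
  refine hK.inter ((MeasurableSet.iInter fun i => measurableSet_le (hsp i) measurable_const).inter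
    (MeasurableSet.compl ((measurableSet_lt measurable_norm measurable_const).inter
      (MeasurableSet.iInter fun i => measurableSet_lt (hsp i) measurable_const))))

theorem trop_D0_meas (hT : T.Ok) : MeasurableSet T.D0 := (trop_isOpen_D0 hT).measurableSet

theorem tropC_dAb_g (hT : T.Ok) (r1 δ : ℝ) {z : Cn n} (hz : z ∈ T.D0) (a : Cn n) :
    dAb (T.g r1 δ) z a
      = dAb (fun y => (chiP (fun _ => r1) y : ℂ)) z a
          * (chiT T.μ T.q T.i₀ δ (fun i => T.f i z) (T.e z) : ℂ)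
        + (chiP (fun _ => r1) z : ℂ)
          * dAb (fun y => (chiT T.μ T.q T.i₀ δ (fun i => T.f i y) (T.e y) : ℂ)) z a := by
  obtain ⟨h1, h2, h3, h4⟩ := trop_holAt hT hz
  have e : T.g r1 δ = fun y => (chiP (fun _ => r1) y : ℂ)
      * (chiT T.μ T.q T.i₀ δ (fun i => T.f i y) (T.e y) : ℂ) := by
    funext y
    unfold TropData.g
    rw [Complex.ofReal_mul]
  rw [e]
  exact dAb_mul
    (cutoff_differentiableAt_ofReal ((contDiff_chiP _).differentiable (by simp) z))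
    (cutoff_differentiableAt_ofReal
      ((contDiffAt_chiT T.μ T.q T.i₀ δ h1 h2 h3 h4).differentiableAt (by simp)))

/-- **the `∂̄`-inequality** -/
theorem trop_dbar (hT : T.Ok) {r1 δ : ℝ} (hr1 : 0 < r1) (hr10 : r1 < T.r0) (hδ : 0 < δ) :
    ∃ CB : ℝ, 0 ≤ CB ∧ ∀ z ∈ T.D0, ∀ a : Cn n,
      ‖dAb (T.g r1 δ) z a‖ ^ 2 ≤ (T.E r1 δ).indicator (fun _ => CB) z * levi T.φ z a := by
  classical
  obtain ⟨C1, hC1, hP⟩ := exists_dAb_chiP_le (n := n) (fun _ => r1) (fun _ => hr1)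
  obtain ⟨C2, hC2, hTt⟩ := exists_dAb_chiT_le (n := n) T.μ T.q T.i₀ hδ hT.q_nonneg hT.q_pos
  set M : ℝ := (1 + ∑ _j : Fin n, (2 * T.r0) ^ 2) ^ 2 with hM
  have hM0 : 0 < M := by positivity
  have hε := hT.ε_pos
  have hc := hT.c_pos
  have hr0 := hT.r0_pos
  refine ⟨2 * C1 * M / T.c + 2 * C2 / T.ε, by positivity, fun z hz a => ?_⟩
  obtain ⟨h1, h2, h3, h4⟩ := trop_holAt hT hz
  rw [tropC_dAb_g hT r1 δ hz a]
  by_cases hE : z ∈ T.E r1 δ
  · rw [Set.indicator_of_mem hE]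
    have hlev := levi_wtT_zetaOf_ge (C := (T.r0 : ℂ)) T.μ T.b T.q T.ν T.η T.ε T.c ⟨T.i₀, hT.q_pos⟩
      hT.η_pos.le hε.le hc.le h1 h2 h3 h4 a
    have hφ : levi (fun y => wtT T.μ T.b T.q T.ν T.η T.ε T.c (fun i => T.f i y)
        (zetaOf (T.r0 : ℂ) T.e y)) z a = levi T.φ z a := rfl
    rw [hφ] at hlev
    set S : ℝ := ∑ i, ‖dAr (fun y => pL T.μ (fun i => T.f i y) (T.e y) i) z a‖ ^ 2
      / (pL T.μ (fun i => T.f i z) (T.e z) i) ^ 2 with hS
    set A : ℝ := ∑ j, ‖a j‖ ^ 2 with hA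
    set M' : ℝ := (1 + ∑ j, ‖z j + (T.r0 : ℂ)‖ ^ 2) ^ 2 with hM'
    have hS0 : 0 ≤ S := Finset.sum_nonneg fun i _ => by positivity
    have hA0 : 0 ≤ A := Finset.sum_nonneg fun i _ => by positivity
    have hM'0 : 0 < M' := by positivity
    have hMM : M' ≤ M := by
      refine pow_le_pow_left₀ (by positivity) ?_ 2
      refine add_le_add le_rfl (Finset.sum_le_sum fun j _ => ?_)
      refine pow_le_pow_left₀ (norm_nonneg _) ?_ 2
      have hz1 : ‖z‖ < T.r0 := by simpa using hz.1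
      have hz2 := norm_le_pi_norm z j
      have hz3 := norm_add_le (z j) (T.r0 : ℂ)
      rw [Complex.norm_real, Real.norm_eq_abs, abs_of_pos hr0] at hz3
      linarith
    have hx := hP z a
    have hy := hTt z T.f T.e h1 h2 h3 h4 a
    set X := dAb (fun y => (chiP (fun _ => r1) y : ℂ)) z a with hX
    set Y := dAb (fun y => (chiT T.μ T.q T.i₀ δ (fun i => T.f i y) (T.e y) : ℂ)) z a with hY
    have hn : ‖X * (chiT T.μ T.q T.i₀ δ (fun i => T.f i z) (T.e z) : ℂ)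
        + (chiP (fun _ => r1) z : ℂ) * Y‖ ≤ ‖X‖ + ‖Y‖ := by
      refine (norm_add_le _ _).trans (add_le_add ?_ ?_)
      · rw [norm_mul, Complex.norm_real, Real.norm_eq_abs, abs_of_nonneg (chiT_nonneg _ _ _ _ _ _)]
        exact mul_le_of_le_one_right (norm_nonneg _) (chiT_le_one _ _ _ _ _ _)
      · rw [norm_mul, Complex.norm_real, Real.norm_eq_abs, abs_of_nonneg (chiP_nonneg _ _)]
        exact mul_le_of_le_one_left (norm_nonneg _) (chiP_le_one _ _)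
    have hsq : ‖X * (chiT T.μ T.q T.i₀ δ (fun i => T.f i z) (T.e z) : ℂ)
        + (chiP (fun _ => r1) z : ℂ) * Y‖ ^ 2 ≤ 2 * ‖X‖ ^ 2 + 2 * ‖Y‖ ^ 2 := by
      have := pow_le_pow_left₀ (norm_nonneg _) hn 2
      nlinarith [sq_nonneg (‖X‖ - ‖Y‖)]
    -- the two comparisons with the Levi form
    have hAM : 0 ≤ A / M' := div_nonneg hA0 hM'0.le
    have l1 : T.ε * S ≤ levi T.φ z a := by
      have := mul_nonneg hc.le hAM
      linarith
    have l2 : T.c * (A / M') ≤ levi T.φ z a := by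
      have := mul_nonneg hε.le hS0
      linarith
    have l3 : A ≤ M * (A / M') := by
      have : A = M' * (A / M') := by field_simp
      calc A = M' * (A / M') := this
        _ ≤ M * (A / M') := mul_le_mul_of_nonneg_right hMM hAM
    have l4 : 2 * C1 * A ≤ 2 * C1 * M / T.c * levi T.φ z a := by
      calc 2 * C1 * A ≤ 2 * C1 * (M * (A / M')) := mul_le_mul_of_nonneg_left l3 (by positivity)
        _ = 2 * C1 * M / T.c * (T.c * (A / M')) := by field_simp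
        _ ≤ 2 * C1 * M / T.c * levi T.φ z a := mul_le_mul_of_nonneg_left l2 (by positivity)
    have l5 : 2 * C2 * S ≤ 2 * C2 / T.ε * levi T.φ z a := by
      calc 2 * C2 * S = 2 * C2 / T.ε * (T.ε * S) := by field_simp
        _ ≤ 2 * C2 / T.ε * levi T.φ z a := mul_le_mul_of_nonneg_left l1 (by positivity)
    calc _ ≤ 2 * ‖X‖ ^ 2 + 2 * ‖Y‖ ^ 2 := hsq
      _ ≤ 2 * (C1 * A) + 2 * (C2 * S) := by linarith
      _ ≤ (2 * C1 * M / T.c + 2 * C2 / T.ε) * levi T.φ z a := by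
          rw [add_mul]
          linarith
  · rw [Set.indicator_of_notMem hE, zero_mul]
    have h0 : dAb (fun y => (chiP (fun _ => r1) y : ℂ)) z a
          * (chiT T.μ T.q T.i₀ δ (fun i => T.f i z) (T.e z) : ℂ)
        + (chiP (fun _ => r1) z : ℂ)
          * dAb (fun y => (chiT T.μ T.q T.i₀ δ (fun i => T.f i y) (T.e y) : ℂ)) z a = 0 := by
      by_cases c1 : ‖z‖ ≤ r1
      · by_cases c2 : ∀ i, |T.sp z i| ≤ δ
        · have c3 : ‖z‖ < r1 / 2 ∧ ∀ i, |T.sp z i| < δ / 2 := by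
            by_contra hc3
            exact hE ⟨c1, c2, hc3⟩
          rw [dAb_chiP_eq_zero (fun _ => r1) (fun _ => hr1)
              (Or.inl fun j => lt_of_le_of_lt (norm_le_pi_norm z j) c3.1) a,
            dAb_chiT_eq_zero T.μ T.q T.i₀ hδ h1 h2 h3 h4 (Or.inl c3.2) a, zero_mul, mul_zero,
            add_zero]
        · push Not at c2
          obtain ⟨i, hi⟩ := c2
          rw [dAb_chiT_eq_zero T.μ T.q T.i₀ hδ h1 h2 h3 h4 (Or.inr ⟨i, hi⟩) a,
            chiT_eq_zero T.μ T.q T.i₀ hδ _ _ ⟨i, hi.le⟩, Complex.ofReal_zero, mul_zero, mul_zero,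
            add_zero]
      · have hj : ∃ j, r1 < ‖z j‖ := by
          by_contra hc
          push Not at hc
          exact c1 ((pi_norm_le_iff_of_nonneg hr1.le).2 hc)
        obtain ⟨j, hj⟩ := hj
        rw [dAb_chiP_eq_zero (fun _ => r1) (fun _ => hr1) (Or.inr ⟨j, hj⟩) a,
          chiP_eq_zero (fun _ => r1) (fun _ => hr1) ⟨j, hj.le⟩, Complex.ofReal_zero, zero_mul,
          zero_mul, add_zero]
    rw [h0]
    simp

end three

/-! ### 4. the key estimate on a leaf -/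

section four

/-- the truncated logarithmic coordinates: `- 2 log ‖y_j‖` if `‖y_j‖ < s`, `0` otherwise. -/
noncomputable def truncW (s : ℝ) (y : Cn n) (j : Fin n) : ℝ :=
  if ‖y j‖ < s then - 2 * Real.log ‖y j‖ else 0

theorem truncW_nonneg {s : ℝ} (hs : s ≤ 1) (y : Cn n) (j : Fin n) : 0 ≤ truncW s y j := by
  unfold truncW
  split_ifs with h
  · have h1 : Real.log ‖y j‖ ≤ 0 := Real.log_nonpos (norm_nonneg _) (by linarith)
    linarith
  · exact le_rfl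

theorem wsupp_truncW {s : ℝ} (hs : s ≤ 1) {y : Cn n} (hy : ∀ j, y j ≠ 0) :
    wsupp (truncW s y) = Finset.univ.filter fun j => ‖y j‖ < s := by
  unfold wsupp
  ext j
  simp only [Finset.mem_filter, Finset.mem_univ, true_and]
  unfold truncW
  constructor
  · intro h
    by_contra hc
    exact h (if_neg hc)
  · intro h
    rw [if_pos h]
    have h0 : 0 < ‖y j‖ := norm_pos_iff.2 (hy j)
    have h1 : Real.log ‖y j‖ < 0 := Real.log_neg h0 (by linarith)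
    have h2 : 0 < -2 * Real.log ‖y j‖ := by linarith
    exact h2.ne'

/-- `|truncW s y j - (- 2 log ‖y_j‖)| ≤ C` on a bounded set -/
theorem truncW_sub_le {s R : ℝ} (hs : 0 < s) (hR : 0 < R) :
    ∃ C : ℝ, 0 ≤ C ∧ ∀ y : Cn n, ‖y‖ ≤ R → (∀ j, y j ≠ 0) → ∀ j,
      |truncW s y j - (- 2 * Real.log ‖y j‖)| ≤ C := by
  refine ⟨2 * (|Real.log s| + |Real.log R|), by positivity, fun y hyR hy j => ?_⟩
  unfold truncW
  split_ifs with h
  · rw [sub_self, abs_zero]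
    positivity
  · have h0 : 0 < ‖y j‖ := norm_pos_iff.2 (hy j)
    have h1 : Real.log s ≤ Real.log ‖y j‖ := Real.log_le_log hs (not_lt.1 h)
    have h2 : Real.log ‖y j‖ ≤ Real.log R :=
      Real.log_le_log h0 ((norm_le_pi_norm y j).trans hyR)
    have h3 := neg_abs_le (Real.log s)
    have h4 := le_abs_self (Real.log R)
    have h5 := abs_nonneg (Real.log s)
    have h6 := abs_nonneg (Real.log R)
    rw [abs_le]
    constructor <;> linarith

variable {T : TropData n N}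

/-- on the compact part of a leaf, over `closedBall 0 r1`: profile, orders and Jacobian in terms of `u = truncW s y`.
(From `leaf_log`, `trop_P_sub`, `truncW_sub_le`; `ow`, `disc` are linear.) -/
theorem trop_profile (hT : T.Ok) (l : Fin T.nl) {r1 s : ℝ} (hr10 : r1 < T.r0) (hs : 0 < s) :
    ∃ C₀ : ℝ, 0 ≤ C₀ ∧ ∀ y ∈ closedBall (0 : Cn n) ((T.lf l).ρ / 2), (∀ j, y j ≠ 0) →
      ‖(T.lf l).σ y‖ ≤ r1 →
      (∀ i, |T.P ((T.lf l).σ y) i - ow (T.lf l).o (truncW s y) i| ≤ C₀) ∧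
      (∀ i, |(- lgs (T.f i ((T.lf l).σ y))) - ow (T.lf l).o (truncW s y) i| ≤ C₀) ∧
      ‖cjac (T.lf l).σ y‖ ^ 2 ≤ C₀ * Real.exp (∑ j, truncW s y j - disc (T.lf l).k (truncW s y)) := by
  obtain ⟨C1, hC1, h1⟩ := leaf_log (T.lf l) (hT.good l)
  obtain ⟨A, hA, h2⟩ := trop_P_sub hT hr10
  have hρ : 0 < (T.lf l).ρ / 2 := by
    have := (hT.good l).ρ_pos
    linarith
  obtain ⟨C2, hC2, h3⟩ := truncW_sub_le (n := n) hs hρ
  obtain ⟨O, hO⟩ : ∃ O : ℝ, O = ∑ i, ∑ j, ((T.lf l).o j i : ℝ) := ⟨_, rfl⟩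
  obtain ⟨Kk, hKk⟩ : ∃ Kk : ℝ, Kk = ∑ j, ((T.lf l).k j : ℝ) := ⟨_, rfl⟩
  have hO0 : 0 ≤ O := by
    rw [hO]
    positivity
  have hK0 : 0 ≤ Kk := by
    rw [hKk]
    positivity
  refine ⟨A + C1 + C2 * O + C1 * Real.exp (C2 * Kk), by positivity, fun y hy hy0 hσ => ?_⟩
  obtain ⟨ha, hb, -⟩ := h1 y hy hy0
  have hyn : ‖y‖ ≤ (T.lf l).ρ / 2 := by simpa using hy
  have h3' := h3 y hyn hy0
  have hE : 0 ≤ C1 * Real.exp (C2 * Kk) := by positivity
  -- the comparison of the linear forms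
  have key : ∀ i, |2 * ∑ j, ((T.lf l).o j i : ℝ) * (- Real.log ‖y j‖)
      - ow (T.lf l).o (truncW s y) i| ≤ C2 * O := by
    intro i
    have e1 : 2 * ∑ j, ((T.lf l).o j i : ℝ) * (- Real.log ‖y j‖) - ow (T.lf l).o (truncW s y) i
        = ∑ j, (-(truncW s y j - (- 2 * Real.log ‖y j‖))) * ((T.lf l).o j i : ℝ) := by
      unfold ow
      rw [Finset.mul_sum, ← Finset.sum_sub_distrib]
      exact Finset.sum_congr rfl fun j _ => by ring
    rw [e1]
    calc |∑ j, (-(truncW s y j - (- 2 * Real.log ‖y j‖))) * ((T.lf l).o j i : ℝ)|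
        ≤ ∑ j, |(-(truncW s y j - (- 2 * Real.log ‖y j‖))) * ((T.lf l).o j i : ℝ)| :=
          Finset.abs_sum_le_sum_abs _ _
      _ ≤ ∑ j, C2 * ((T.lf l).o j i : ℝ) := by
          refine Finset.sum_le_sum fun j _ => ?_
          rw [abs_mul, abs_neg, abs_of_nonneg (Nat.cast_nonneg ((T.lf l).o j i) : (0:ℝ) ≤ _)]
          exact mul_le_mul_of_nonneg_right (h3' j) (Nat.cast_nonneg _)
      _ = C2 * ∑ j, ((T.lf l).o j i : ℝ) := by rw [Finset.mul_sum]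
      _ ≤ C2 * O := by
          refine mul_le_mul_of_nonneg_left ?_ hC2
          rw [hO]
          exact Finset.single_le_sum (f := fun i => ∑ j, ((T.lf l).o j i : ℝ))
            (fun i _ => by positivity) (Finset.mem_univ i)
  have hsec : ∀ i, |(- lgs (T.f i ((T.lf l).σ y))) - ow (T.lf l).o (truncW s y) i| ≤ C1 + C2 * O := by
    intro i
    have e2 : (- lgs (T.f i ((T.lf l).σ y))) - ow (T.lf l).o (truncW s y) i
        = ((- lgs (T.f i ((T.lf l).σ y))) - 2 * ∑ j, ((T.lf l).o j i : ℝ) * (- Real.log ‖y j‖))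
          + (2 * ∑ j, ((T.lf l).o j i : ℝ) * (- Real.log ‖y j‖)
            - ow (T.lf l).o (truncW s y) i) := by ring
    rw [e2]
    exact (abs_add_le _ _).trans (add_le_add (ha i) (key i))
  refine ⟨fun i => ?_, fun i => ?_, ?_⟩
  · have e3 : T.P ((T.lf l).σ y) i - ow (T.lf l).o (truncW s y) i
        = (T.P ((T.lf l).σ y) i - (- lgs (T.f i ((T.lf l).σ y))))
          + ((- lgs (T.f i ((T.lf l).σ y))) - ow (T.lf l).o (truncW s y) i) := by ring
    rw [e3]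
    have h4 := h2 ((T.lf l).σ y) (by simpa using hσ) i
    have h5 := (abs_add_le (T.P ((T.lf l).σ y) i - (- lgs (T.f i ((T.lf l).σ y))))
      ((- lgs (T.f i ((T.lf l).σ y))) - ow (T.lf l).o (truncW s y) i)).trans
      (add_le_add h4 (hsec i))
    linarith
  · have h5 := hsec i
    linarith
  · have e4 : - 2 * ∑ j, ((T.lf l).k j : ℝ) * (- Real.log ‖y j‖)
        ≤ C2 * Kk + (∑ j, truncW s y j - disc (T.lf l).k (truncW s y)) := by
      have e5 : - 2 * ∑ j, ((T.lf l).k j : ℝ) * (- Real.log ‖y j‖)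
          - (∑ j, truncW s y j - disc (T.lf l).k (truncW s y))
          = ∑ j, (truncW s y j - (- 2 * Real.log ‖y j‖)) * ((T.lf l).k j : ℝ) := by
        unfold disc
        rw [Finset.mul_sum, ← Finset.sum_sub_distrib, ← Finset.sum_sub_distrib]
        exact Finset.sum_congr rfl fun j _ => by ring
      have e6 : ∑ j, (truncW s y j - (- 2 * Real.log ‖y j‖)) * ((T.lf l).k j : ℝ) ≤ C2 * Kk := by
        rw [hKk, Finset.mul_sum]
        refine Finset.sum_le_sum fun j _ => ?_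
        exact mul_le_mul_of_nonneg_right ((le_abs_self _).trans (h3' j)) (Nat.cast_nonneg _)
      linarith
    calc ‖cjac (T.lf l).σ y‖ ^ 2
        ≤ C1 * Real.exp (- 2 * ∑ j, ((T.lf l).k j : ℝ) * (- Real.log ‖y j‖)) := hb
      _ ≤ C1 * Real.exp (C2 * Kk + (∑ j, truncW s y j - disc (T.lf l).k (truncW s y))) :=
          mul_le_mul_of_nonneg_left (Real.exp_le_exp.2 e4) hC1.le
      _ = C1 * Real.exp (C2 * Kk)
            * Real.exp (∑ j, truncW s y j - disc (T.lf l).k (truncW s y)) := by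
          rw [Real.exp_add, mul_assoc]
      _ ≤ (A + C1 + C2 * O + C1 * Real.exp (C2 * Kk))
            * Real.exp (∑ j, truncW s y j - disc (T.lf l).k (truncW s y)) := by
          refine mul_le_mul_of_nonneg_right ?_ (Real.exp_pos _).le
          have : 0 ≤ C2 * O := by positivity
          linarith

theorem tropE_log_le {a x : ℝ} (ha : 0 < a) (hx : 0 < x) : Real.log x ≤ a * x - 1 - Real.log a := by
  have := Real.log_le_sub_one_of_pos (mul_pos ha hx)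
  rw [Real.log_mul ha.ne' hx.ne'] at this
  linarith

theorem tropE_ow_nonneg (o : Fin n → Fin N → ℕ) {u : Fin n → ℝ} (hu : ∀ j, 0 ≤ u j) (i : Fin N) :
    0 ≤ ow o u i :=
  Finset.sum_nonneg fun j _ => mul_nonneg (hu j) (Nat.cast_nonneg _)

theorem tropE_ow_le (o : Fin n → Fin N → ℕ) {u : Fin n → ℝ} (hu : ∀ j, 0 ≤ u j) (i : Fin N) :
    ow o u i ≤ (∑ j, ∑ i', (o j i' : ℝ)) * ∑ j, u j := by
  unfold ow
  rw [Finset.mul_sum]
  refine Finset.sum_le_sum fun j _ => ?_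
  rw [mul_comm]
  refine mul_le_mul_of_nonneg_right ?_ (hu j)
  calc (o j i : ℝ) ≤ ∑ i', (o j i' : ℝ) :=
        Finset.single_le_sum (f := fun i' => (o j i' : ℝ)) (fun _ _ => Nat.cast_nonneg _)
          (Finset.mem_univ i)
    _ ≤ ∑ j, ∑ i', (o j i' : ℝ) :=
        Finset.single_le_sum (f := fun j => ∑ i', (o j i' : ℝ))
          (fun _ _ => Finset.sum_nonneg fun _ _ => Nat.cast_nonneg _) (Finset.mem_univ j)

theorem tropE_sum_le_disc (k : Fin n → ℕ) {u : Fin n → ℝ} (hu : ∀ j, 0 ≤ u j) :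
    ∑ j, u j ≤ disc k u := by
  unfold disc
  refine Finset.sum_le_sum fun j _ => ?_
  nlinarith [hu j, (Nat.cast_nonneg (k j) : (0 : ℝ) ≤ k j)]

theorem tropE_lamI_le (b q : Fin N → ℝ) {η C₀ : ℝ} (hη0 : 0 ≤ η) (hη1 : η ≤ 1) (hb : ∀ i, 0 ≤ b i)
    (i : Fin N) (hq : 0 < q i) {l l' : Fin N → ℝ} (h : ∀ i', |l i' - l' i'| ≤ C₀) :
    lamI b q η i l ≤ lamI b q η i l' + ((1 - η) * ∑ i', b i' + η / q i) * C₀ := by
  unfold lamI
  have h1 : ∑ i', b i' * l i' ≤ ∑ i', b i' * l' i' + (∑ i', b i') * C₀ := by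
    rw [Finset.sum_mul, ← Finset.sum_add_distrib]
    refine Finset.sum_le_sum fun i' _ => ?_
    have := (abs_le.1 (h i')).2
    nlinarith [hb i']
  have h2 : l i / q i ≤ l' i / q i + C₀ / q i := by
    rw [← add_div]
    exact div_le_div_of_nonneg_right (by linarith [(abs_le.1 (h i)).2]) hq.le
  have h3 := mul_le_mul_of_nonneg_left h1 (sub_nonneg.2 hη1)
  have h4 := mul_le_mul_of_nonneg_left h2 hη0
  have h5 : η / q i * C₀ = η * (C₀ / q i) := by ring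
  calc (1 - η) * ∑ i', b i' * l i' + η * (l i / q i)
      ≤ (1 - η) * (∑ i', b i' * l' i' + (∑ i', b i') * C₀) + η * (l' i / q i + C₀ / q i) :=
        add_le_add h3 h4
    _ = _ := by rw [add_mul, h5]; ring

/-- `lamI` of a bounded nonnegative profile -/
theorem tropE_lamI_le_of_le (b q : Fin N → ℝ) {η X : ℝ} (hη0 : 0 ≤ η) (hη1 : η ≤ 1)
    (hb : ∀ i, 0 ≤ b i) (i : Fin N) (hq : 0 < q i) {l : Fin N → ℝ} (h : ∀ i', l i' ≤ X) :
    lamI b q η i l ≤ ((1 - η) * ∑ i', b i' + η / q i) * X := by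
  unfold lamI
  have h1 : ∑ i', b i' * l i' ≤ (∑ i', b i') * X := by
    rw [Finset.sum_mul]
    exact Finset.sum_le_sum fun i' _ => mul_le_mul_of_nonneg_left (h i') (hb i')
  have h2 : l i / q i ≤ X / q i := div_le_div_of_nonneg_right (h i) hq.le
  have h3 := mul_le_mul_of_nonneg_left h1 (sub_nonneg.2 hη1)
  have h4 := mul_le_mul_of_nonneg_left h2 hη0
  have h5 : η / q i * X = η * (X / q i) := by ring
  calc (1 - η) * ∑ i', b i' * l i' + η * (l i / q i)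
      ≤ (1 - η) * ((∑ i', b i') * X) + η * (X / q i) := add_le_add h3 h4
    _ = _ := by rw [add_mul, h5]; ring

theorem tropE_exp_le_rpow {s R κ : ℝ} (hR : 0 < R) (hκ1 : κ < 1) (y : Cn n) (j : Fin n)
    (hy : y j ≠ 0) (hyR : ‖y j‖ ≤ R) :
    Real.exp ((1 - κ) * truncW s y j) ≤ max 1 (R ^ (2 * (1 - κ))) * ‖y j‖ ^ (2 * (κ - 1)) := by
  have hpos : 0 < ‖y j‖ := norm_pos_iff.2 hy
  unfold truncW
  split_ifs with h
  · have h1 : Real.exp ((1 - κ) * (-2 * Real.log ‖y j‖)) = ‖y j‖ ^ (2 * (κ - 1)) := by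
      rw [Real.rpow_def_of_pos hpos]
      congr 1
      ring
    rw [h1]
    exact le_mul_of_one_le_left (Real.rpow_nonneg hpos.le _) (le_max_left _ _)
  · rw [mul_zero, Real.exp_zero]
    have h1 : R ^ (2 * (κ - 1)) ≤ ‖y j‖ ^ (2 * (κ - 1)) :=
      Real.rpow_le_rpow_of_nonpos hpos hyR (by linarith)
    have h2 : R ^ (2 * (1 - κ)) * R ^ (2 * (κ - 1)) = 1 := by
      rw [← Real.rpow_add hR]
      have : 2 * (1 - κ) + 2 * (κ - 1) = 0 := by ring
      rw [this, Real.rpow_zero]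
    calc (1 : ℝ) = R ^ (2 * (1 - κ)) * R ^ (2 * (κ - 1)) := h2.symm
      _ ≤ max 1 (R ^ (2 * (1 - κ))) * ‖y j‖ ^ (2 * (κ - 1)) :=
        mul_le_mul (le_max_right _ _) h1 (Real.rpow_nonneg hR.le _)
          (le_trans zero_le_one (le_max_left _ _))

/-- upper bound of `- φ` from `neg_wtT_le` and the bounded terms -/
theorem tropE_neg_phi_le {T : TropData n N} (hT : T.Ok) {z : Cn n} {A C₀ : ℝ}
    (hA : |refT T.μ (fun i => T.f i z) (T.e z)| ≤ A ∧ |lgs (T.e z)| ≤ A ∧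
      |lsq (zetaOf (T.r0 : ℂ) T.e z)| ≤ A)
    {l' : Fin N → ℝ} (hl : ∀ i', |(- lgs (T.f i' z)) - l' i'| ≤ C₀) (i : Fin N) (hi : 0 < T.q i) :
    - T.φ z ≤ lamI T.b T.q T.η i l' + T.ε * ∑ i', Real.log (T.P z i')
      + ((1 - T.η) * ∑ i', T.b i' + T.η / T.q i) * C₀ + (T.η * |T.ν i| + T.ε * N + T.c) * A := by
  have h1 := neg_wtT_le T.μ T.b T.q T.ν T.η T.ε T.c hT.η_pos.le (fun i => T.f i z)
    (zetaOf (T.r0 : ℂ) T.e z) i hi
  have h2 := tropE_lamI_le T.b T.q hT.η_pos.le hT.η_lt.le (fun i => (hT.b_pos i).le) i hi hl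
  have h0 : zetaOf (T.r0 : ℂ) T.e z 0 = T.e z := rfl
  rw [h0, Fintype.card_fin] at h1
  obtain ⟨hA1, hA2, hA3⟩ := hA
  have h3 : - (T.η * (T.ν i * lgs (T.e z))) ≤ T.η * |T.ν i| * A := by
    have e1 : |T.ν i * lgs (T.e z)| ≤ |T.ν i| * A := by
      rw [abs_mul]
      exact mul_le_mul_of_nonneg_left hA2 (abs_nonneg _)
    have e2 : -(T.ν i * lgs (T.e z)) ≤ |T.ν i| * A := (neg_le_abs _).trans e1
    have e3 := mul_le_mul_of_nonneg_left e2 hT.η_pos.le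
    linarith
  have h4 : - (T.ε * ((N : ℝ) * refT T.μ (fun i => T.f i z) (T.e z))) ≤ T.ε * N * A := by
    have e2 : - refT T.μ (fun i => T.f i z) (T.e z) ≤ A := (neg_le_abs _).trans hA1
    have e3 := mul_le_mul_of_nonneg_left e2
      (mul_nonneg hT.ε_pos.le (Nat.cast_nonneg N) : (0 : ℝ) ≤ T.ε * N)
    linarith
  have h5 : - (T.c * lsq (zetaOf (T.r0 : ℂ) T.e z)) ≤ T.c * A := by
    have e2 : - lsq (zetaOf (T.r0 : ℂ) T.e z) ≤ A := (neg_le_abs _).trans hA3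
    have e3 := mul_le_mul_of_nonneg_left e2 hT.c_pos.le
    linarith
  have h6 : T.φ z = wtT T.μ T.b T.q T.ν T.η T.ε T.c (fun i => T.f i z) (zetaOf (T.r0 : ℂ) T.e z) := rfl
  have h7 : ∀ i', T.P z i' = pL T.μ (fun i => T.f i z) (T.e z) i' := fun _ => rfl
  simp only [h6, h7]
  linarith

/-- **the key estimate.**  `hadm` comes from `leaf_adm` (with `r1 < c₁`).
PLAN.  Fix `y` as in the statement, `z = σ y ∈ E`, `u = truncW s y` (`≥ 0`, `wsupp u` admissible by `hadm` and `wsupp_truncW`), `p = T.P z` (`p i₀ ≥ 1`: `one_le_pL`),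
`S = ∑_j u_j`.  Constants: `C₀` from `trop_profile`; `κ₀, c, M` from `cone_gap` (for `k, o` of the leaf, `Adm`, `Ctr` of the leaf, `adm_mono`, `hT.cone l`, this `C₀`);
`s₂` from `leaf_ctr` with `r = r1/2`; `A` from `trop_bounds`; `M' = max M (max 1 ((- 2 log (min s₂ s) + 1) / c))`.
 (a) `S < M'`: all `|ow o u i| ≤ O M'` (`O` = the largest exponent), so `- lgs (f i z) ≤ C`, `log (p i) ≤ p i ≤ C`, and `neg_wtT_le` (with `i = i₀`) bounds `- φ z`;
     `‖cjac‖² ≤ C₀ exp S ≤ C₀ exp M'`.  The right side is bounded below because `‖y_j‖ ≤ ρ/2` and `κ - 1 < 0`.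
 (b) `S ≥ M'`: `cone_gap` gives two cases.  Second case: `J` contracted with `u_j ≥ c S ≥ - 2 log (min s₂ s) + 1 > 0` for `j ∈ J`, so `u_j = - 2 log ‖y_j‖` and `‖y_j‖ < s₂`; then `‖z‖ < r1/2` (`leaf_ctr`)
     and all `|sp z i| < δ/2`: contradiction with `z ∈ E`.   First case: `i` with `0 < q i`, `lamI b q η i (ow o u) ≤ disc k u - κ₀ S`.  By `neg_wtT_le`, `trop_bounds`, `trop_profile`
     (`lamI` is linear with coefficients `(1-η) b_i' ≥ 0`, `η / q i`):  `- φ z ≤ disc k u - κ₀ S + ε ∑ log (p i') + C`, `log (p i') ≤ log (C₀ + O S) ≤ κ₀ S / (2 ε N) + C'`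
     (`Real.add_one_le_exp` / `Real.log_le_sub_one_of_pos` after scaling: `log x ≤ a x + log (1/a) ` for `a > 0`).
     So `exp (- φ z) ‖cjac‖² ≤ C'' exp ((1 - κ₀/2) S)`, and `exp ((1 - κ₀/2) u_j) ≤ C ‖y_j‖^(2 (κ₀/2 - 1))` for every `j` (equality if `‖y_j‖ < s`; otherwise `u_j = 0` and `s ≤ ‖y_j‖ ≤ ρ/2`).
 Take `κ = κ₀ / 2`. -/
theorem trop_pointwise (hT : T.Ok) (l : Fin T.nl) {δ r1 s : ℝ} (hδ : 0 < δ)
    (hδθ : 2 * δ * T.q T.i₀ ≤ T.θ) (hr1 : 0 < r1) (hr10 : r1 < T.r0) (hs : 0 < s) (hs1 : s ≤ 1)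
    (hadm : ∀ y ∈ closedBall (0 : Cn n) ((T.lf l).ρ / 2), ‖(T.lf l).σ y‖ ≤ r1 →
      (T.lf l).Adm (Finset.univ.filter fun j => ‖y j‖ < s)) :
    ∃ C κ : ℝ, 0 ≤ C ∧ 0 < κ ∧ ∀ y ∈ closedBall (0 : Cn n) ((T.lf l).ρ / 2), (∀ j, y j ≠ 0) →
      (T.lf l).σ y ∈ T.E r1 δ →
      Real.exp (- T.φ ((T.lf l).σ y)) * ‖cjac (T.lf l).σ y‖ ^ 2 ≤ C * ∏ j, ‖y j‖ ^ (2 * (κ - 1)) := by
  classical
  have hgood := hT.good l
  obtain ⟨C₀, hC₀, hprof⟩ := trop_profile hT l hr10 hs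
  obtain ⟨κ₀, c, hκ₀, hκ₁, hc, hgap⟩ := cone_gap (T.lf l).k (T.lf l).o T.b T.q T.η T.θ δ (T.lf l).Adm
    (T.lf l).Ctr (fun J J' h hJ => adm_mono (T.lf l) J J' h hJ) T.i₀ hT.q_nonneg hT.q_pos hδ hδθ
    (hT.cone l)
  obtain ⟨M, hM⟩ := hgap C₀
  obtain ⟨s₂, hs₂, hctr⟩ := leaf_ctr (T.lf l) hgood (r1 / 2) (by positivity)
  obtain ⟨A, hA0, hA⟩ := trop_bounds hT hr10
  have hρ : 0 < (T.lf l).ρ / 2 := by have := hgood.ρ_pos; positivity
  set O : ℝ := ∑ j, ∑ i', ((T.lf l).o j i' : ℝ) with hO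
  have hO0 : 0 ≤ O := Finset.sum_nonneg fun _ _ => Finset.sum_nonneg fun _ _ => Nat.cast_nonneg _
  set B : ℝ := ∑ i', T.b i' with hB
  have hB0 : 0 ≤ B := Finset.sum_nonneg fun i _ => (hT.b_pos i).le
  set Qi : ℝ := ∑ i', |T.q i'|⁻¹ with hQi
  have hQi0 : 0 ≤ Qi := Finset.sum_nonneg fun i _ => inv_nonneg.2 (abs_nonneg _)
  have hQi1 : ∀ i, 0 < T.q i → T.η / T.q i ≤ T.η * Qi := by
    intro i hi
    rw [div_eq_mul_inv]
    refine mul_le_mul_of_nonneg_left ?_ hT.η_pos.le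
    calc (T.q i)⁻¹ = |T.q i|⁻¹ := by rw [abs_of_pos hi]
      _ ≤ Qi := Finset.single_le_sum (f := fun i' => |T.q i'|⁻¹)
          (fun i _ => inv_nonneg.2 (abs_nonneg _)) (Finset.mem_univ i)
  set Nν : ℝ := ∑ i', |T.ν i'| with hNν
  have hNν1 : ∀ i, |T.ν i| ≤ Nν := fun i =>
    Finset.single_le_sum (f := fun i' => |T.ν i'|) (fun i _ => abs_nonneg _) (Finset.mem_univ i)
  set M' : ℝ := max M (max 1 ((- 2 * Real.log (min s₂ s) + 1) / c)) with hM'
  have hM'1 : 1 ≤ M' := le_trans (le_max_left _ _) (le_max_right _ _)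
  have hεN : 0 ≤ T.ε * N := mul_nonneg hT.ε_pos.le (Nat.cast_nonneg N)
  set a : ℝ := κ₀ / (2 * (T.ε * N * O + 1)) with ha
  have hden : 0 < 2 * (T.ε * N * O + 1) := by have := mul_nonneg hεN hO0; linarith
  have ha0 : 0 < a := div_pos hκ₀ hden
  have haO : T.ε * N * (a * O) ≤ κ₀ / 2 := by
    have e1 : T.ε * N * (a * O) = κ₀ / 2 * ((T.ε * N * O) / (T.ε * N * O + 1)) := by
      rw [ha]
      field_simp
    rw [e1]
    have e2 : (T.ε * N * O) / (T.ε * N * O + 1) ≤ 1 := by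
      rw [div_le_one (by have := mul_nonneg hεN hO0; linarith)]
      linarith
    nlinarith
  have hcoef : 0 ≤ (1 - T.η) * B + T.η * Qi :=
    add_nonneg (mul_nonneg (sub_nonneg.2 hT.η_lt.le) hB0) (mul_nonneg hT.η_pos.le hQi0)
  set K₁ : ℝ := ((1 - T.η) * B + T.η * Qi) * C₀ + (T.η * Nν + T.ε * N + T.c) * A with hK₁
  set K₂ : ℝ := T.ε * N * (a * C₀ - 1 - Real.log a) with hK₂
  set K₄ : ℝ := ((1 - T.η) * B + T.η * Qi) * (O * M') with hK₄
  have hK₄0 : 0 ≤ K₄ := mul_nonneg hcoef (mul_nonneg hO0 (by linarith))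
  set K : ℝ := K₁ + K₂ + K₄ + κ₀ / 2 * M' with hK
  set G : ℝ := max 1 (((T.lf l).ρ / 2) ^ (2 * (1 - κ₀ / 2))) with hG
  have hG0 : 0 ≤ G := le_trans zero_le_one (le_max_left _ _)
  refine ⟨C₀ * Real.exp K * G ^ n, κ₀ / 2, by positivity, by positivity, ?_⟩
  intro y hy hy0 hyE
  obtain ⟨hE1, hE2, hE3⟩ := hyE
  set z : Cn n := (T.lf l).σ y with hz
  set u : Fin n → ℝ := truncW s y with hu
  set S : ℝ := ∑ j, u j with hS
  have hu0 : ∀ j, 0 ≤ u j := fun j => truncW_nonneg hs1 y j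
  have hS0 : 0 ≤ S := Finset.sum_nonneg fun j _ => hu0 j
  obtain ⟨hp1, hp2, hp3⟩ := hprof y hy hy0 hE1
  have hzb : z ∈ closedBall (0 : Cn n) r1 := by rwa [mem_closedBall_zero_iff]
  have hAz := hA z hzb
  have hadm' : (T.lf l).Adm (wsupp u) := by
    rw [hu, wsupp_truncW hs1 hy0]
    exact hadm y hy hE1
  have hP1 : ∀ i, 1 ≤ T.P z i := fun i => one_le_pL _ _ _ i
  have howle : ∀ i, ow (T.lf l).o u i ≤ O * S := fun i => tropE_ow_le _ hu0 i
  -- the logarithmic terms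
  have hlog : T.ε * ∑ i', Real.log (T.P z i') ≤ κ₀ / 2 * S + K₂ := by
    have e1 : ∀ i', Real.log (T.P z i') ≤ a * (C₀ + O * S) - 1 - Real.log a := by
      intro i'
      have e2 := tropE_log_le ha0 (lt_of_lt_of_le one_pos (hP1 i'))
      have e3 : T.P z i' ≤ C₀ + O * S := by
        have := (abs_le.1 (hp1 i')).2
        linarith [howle i']
      have e4 := mul_le_mul_of_nonneg_left e3 ha0.le
      linarith
    have e5 : ∑ i', Real.log (T.P z i') ≤ N * (a * (C₀ + O * S) - 1 - Real.log a) := by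
      calc ∑ i', Real.log (T.P z i') ≤ ∑ _i' : Fin N, (a * (C₀ + O * S) - 1 - Real.log a) :=
            Finset.sum_le_sum fun i' _ => e1 i'
        _ = _ := by rw [Finset.sum_const, Finset.card_univ, Fintype.card_fin, nsmul_eq_mul]
    have e6 := mul_le_mul_of_nonneg_left e5 hT.ε_pos.le
    have e7 := mul_le_mul_of_nonneg_right haO hS0
    calc T.ε * ∑ i', Real.log (T.P z i') ≤ T.ε * (N * (a * (C₀ + O * S) - 1 - Real.log a)) := e6
      _ = T.ε * N * (a * O) * S + K₂ := by rw [hK₂]; ring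
      _ ≤ κ₀ / 2 * S + K₂ := by linarith
  -- the bound of `- φ`, uniform in `i`
  have hφ : ∀ i, 0 < T.q i → - T.φ z ≤ lamI T.b T.q T.η i (ow (T.lf l).o u) + κ₀ / 2 * S + K₂ + K₁ := by
    intro i hi
    have e1 := tropE_neg_phi_le hT hAz hp2 i hi
    have e2 : ((1 - T.η) * ∑ i', T.b i' + T.η / T.q i) * C₀ ≤ ((1 - T.η) * B + T.η * Qi) * C₀ :=
      mul_le_mul_of_nonneg_right (by linarith [hQi1 i hi]) hC₀
    have e3 : (T.η * |T.ν i| + T.ε * N + T.c) * A ≤ (T.η * Nν + T.ε * N + T.c) * A :=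
      mul_le_mul_of_nonneg_right
        (by linarith [mul_le_mul_of_nonneg_left (hNν1 i) hT.η_pos.le]) hA0
    rw [hK₁]
    linarith
  have hdisc : S ≤ disc (T.lf l).k u := tropE_sum_le_disc _ hu0
  -- the main inequality
  have key : - T.φ z + (S - disc (T.lf l).k u) ≤ K + (1 - κ₀ / 2) * S := by
    by_cases hSM : S < M'
    · have e1 := hφ T.i₀ hT.q_pos
      have e2 : lamI T.b T.q T.η T.i₀ (ow (T.lf l).o u) ≤ K₄ := by
        have e3 := tropE_lamI_le_of_le T.b T.q hT.η_pos.le hT.η_lt.le (fun i => (hT.b_pos i).le)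
          T.i₀ hT.q_pos howle
        have e4 : 0 ≤ O * S := mul_nonneg hO0 hS0
        have e5 : ((1 - T.η) * ∑ i', T.b i' + T.η / T.q T.i₀) * (O * S)
            ≤ ((1 - T.η) * B + T.η * Qi) * (O * S) :=
          mul_le_mul_of_nonneg_right (by linarith [hQi1 T.i₀ hT.q_pos]) e4
        have e6 : ((1 - T.η) * B + T.η * Qi) * (O * S) ≤ K₄ :=
          mul_le_mul_of_nonneg_left (mul_le_mul_of_nonneg_left hSM.le hO0) hcoef
        linarith
      have e7 : κ₀ / 2 * S ≤ κ₀ / 2 * M' := mul_le_mul_of_nonneg_left hSM.le (by positivity)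
      have e8 : 0 ≤ (1 - κ₀ / 2) * S := mul_nonneg (by linarith) hS0
      rw [hK]
      linarith
    · rw [not_lt] at hSM
      have hMS : M ≤ S := le_trans (le_max_left _ _) hSM
      rcases hM u (T.P z) hu0 hadm' hp1 (hP1 T.i₀) hE2 hMS with ⟨i, hi, hlam⟩ | ⟨⟨J, hJ, hJu⟩, hsp⟩
      · have e1 := hφ i hi
        have e2 : 0 ≤ κ₀ / 2 * M' := by positivity
        rw [hK]
        linarith
      · exfalso
        apply hE3
        refine ⟨hctr J hJ y hy fun j hj => ?_, hsp⟩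
        have e1 : (- 2 * Real.log (min s₂ s) + 1) / c ≤ S :=
          le_trans (le_trans (le_max_right _ _) (le_max_right _ _)) hSM
        have e2 : - 2 * Real.log (min s₂ s) + 1 ≤ c * S := by
          rw [div_le_iff₀ hc] at e1
          linarith
        have e3 : - 2 * Real.log (min s₂ s) + 1 ≤ u j := e2.trans (hJu j hj)
        have hmin : 0 < min s₂ s := lt_min hs₂ hs
        have e4 : Real.log (min s₂ s) ≤ 0 := Real.log_nonpos hmin.le ((min_le_right _ _).trans hs1)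
        have e5 : 0 < u j := by linarith
        have e6 : u j = - 2 * Real.log ‖y j‖ := by
          have : u j = truncW s y j := rfl
          rw [this] at e5 ⊢
          unfold truncW at e5 ⊢
          split_ifs at e5 ⊢ with h
          · rfl
          · exact absurd e5 (lt_irrefl _)
        have e7 : Real.log ‖y j‖ < Real.log (min s₂ s) := by linarith
        have e8 : ‖y j‖ < min s₂ s :=
          (Real.log_lt_log_iff (norm_pos_iff.2 (hy0 j)) hmin).1 e7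
        exact e8.trans_le (min_le_left _ _)
  -- conclusion
  have hprod : Real.exp ((1 - κ₀ / 2) * S) ≤ G ^ n * ∏ j, ‖y j‖ ^ (2 * (κ₀ / 2 - 1)) := by
    have e1 : Real.exp ((1 - κ₀ / 2) * S) = ∏ j, Real.exp ((1 - κ₀ / 2) * u j) := by
      rw [hS, Finset.mul_sum, Real.exp_sum]
    have e2 : ∏ j, Real.exp ((1 - κ₀ / 2) * u j) ≤ ∏ j, (G * ‖y j‖ ^ (2 * (κ₀ / 2 - 1))) := by
      refine Finset.prod_le_prod (fun j _ => (Real.exp_pos _).le) fun j _ => ?_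
      refine tropE_exp_le_rpow hρ (by linarith) y j (hy0 j) ?_
      exact (norm_le_pi_norm y j).trans (mem_closedBall_zero_iff.1 hy)
    rw [e1]
    refine e2.trans (le_of_eq ?_)
    rw [Finset.prod_mul_distrib, Finset.prod_const, Finset.card_univ, Fintype.card_fin]
  calc Real.exp (- T.φ z) * ‖cjac (T.lf l).σ y‖ ^ 2
      ≤ Real.exp (- T.φ z) * (C₀ * Real.exp (S - disc (T.lf l).k u)) :=
        mul_le_mul_of_nonneg_left hp3 (Real.exp_pos _).le
    _ = C₀ * Real.exp (- T.φ z + (S - disc (T.lf l).k u)) := by rw [Real.exp_add]; ring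
    _ ≤ C₀ * Real.exp (K + (1 - κ₀ / 2) * S) :=
        mul_le_mul_of_nonneg_left (Real.exp_le_exp.2 key) hC₀
    _ = C₀ * Real.exp K * Real.exp ((1 - κ₀ / 2) * S) := by rw [Real.exp_add]; ring
    _ ≤ C₀ * Real.exp K * (G ^ n * ∏ j, ‖y j‖ ^ (2 * (κ₀ / 2 - 1))) :=
        mul_le_mul_of_nonneg_left hprod (by positivity)
    _ = C₀ * Real.exp K * G ^ n * ∏ j, ‖y j‖ ^ (2 * (κ₀ / 2 - 1)) := by ring

end four

/-! ### 5. integrability on `E` -/

section five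

theorem lift_lintegral_prod_rpow (R κ : ℝ) (hR : 0 < R) (hκ : 0 < κ) :
    ∫⁻ y in ball (0 : Cn n) R, ENNReal.ofReal (∏ j, ‖y j‖ ^ (2 * (κ - 1))) < ⊤ := by
  have h := r242_howald_lt_top (N := 1) (n := n) (fun _ _ => 0) (fun _ => κ - 1) 0 le_rfl R hR
    (fun w hw hw0 => by
      refine ⟨0, ?_⟩
      rw [zero_mul]
      obtain ⟨i, hi⟩ : ∃ i, w i ≠ 0 := by
        by_contra hc
        push Not at hc
        exact hw0 (funext hc)
      have hpos : 0 < w i := lt_of_le_of_ne (hw i) (Ne.symm hi)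
      refine Finset.sum_pos' (fun j _ => ?_) ⟨i, Finset.mem_univ i, ?_⟩
      · have := hw j
        have h2 : (0:ℝ) ≤ κ - 1 + 1 := by linarith
        positivity
      · have h2 : (0:ℝ) < κ - 1 + 1 := by linarith
        positivity)
  refine lt_of_le_of_lt (lintegral_mono_ae ?_) h
  refine ae_restrict_of_ae ?_
  filter_upwards [r242_ae_ne_zero (n := n)] with y hy
  unfold r242_howInt
  rw [neg_zero, ENNReal.rpow_zero, mul_one,
    ENNReal.ofReal_prod_of_nonneg fun j _ => Real.rpow_nonneg (norm_nonneg _) _]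
  refine le_of_eq (Finset.prod_congr rfl fun j _ => ?_)
  rw [← ofReal_norm, ENNReal.ofReal_rpow_of_pos (norm_pos_iff.2 (hy j))]

variable {T : TropData n N}

theorem trop_int (hT : T.Ok) {r1 δ : ℝ} (hr10 : r1 < T.r0)
    (hcov : closedBall (0 : Cn n) r1 ⊆ ⋃ l, (T.lf l).σ '' closedBall 0 ((T.lf l).ρ / 2))
    (hpw : ∀ l, ∃ C κ : ℝ, 0 ≤ C ∧ 0 < κ ∧ ∀ y ∈ closedBall (0 : Cn n) ((T.lf l).ρ / 2),
      (∀ j, y j ≠ 0) → (T.lf l).σ y ∈ T.E r1 δ →
      Real.exp (- T.φ ((T.lf l).σ y)) * ‖cjac (T.lf l).σ y‖ ^ 2 ≤ C * ∏ j, ‖y j‖ ^ (2 * (κ - 1))) :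
    ∫⁻ z in T.D0 ∩ T.E r1 δ, ENNReal.ofReal (Real.exp (- T.φ z)) < ⊤ := by
  classical
  obtain ⟨S, hS⟩ : ∃ S : Set (Cn n), S = T.D0 ∩ T.E r1 δ := ⟨_, rfl⟩
  have hSm : MeasurableSet S := by
    rw [hS]
    exact (trop_D0_meas hT).inter (trop_E_meas hT hr10 δ)
  rw [← hS]
  obtain ⟨F, hF⟩ : ∃ F : Cn n → ℝ≥0∞, F = fun z => ENNReal.ofReal (Real.exp (- T.φ z)) := ⟨_, rfl⟩
  have hFz : ∀ z, ENNReal.ofReal (Real.exp (- T.φ z)) = F z := fun z => by rw [hF]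
  simp_rw [hFz]
  -- the pieces
  obtain ⟨K', hK'⟩ : ∃ K' : Fin T.nl → Set (Cn n),
      K' = fun l => closedBall (0 : Cn n) ((T.lf l).ρ / 2) ∩ (T.lf l).σ ⁻¹' S := ⟨_, rfl⟩
  have hsub : ∀ l, closedBall (0 : Cn n) ((T.lf l).ρ / 2) ⊆ ball (0 : Cn n) (T.lf l).ρ := by
    intro l
    refine closedBall_subset_ball ?_
    have := (hT.good l).ρ_pos
    linarith
  have hK'm : ∀ l, MeasurableSet (K' l) := by
    intro l
    have hc : ContinuousOn (T.lf l).σ (closedBall (0 : Cn n) ((T.lf l).ρ / 2)) :=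
      ((hT.good l).hol.continuousOn).mono (hsub l)
    have hm : Measurable ((closedBall (0 : Cn n) ((T.lf l).ρ / 2)).piecewise (T.lf l).σ
        (fun _ => (0 : Cn n))) :=
      hc.measurable_piecewise continuousOn_const isClosed_closedBall.measurableSet
    have e : K' l = closedBall (0 : Cn n) ((T.lf l).ρ / 2)
        ∩ ((closedBall (0 : Cn n) ((T.lf l).ρ / 2)).piecewise (T.lf l).σ
          (fun _ => (0 : Cn n))) ⁻¹' S := by
      rw [hK']
      ext y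
      simp only [Set.mem_inter_iff, Set.mem_preimage]
      constructor
      · rintro ⟨h1, h2⟩
        exact ⟨h1, by rwa [Set.piecewise_eq_of_mem _ _ _ h1]⟩
      · rintro ⟨h1, h2⟩
        exact ⟨h1, by rwa [Set.piecewise_eq_of_mem _ _ _ h1] at h2⟩
    rw [e]
    exact isClosed_closedBall.measurableSet.inter (hm hSm)
  have hScov : S ⊆ ⋃ l ∈ (Finset.univ : Finset (Fin T.nl)), (T.lf l).σ '' K' l := by
    intro z hz
    have hzE : z ∈ T.E r1 δ := by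
      rw [hS] at hz
      exact hz.2
    have hzb : z ∈ closedBall (0 : Cn n) r1 := by
      rw [mem_closedBall_zero_iff]
      exact hzE.1
    obtain ⟨l, y, hy, hyz⟩ := Set.mem_iUnion.1 (hcov hzb)
    refine Set.mem_iUnion₂.2 ⟨l, Finset.mem_univ l, y, ?_, hyz⟩
    rw [hK']
    exact ⟨hy, by
      show (T.lf l).σ y ∈ S
      rw [hyz]
      exact hz⟩
  have hpiece : ∀ l, ∫⁻ z in (T.lf l).σ '' K' l, F z < ⊤ := by
    intro l
    obtain ⟨C, κ, hC, hκ, hb⟩ := hpw l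
    have h1 := r242_lintegral_image_le (ball (0 : Cn n) (T.lf l).ρ) (K' l) isOpen_ball
      (by
        rw [hK']
        exact Set.inter_subset_left.trans (hsub l))
      (hK'm l) (T.lf l).σ (hT.good l).hol Finset.univ (T.lf l).A (hT.good l).A_meas
      (hT.good l).A_inj
      (by
        intro y hy hdet
        have hyb : y ∈ ball (0 : Cn n) (T.lf l).ρ := by
          rw [hK'] at hy
          exact hsub l hy.1
        obtain ⟨a, ha⟩ := (hT.good l).A_cov y hyb hdet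
        exact Set.mem_iUnion₂.2 ⟨a, Finset.mem_univ a, ha⟩) F
    refine lt_of_le_of_lt h1 ?_
    have h2 : ∫⁻ y in K' l, ‖(fderiv ℂ (T.lf l).σ y).det‖ₑ ^ 2 * F ((T.lf l).σ y)
        ≤ ∫⁻ y in K' l, ENNReal.ofReal C * ENNReal.ofReal (∏ j, ‖y j‖ ^ (2 * (κ - 1))) := by
      refine lintegral_mono_ae ?_
      rw [ae_restrict_iff' (hK'm l)]
      filter_upwards [r242_ae_ne_zero (n := n)] with y hy hyK
      rw [hK'] at hyK
      have hyS : (T.lf l).σ y ∈ S := hyK.2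
      rw [hS] at hyS
      have h3 := hb y hyK.1 hy hyS.2
      rw [hF, ← ENNReal.ofReal_mul hC]
      have e1 : ‖(fderiv ℂ (T.lf l).σ y).det‖ₑ ^ 2
          = ENNReal.ofReal (‖cjac (T.lf l).σ y‖ ^ 2) := by
        rw [ENNReal.ofReal_pow (norm_nonneg _), ofReal_norm]
        rfl
      rw [e1, ← ENNReal.ofReal_mul (by positivity)]
      refine ENNReal.ofReal_le_ofReal ?_
      rw [mul_comm]
      exact h3
    refine lt_of_le_of_lt h2 ?_
    rw [lintegral_const_mul' _ _ ENNReal.ofReal_ne_top]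
    refine ENNReal.mul_lt_top ENNReal.ofReal_lt_top ?_
    refine lt_of_le_of_lt (lintegral_mono_set ?_)
      (lift_lintegral_prod_rpow (n := n) (T.lf l).ρ κ (hT.good l).ρ_pos hκ)
    rw [hK']
    exact Set.inter_subset_left.trans (hsub l)
  calc ∫⁻ z in S, F z
      ≤ ∫⁻ z in ⋃ l ∈ (Finset.univ : Finset (Fin T.nl)), (T.lf l).σ '' K' l, F z :=
        lintegral_mono_set hScov
    _ ≤ ∑ l ∈ (Finset.univ : Finset (Fin T.nl)), ∫⁻ z in (T.lf l).σ '' K' l, F z :=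
        r242_lintegral_biUnion_finset_le _ _ _ _
    _ < ⊤ := ENNReal.sum_lt_top.2 fun l _ => hpiece l

/-- choice of `r1`, `δ`: `δ = θ / (2 q i₀)`; `s_l, c_l` from `leaf_adm`; `r1 < min (r0, c_l, radius of the cover)`. -/
theorem trop_choice (hT : T.Ok) : ∃ r1 δ : ℝ, 0 < r1 ∧ r1 < T.r0 ∧ 0 < δ ∧
    ∫⁻ z in T.D0 ∩ T.E r1 δ, ENNReal.ofReal (Real.exp (- T.φ z)) < ⊤ := by
  have hq := hT.q_pos
  have hθ := hT.θ_pos
  obtain ⟨δ, hδdef⟩ : ∃ δ : ℝ, δ = T.θ / (2 * T.q T.i₀) := ⟨_, rfl⟩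
  have hδ : 0 < δ := by
    rw [hδdef]
    positivity
  have hδθ : 2 * δ * T.q T.i₀ ≤ T.θ := by
    rw [hδdef]
    refine le_of_eq ?_
    field_simp
  have hadm0 := fun l => leaf_adm (T.lf l) (hT.good l)
  choose s c hs hs1 hc hadm using hadm0
  obtain ⟨ε, hε, hball⟩ := Metric.mem_nhds_iff.1 hT.cover
  have hev : ∀ᶠ r in 𝓝[>] (0 : ℝ), r < T.r0 ∧ r < ε ∧ ∀ l, r < c l := by
    refine Filter.Eventually.filter_mono nhdsWithin_le_nhds ?_
    refine (eventually_lt_nhds hT.r0_pos).and ((eventually_lt_nhds hε).and ?_)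
    exact Filter.eventually_all.2 fun l => eventually_lt_nhds (hc l)
  obtain ⟨r1, ⟨hr10, hr1ε, hr1c⟩, hr1⟩ := (hev.and self_mem_nhdsWithin).exists
  have hr1 : 0 < r1 := hr1
  refine ⟨r1, δ, hr1, hr10, hδ, trop_int hT hr10 ?_ fun l => ?_⟩
  · exact (closedBall_subset_ball hr1ε).trans hball
  · exact trop_pointwise hT l hδ hδθ hr1 hr10 (hs l) (hs1 l)
      fun y hy hle => hadm l y hy (lt_of_le_of_lt hle (hr1c l))

end five

/-! ### 6. divergence -/

section six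

/-- the tube lemma with a polyradius -/
theorem lift_tube_eq_top (Φ : Cn n → ℝ≥0∞) (R κ : ℝ) (ρ : Fin n → ℝ) (hρ : ∀ i, 0 < ρ i)
    (hρR : ∀ i, ρ i ≤ R) (hκ : 0 < κ) (u : Fin n → ℝ) (hu : ∀ i, 0 ≤ u i) (hu0 : u ≠ 0)
    (h : ∀ (s : ℝ) (z : Cn n), 0 ≤ s →
      (∀ i, ρ i * Real.exp (-(s * u i) - 1) < ‖z i‖ ∧ ‖z i‖ < ρ i * Real.exp (-(s * u i))) →
      ENNReal.ofReal (κ * Real.exp (2 * s * ∑ i, u i)) ≤ Φ z) :
    ∫⁻ z in ball (0 : Cn n) R, Φ z = ⊤ := by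
  obtain ⟨i0, -⟩ : ∃ i, u i ≠ 0 := by
    by_contra hcon
    push Not at hcon
    exact hu0 (funext hcon)
  have hR : 0 < R := lt_of_lt_of_le (hρ i0) (hρR i0)
  set a0 : Fin n → ℝ := fun i => -Real.log (ρ i) with ha0
  let T : Set (Fin n → ℝ) :=
    ⋃ s ∈ Set.Ici (0 : ℝ), Set.univ.pi fun i => Set.Ioo (a0 i + s * u i) (a0 i + s * u i + 1)
  have hT : MeasurableSet T := by
    refine IsOpen.measurableSet (isOpen_biUnion fun s _ => ?_)
    exact isOpen_set_pi Set.finite_univ fun i _ => isOpen_Ioo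
  set κ' : ℝ := κ * Real.exp (-2 * ∑ i, (a0 i + 1)) with hκ'
  have hκ'0 : 0 < κ' := by positivity
  let F : (Fin n → ℝ) → ℝ≥0∞ := T.indicator fun t => ENNReal.ofReal (κ' * Real.exp (2 * ∑ i, t i))
  have hF : Measurable F := by
    refine Measurable.indicator ?_ hT
    fun_prop
  have h1 := r242_logpolar_le Φ F hF R hR (by
    intro z _ hz
    by_cases ht : (fun i => -Real.log ‖z i‖) ∈ T
    · simp only [F, Set.indicator_of_mem ht]
      obtain ⟨s, hs, hst⟩ := Set.mem_iUnion₂.1 ht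
      have hs0 : (0 : ℝ) ≤ s := hs
      refine le_trans (ENNReal.ofReal_le_ofReal ?_) (h s z hs0 fun i => ?_)
      · have h3 : ∑ i, -Real.log ‖z i‖ ≤ ∑ i, (a0 i + s * u i + 1) :=
          Finset.sum_le_sum fun i _ => (hst i (Set.mem_univ _)).2.le
        have h4 : ∑ i, (a0 i + s * u i + 1) = ∑ i, (a0 i + 1) + s * ∑ i, u i := by
          rw [Finset.mul_sum, ← Finset.sum_add_distrib]
          exact Finset.sum_congr rfl fun i _ => by ring
        rw [hκ', mul_assoc, ← Real.exp_add]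
        refine mul_le_mul_of_nonneg_left (Real.exp_le_exp.2 ?_) hκ.le
        nlinarith [h3, h4]
      · have h5 := hst i (Set.mem_univ _)
        have hzi : 0 < ‖z i‖ := norm_pos_iff.2 (hz i)
        constructor
        · rw [← Real.exp_log (hρ i), ← Real.exp_add, ← Real.lt_log_iff_exp_lt hzi]
          linarith [h5.2]
        · rw [← Real.exp_log (hρ i), ← Real.exp_add, ← Real.log_lt_iff_lt_exp hzi]
          linarith [h5.1]
    · simp only [F, Set.indicator_of_notMem ht]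
      exact bot_le)
  refine top_le_iff.1 (le_trans (le_of_eq ?_) h1)
  symm
  refine r242_orth_eq_top _ _ ((2 * Real.pi) ^ n * κ') (by positivity) a0 u ?_ hu hu0 ?_
  · intro i
    rw [ha0]
    simp only [neg_le_neg_iff]
    exact Real.log_le_log (hρ i) (hρR i)
  · intro s v hs hv
    have ht : (fun i => a0 i + s * u i + v i) ∈ T := by
      refine Set.mem_iUnion₂.2 ⟨s, hs, fun i _ => ?_⟩
      constructor <;> linarith [(hv i).1, (hv i).2]
    simp only [F, Set.indicator_of_mem ht]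
    rw [r242_prod_rho, ← ENNReal.ofReal_mul (by positivity)]
    refine ENNReal.ofReal_le_ofReal (le_of_eq ?_)
    have : Real.exp (-2 * ∑ i, (a0 i + s * u i + v i)) * Real.exp (2 * ∑ i, (a0 i + s * u i + v i)) = 1 := by
      rw [← Real.exp_add]
      simp
    calc (2 * Real.pi) ^ n * κ' = (2 * Real.pi) ^ n * κ' * (Real.exp (-2 * ∑ i, (a0 i + s * u i + v i)) * Real.exp (2 * ∑ i, (a0 i + s * u i + v i))) := by
          rw [this, mul_one]
      _ = _ := by ring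

variable {T : TropData n N}

/-- logarithmic coordinates in the tube -/
theorem lift_tube_coord {R s₀ s x w : ℝ} (hR : 0 < R)
    (h1 : R * Real.exp (-(s₀ * w)) * Real.exp (-(s * w) - 1) < x)
    (h2 : x < R * Real.exp (-(s₀ * w)) * Real.exp (-(s * w))) :
    0 < x ∧ -Real.log R + (s + s₀) * w < -Real.log x ∧
      -Real.log x < -Real.log R + (s + s₀) * w + 1 := by
  have hx : 0 < x := lt_trans (by positivity) h1
  refine ⟨hx, ?_, ?_⟩
  · have h3 := Real.log_lt_log hx h2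
    rw [Real.log_mul (by positivity) (by positivity), Real.log_mul hR.ne' (by positivity),
      Real.log_exp, Real.log_exp] at h3
    linarith
  · have h3 := Real.log_lt_log (by positivity) h1
    rw [Real.log_mul (by positivity) (by positivity), Real.log_mul hR.ne' (by positivity),
      Real.log_exp, Real.log_exp] at h3
    linarith

/-- a linear form with natural coefficients along the tube -/
theorem lift_tube_lin (w : Fin n → ℕ) (t u : Fin n → ℝ) (a S : ℝ)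
    (h : ∀ j, a + S * u j < t j ∧ t j < a + S * u j + 1) :
    |∑ j, (w j : ℝ) * t j - S * ∑ j, u j * (w j : ℝ)| ≤ (|a| + 1) * ∑ j, (w j : ℝ) := by
  have h1 : ∑ j, (w j : ℝ) * t j - S * ∑ j, u j * (w j : ℝ)
      = ∑ j, (w j : ℝ) * (t j - S * u j) := by
    rw [Finset.mul_sum, ← Finset.sum_sub_distrib]
    exact Finset.sum_congr rfl fun j _ => by ring
  rw [h1, Finset.mul_sum]
  refine (Finset.abs_sum_le_sum_abs _ _).trans (Finset.sum_le_sum fun j _ => ?_)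
  rw [abs_mul, abs_of_nonneg (Nat.cast_nonneg _), mul_comm]
  refine mul_le_mul_of_nonneg_right ?_ (Nat.cast_nonneg _)
  rw [abs_le]
  constructor
  · linarith [neg_abs_le a, (h j).1]
  · linarith [le_abs_self a, (h j).2]

/-- the spread is small far out on the ray -/
theorem lift_spread_le {P P0 q q0 X C Q δ : ℝ} (hq0 : 0 < q0) (hq : 0 ≤ q) (hqQ : q0 + q ≤ Q)
    (hC : 0 ≤ C) (hδ : 0 < δ) (hP : |P - X * q| ≤ C) (hP0 : |P0 - X * q0| ≤ C)
    (hD : 2 * C * Q / (δ * q0) + 1 ≤ P0) : |P / P0 - q / q0| ≤ δ / 2 := by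
  have hQ : 0 ≤ Q := by linarith
  have hP0pos : 0 < P0 := by
    have : 0 ≤ 2 * C * Q / (δ * q0) := by positivity
    linarith
  have h1 : P / P0 - q / q0 = ((P - X * q) * q0 - (P0 - X * q0) * q) / (P0 * q0) := by
    field_simp
    ring
  have h2 : |(P - X * q) * q0 - (P0 - X * q0) * q| ≤ C * Q := by
    calc |(P - X * q) * q0 - (P0 - X * q0) * q|
        ≤ |(P - X * q) * q0| + |(P0 - X * q0) * q| := abs_sub _ _
      _ = |P - X * q| * q0 + |P0 - X * q0| * q := by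
          rw [abs_mul, abs_mul, abs_of_pos hq0, abs_of_nonneg hq]
      _ ≤ C * q0 + C * q := add_le_add (mul_le_mul_of_nonneg_right hP hq0.le)
          (mul_le_mul_of_nonneg_right hP0 hq)
      _ = C * (q0 + q) := by ring
      _ ≤ C * Q := mul_le_mul_of_nonneg_left hqQ hC
  have h3 : 2 * C * Q ≤ δ * (P0 * q0) := by
    have h4 : (2 * C * Q / (δ * q0) + 1) * (δ * q0) ≤ P0 * (δ * q0) :=
      mul_le_mul_of_nonneg_right hD (by positivity)
    have h5 : (2 * C * Q / (δ * q0) + 1) * (δ * q0) = 2 * C * Q + δ * q0 := by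
      field_simp
    have h6 : 0 < δ * q0 := by positivity
    nlinarith
  rw [h1, abs_div, abs_of_pos (by positivity : 0 < P0 * q0), div_le_iff₀ (by positivity)]
  nlinarith


theorem lift_tube_ord {L G S d q C₁ E : ℝ} (h1 : |L - 2 * G| ≤ C₁) (h2 : |G - S * (d * q)| ≤ E) :
    |L - 2 * S * d * q| ≤ C₁ + 2 * E := by
  rw [abs_le] at h1 h2 ⊢
  constructor
  · linarith [h1.1, h2.1]
  · linarith [h1.2, h2.2]

/-- **the tube in the chart `att`.**
PLAN.  `𝔞 = T.att`, `K = closedBall 0 (𝔞.ρ/2)`, `d = disc 𝔞.k T.u ≥ ∑ u_j > 0`.  Choose `R ≤ min (𝔞.ρ/2) 1` with `‖𝔞.σ y‖ < min r (r1/2)` for `‖y‖ < R` (continuity at `0`, `att_zero`).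
 For `s₀ ≥ 0` put `ρ_j = R exp (- s₀ u_j)`.  If `y` lies in the tube of parameter `s ≥ 0`, then `t_j = - log ‖y_j‖ ∈ (a + (s+s₀) u_j, a + (s+s₀) u_j + 1)`, `a = - log R`, so by `leaf_log`, `att_eq`
 `- lgs (f i (σ y)) = 2 (s+s₀) d q i + O(1)` and (`trop_P_sub`) `P i = 2 (s+s₀) d q i + O(1)`, with `O(1)` independent of `s, s₀`.
 * `|sp i| = |P i q i₀ - P i₀ q i| / (P i₀ q i₀) ≤ C / (2 s₀ d q i₀ - C)`, which is `≤ δ/2` for `s₀` large: `trop_g_eq_one`.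
 * `le_neg_wtT` with `M = 2 (s+s₀) d - C`, `trop_bounds`, `∑ b q = 1`:  `- φ ≥ 2 (s+s₀) d - C`;  `‖cjac‖² ≥ C⁻¹ exp (- 2 ∑ k_j t_j) ≥ C'⁻¹ exp (- 2 (s+s₀) ∑ k_j u_j)`;
   `d - ∑ k_j u_j = ∑ u_j`. -/
theorem trop_tube (hT : T.Ok) {r1 δ r : ℝ} (hr1 : 0 < r1) (hr10 : r1 < T.r0) (hδ : 0 < δ) (hr : 0 < r) :
    ∃ (R κ : ℝ) (ρ : Fin n → ℝ), 0 < R ∧ R ≤ T.att.ρ / 2 ∧ 0 < κ ∧ (∀ i, 0 < ρ i) ∧ (∀ i, ρ i ≤ R) ∧
      ∀ (s : ℝ) (y : Cn n), 0 ≤ s →
        (∀ i, ρ i * Real.exp (-(s * T.u i) - 1) < ‖y i‖ ∧ ‖y i‖ < ρ i * Real.exp (-(s * T.u i))) →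
        T.att.σ y ∈ T.D0 ∧ ‖T.att.σ y‖ < r ∧ T.g r1 δ (T.att.σ y) = 1 ∧
        κ * Real.exp (2 * s * ∑ i, T.u i)
          ≤ ‖cjac T.att.σ y‖ ^ 2 * Real.exp (- T.φ (T.att.σ y)) := by
  have hgood := hT.att_good
  obtain ⟨C₁, hC₁, hlog⟩ := leaf_log T.att hgood
  obtain ⟨A₂, hA₂, hbd⟩ := trop_bounds hT hr10
  obtain ⟨A₁, hA₁, hPs⟩ := trop_P_sub hT hr10
  -- the radius
  have hcont : ContinuousAt T.att.σ 0 :=
    hgood.hol.continuousOn.continuousAt (ball_mem_nhds _ hgood.ρ_pos)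
  have hev : ∀ᶠ y in 𝓝 (0 : Cn n), ‖T.att.σ y‖ < min r (r1 / 2) :=
    hcont.norm.eventually (gt_mem_nhds (by
      show ‖T.att.σ 0‖ < min r (r1 / 2)
      rw [hT.att_zero, norm_zero]
      exact lt_min hr (by positivity)))
  obtain ⟨R₀, hR₀, hball⟩ := Metric.eventually_nhds_iff.1 hev
  obtain ⟨R, hRdef⟩ : ∃ R : ℝ, R = min R₀ (T.att.ρ / 2) := ⟨_, rfl⟩
  have hR : 0 < R := by rw [hRdef]; exact lt_min hR₀ (half_pos hgood.ρ_pos)
  have hRρ : R ≤ T.att.ρ / 2 := by rw [hRdef]; exact min_le_right _ _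
  have hRR₀ : R ≤ R₀ := by rw [hRdef]; exact min_le_left _ _
  obtain ⟨a, ha⟩ : ∃ a : ℝ, a = -Real.log R := ⟨_, rfl⟩
  obtain ⟨d, hd⟩ : ∃ d : ℝ, d = disc T.att.k T.u := ⟨_, rfl⟩
  have hu := hT.u_nonneg
  have hsumu : 0 ≤ ∑ j, T.u j := Finset.sum_nonneg fun j _ => hu j
  have hdsplit : d = ∑ j, T.u j + ∑ j, T.u j * (T.att.k j : ℝ) := by
    rw [hd, disc, ← Finset.sum_add_distrib]
    exact Finset.sum_congr rfl fun j _ => by ring
  have hdpos : 0 < d := by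
    obtain ⟨j0, hj0⟩ : ∃ j, T.u j ≠ 0 := by
      by_contra hcon
      push Not at hcon
      exact hT.u_ne (funext hcon)
    have h1 : 0 < ∑ j, T.u j :=
      Finset.sum_pos' (fun j _ => hu j) ⟨j0, Finset.mem_univ _, lt_of_le_of_ne (hu j0) (Ne.symm hj0)⟩
    have h2 : 0 ≤ ∑ j, T.u j * (T.att.k j : ℝ) :=
      Finset.sum_nonneg fun j _ => mul_nonneg (hu j) (Nat.cast_nonneg _)
    linarith
  have hq0 := hT.q_pos
  have hq := hT.q_nonneg
  -- the constants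
  obtain ⟨OO, hOO⟩ : ∃ OO : ℝ, OO = ∑ i, ∑ j, (T.att.o j i : ℝ) := ⟨_, rfl⟩
  have hOOi : ∀ i, ∑ j, (T.att.o j i : ℝ) ≤ OO := fun i => by
    rw [hOO]
    exact Finset.single_le_sum (f := fun i => ∑ j, (T.att.o j i : ℝ))
      (fun i _ => Finset.sum_nonneg fun j _ => Nat.cast_nonneg _) (Finset.mem_univ i)
  have hOO0 : 0 ≤ OO := by
    rw [hOO]
    exact Finset.sum_nonneg fun i _ => Finset.sum_nonneg fun j _ => Nat.cast_nonneg _
  obtain ⟨KK, hKK⟩ : ∃ KK : ℝ, KK = ∑ j, (T.att.k j : ℝ) := ⟨_, rfl⟩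
  obtain ⟨C₃, hC₃⟩ : ∃ C₃ : ℝ, C₃ = C₁ + 2 * ((|a| + 1) * OO) := ⟨_, rfl⟩
  have hC₃0 : 0 ≤ C₃ := by rw [hC₃]; positivity
  obtain ⟨C₄, hC₄⟩ : ∃ C₄ : ℝ, C₄ = C₃ + A₁ := ⟨_, rfl⟩
  have hC₄0 : 0 ≤ C₄ := by rw [hC₄]; positivity
  obtain ⟨Q, hQ⟩ : ∃ Q : ℝ, Q = T.q T.i₀ + ∑ i, T.q i := ⟨_, rfl⟩
  have hQi : ∀ i, T.q T.i₀ + T.q i ≤ Q := fun i => by
    have := Finset.single_le_sum (f := fun i => T.q i) (fun i _ => hq i) (Finset.mem_univ i)
    rw [hQ]
    linarith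
  have hQ0 : 0 ≤ Q := by have := hQi T.i₀; linarith
  obtain ⟨D, hD⟩ : ∃ D : ℝ, D = 2 * C₄ * Q / (δ * T.q T.i₀) + 1 := ⟨_, rfl⟩
  have hD0 : 0 < D := by rw [hD]; positivity
  obtain ⟨s₀, hs₀⟩ : ∃ s₀ : ℝ, s₀ = (C₄ + D) / (2 * d * T.q T.i₀) := ⟨_, rfl⟩
  have hs₀0 : 0 ≤ s₀ := by rw [hs₀]; positivity
  have hs₀eq : 2 * s₀ * d * T.q T.i₀ = C₄ + D := by
    rw [hs₀]; field_simp
  obtain ⟨C₅, hC₅⟩ : ∃ C₅ : ℝ, C₅ = ∑ i, (C₃ / T.q i + |T.ν i| * A₂) := ⟨_, rfl⟩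
  have hC₅i : ∀ i, C₃ / T.q i + |T.ν i| * A₂ ≤ C₅ := fun i => by
    rw [hC₅]
    exact Finset.single_le_sum (f := fun i => C₃ / T.q i + |T.ν i| * A₂)
      (fun i _ => add_nonneg (div_nonneg hC₃0 (hq i)) (mul_nonneg (abs_nonneg _) hA₂))
      (Finset.mem_univ i)
  obtain ⟨B, hB⟩ : ∃ B : ℝ, B = ∑ i, T.b i := ⟨_, rfl⟩
  obtain ⟨cN, hcN⟩ : ∃ cN : ℝ, cN = (Fintype.card (Fin N) : ℝ) := ⟨_, rfl⟩
  have hcN0 : 0 ≤ cN := by rw [hcN]; exact Nat.cast_nonneg _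
  obtain ⟨C₆, hC₆⟩ : ∃ C₆ : ℝ, C₆ = (1 - T.η) * (C₃ * B) + T.η * (C₅ + Real.log cN)
      + T.ε * (cN * A₂) + T.c * A₂ := ⟨_, rfl⟩
  refine ⟨R, C₁⁻¹ * Real.exp (-2 * ((|a| + 1) * KK) - C₆), fun j => R * Real.exp (-(s₀ * T.u j)),
    hR, hRρ, by positivity, fun j => by positivity, fun j => ?_, ?_⟩
  · have : Real.exp (-(s₀ * T.u j)) ≤ 1 := by
      rw [Real.exp_le_one_iff]
      have := mul_nonneg hs₀0 (hu j)
      linarith
    calc R * Real.exp (-(s₀ * T.u j)) ≤ R * 1 := mul_le_mul_of_nonneg_left this hR.le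
      _ = R := mul_one _
  intro s y hs hy
  obtain ⟨S, hS⟩ : ∃ S : ℝ, S = s + s₀ := ⟨_, rfl⟩
  have hSs₀ : s₀ ≤ S := by linarith
  have hS0 : 0 ≤ S := by linarith
  have hco : ∀ j, 0 < ‖y j‖ ∧ a + S * T.u j < -Real.log ‖y j‖ ∧
      -Real.log ‖y j‖ < a + S * T.u j + 1 := fun j => by
    rw [ha, hS]
    exact lift_tube_coord hR (hy j).1 (hy j).2
  have hy0 : ∀ j, y j ≠ 0 := fun j => norm_pos_iff.1 (hco j).1
  have htt : ∀ j, a + S * T.u j < -Real.log ‖y j‖ ∧ -Real.log ‖y j‖ < a + S * T.u j + 1 :=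
    fun j => (hco j).2
  have hyR : ‖y‖ < R := by
    rw [pi_norm_lt_iff hR]
    intro j
    have h1 := (hco j).2.1
    have h2 : 0 ≤ S * T.u j := mul_nonneg hS0 (hu j)
    have h3 : Real.log ‖y j‖ < Real.log R := by rw [ha] at h1; linarith
    exact (Real.log_lt_log_iff (hco j).1 hR).1 h3
  have hyK : y ∈ closedBall (0 : Cn n) (T.att.ρ / 2) := by
    rw [mem_closedBall_zero_iff]; linarith
  have hyb : y ∈ ball (0 : Cn n) T.att.ρ := by
    rw [mem_ball_zero_iff]; linarith [hgood.ρ_pos]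
  obtain ⟨hl1, -, hl3⟩ := hlog y hyK hy0
  have hmono := fun i => hgood.mono i y hyb
  have hmaps := hgood.maps y hyb
  have hzsmall : ‖T.att.σ y‖ < min r (r1 / 2) := hball (by
    rw [dist_zero_right]; exact lt_of_lt_of_le hyR hRR₀)
  generalize T.att.σ y = z at hl1 hmono hmaps hzsmall ⊢
  have hzr : ‖z‖ < r := lt_of_lt_of_le hzsmall (min_le_left _ _)
  have hzr1 : ‖z‖ < r1 / 2 := lt_of_lt_of_le hzsmall (min_le_right _ _)
  have hzc : z ∈ closedBall (0 : Cn n) r1 := by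
    rw [mem_closedBall_zero_iff]; linarith
  have hzD0 : z ∈ T.D0 := by
    refine ⟨hmaps, fun i => ?_⟩
    rw [hmono i]
    exact mul_ne_zero (hgood.U_ne i y hyb) (Finset.prod_ne_zero_iff.2 fun j _ => pow_ne_zero _ (hy0 j))
  obtain ⟨X, hX⟩ : ∃ X : ℝ, X = 2 * S * d := ⟨_, rfl⟩
  -- orders
  have hord : ∀ i, |(-lgs (T.f i z)) - X * T.q i| ≤ C₃ := by
    intro i
    have h2 := lift_tube_lin (fun j => T.att.o j i) (fun j => -Real.log ‖y j‖) T.u a S htt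
    have h3 : ∑ j, T.u j * (T.att.o j i : ℝ) = d * T.q i := by
      rw [hd]; exact hT.att_eq i
    rw [h3] at h2
    have h4 : (|a| + 1) * ∑ j, (T.att.o j i : ℝ) ≤ (|a| + 1) * OO :=
      mul_le_mul_of_nonneg_left (hOOi i) (by positivity)
    rw [hC₃, hX]
    exact lift_tube_ord (hl1 i) (h2.trans h4)
  have hP : ∀ i, |T.P z i - X * T.q i| ≤ C₄ := by
    intro i
    have h1 := hPs z hzc i
    have h2 := hord i
    rw [abs_le] at h1 h2 ⊢
    rw [hC₄]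
    constructor
    · linarith [h1.1, h2.1]
    · linarith [h1.2, h2.2]
  have hPi₀ : D ≤ T.P z T.i₀ := by
    have h1 := (abs_le.1 (hP T.i₀)).1
    have h2 : 2 * s₀ * d * T.q T.i₀ ≤ X * T.q T.i₀ := by
      rw [hX]
      have : 2 * s₀ * d ≤ 2 * S * d :=
        mul_le_mul_of_nonneg_right (by linarith) hdpos.le
      exact mul_le_mul_of_nonneg_right this hq0.le
    linarith
  have hsp : ∀ i, |T.sp z i| ≤ δ / 2 := fun i =>
    lift_spread_le hq0 (hq i) (hQi i) hC₄0 hδ (hP i) (hP T.i₀) (by rw [← hD]; exact hPi₀)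
  refine ⟨hzD0, hzr, trop_g_eq_one hr1 hδ hzr1.le hsp, ?_⟩
  -- the weight
  obtain ⟨hb1, hb2, hb3⟩ := hbd z hzc
  have hζ0 : zetaOf (T.r0 : ℂ) T.e z 0 = T.e z := rfl
  have hneg := le_neg_wtT (n := n) T.μ T.b T.q T.ν T.η T.ε T.c hT.η_pos.le hT.ε_pos.le ⟨T.i₀, hq0⟩
    (fun i => T.f i z) (zetaOf (T.r0 : ℂ) T.e z) (X - C₅) (by
      intro i hi
      rw [hζ0]
      have h1 := (abs_le.1 (hord i)).1
      have h2 : X - C₃ / T.q i ≤ -lgs (T.f i z) / T.q i := by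
        rw [le_div_iff₀ hi, sub_mul, div_mul_cancel₀ _ hi.ne']
        linarith
      have h3 : T.ν i * lgs (T.e z) ≤ |T.ν i| * A₂ := by
        calc T.ν i * lgs (T.e z) ≤ |T.ν i * lgs (T.e z)| := le_abs_self _
          _ = |T.ν i| * |lgs (T.e z)| := abs_mul _ _
          _ ≤ |T.ν i| * A₂ := mul_le_mul_of_nonneg_left hb2 (abs_nonneg _)
      have h4 := hC₅i i
      linarith)
  rw [hζ0, ← hcN] at hneg
  have hφ : X - C₆ ≤ -T.φ z := by
    refine le_trans ?_ hneg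
    have h1 : X - C₃ * B ≤ ∑ i, T.b i * (-lgs (T.f i z)) := by
      have h2 : ∑ i, T.b i * (X * T.q i - C₃) ≤ ∑ i, T.b i * (-lgs (T.f i z)) :=
        Finset.sum_le_sum fun i _ => mul_le_mul_of_nonneg_left
          (by linarith [(abs_le.1 (hord i)).1]) (hT.b_pos i).le
      have h3 : ∑ i, T.b i * (X * T.q i - C₃) = X * ∑ i, T.b i * T.q i - C₃ * B := by
        rw [hB, Finset.mul_sum, Finset.mul_sum, ← Finset.sum_sub_distrib]
        exact Finset.sum_congr rfl fun i _ => by ring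
      rw [h3, hT.sum_bq, mul_one] at h2
      exact h2
    have h4 := mul_le_mul_of_nonneg_left h1 (by linarith [hT.η_lt] : (0 : ℝ) ≤ 1 - T.η)
    have h5 : T.ε * (cN * refT T.μ (fun i => T.f i z) (T.e z)) ≤ T.ε * (cN * A₂) :=
      mul_le_mul_of_nonneg_left (mul_le_mul_of_nonneg_left ((le_abs_self _).trans hb1) hcN0)
        hT.ε_pos.le
    have h6 : T.c * lsq (zetaOf (T.r0 : ℂ) T.e z) ≤ T.c * A₂ :=
      mul_le_mul_of_nonneg_left ((le_abs_self _).trans hb3) hT.c_pos.le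
    rw [hC₆]
    linarith [h4, h5, h6]
  -- the Jacobian
  have hk := lift_tube_lin T.att.k (fun j => -Real.log ‖y j‖) T.u a S htt
  have hk2 := (abs_le.1 hk).2
  rw [← hKK] at hk2
  calc C₁⁻¹ * Real.exp (-2 * ((|a| + 1) * KK) - C₆) * Real.exp (2 * s * ∑ i, T.u i)
      = C₁⁻¹ * Real.exp (-2 * ((|a| + 1) * KK) - C₆ + 2 * s * ∑ i, T.u i) := by
        rw [mul_assoc, ← Real.exp_add]
    _ ≤ C₁⁻¹ * Real.exp (-2 * ∑ j, (T.att.k j : ℝ) * (-Real.log ‖y j‖) + -T.φ z) := by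
        refine mul_le_mul_of_nonneg_left (Real.exp_le_exp.2 ?_) (by positivity)
        have h7 : 2 * s * ∑ i, T.u i ≤ 2 * S * ∑ i, T.u i :=
          mul_le_mul_of_nonneg_right (by linarith) hsumu
        have h8 : X = 2 * S * ∑ j, T.u j + 2 * (S * ∑ j, T.u j * (T.att.k j : ℝ)) := by
          rw [hX, hdsplit]; ring
        linarith
    _ = C₁⁻¹ * Real.exp (-2 * ∑ j, (T.att.k j : ℝ) * (-Real.log ‖y j‖)) * Real.exp (-T.φ z) := by
        rw [Real.exp_add, mul_assoc]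
    _ ≤ ‖cjac T.att.σ y‖ ^ 2 * Real.exp (-T.φ z) :=
        mul_le_mul_of_nonneg_right hl3 (Real.exp_pos _).le

/-- PLAN.  `Tg = {z ∈ D0, ‖z‖ < r, g z = 1}` is measurable (`g` is continuous on the open set `D0`).  `K = ball 0 R ∩ σ⁻¹ Tg` (measurable, `σ = T.att.σ` continuous on the ball).
`lift_tube_eq_top` with `Φ y = K.indicator (‖cjac σ y‖ₑ² * ofReal (exp (- φ (σ y))))` and `trop_tube` give `∫ K, ‖cjac σ‖ₑ² * .. = ⊤`;
`r242_lintegral_le_card_image` (`D = ball 0 T.att.ρ`, sets `A`) gives `⊤ ≤ card * ∫ σ '' K, ..`, and `σ '' K ⊆ Tg`. -/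
theorem trop_div (hT : T.Ok) {r1 δ r : ℝ} (hr1 : 0 < r1) (hr10 : r1 < T.r0) (hδ : 0 < δ) (hr : 0 < r) :
    ∫⁻ z in {z | z ∈ T.D0 ∧ ‖z‖ < r ∧ T.g r1 δ z = 1}, ENNReal.ofReal (Real.exp (- T.φ z)) = ⊤ := by
  classical
  obtain ⟨R, κ, ρ, hR, hRρ, hκ, hρ0, hρR, htube⟩ := trop_tube hT hr1 hr10 hδ hr
  have hgood := hT.att_good
  set σ : Cn n → Cn n := T.att.σ with hσ
  set Tg : Set (Cn n) := {z | z ∈ T.D0 ∧ ‖z‖ < r ∧ T.g r1 δ z = 1} with hTg
  have hD0m : MeasurableSet T.D0 := trop_D0_meas hT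
  -- measurability of `Tg`
  have hTgm : MeasurableSet Tg := by
    have hpw : Measurable (T.D0.piecewise (T.g r1 δ) fun _ => 0) :=
      ContinuousOn.measurable_piecewise (trop_g_smooth hT r1 δ).continuousOn continuousOn_const hD0m
    have heq : Tg = T.D0 ∩ ({z | ‖z‖ < r} ∩ (T.D0.piecewise (T.g r1 δ) fun _ => 0) ⁻¹' {1}) := by
      ext z
      constructor
      · rintro ⟨h1, h2, h3⟩
        refine ⟨h1, h2, ?_⟩
        rw [Set.mem_preimage, Set.piecewise_eq_of_mem _ _ _ h1]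
        exact h3
      · rintro ⟨h1, h2, h3⟩
        rw [Set.mem_preimage, Set.piecewise_eq_of_mem _ _ _ h1] at h3
        exact ⟨h1, h2, h3⟩
    rw [heq]
    exact hD0m.inter ((measurableSet_lt measurable_norm measurable_const).inter
      (hpw (measurableSet_singleton 1)))
  have hRρ' : R < T.att.ρ := by linarith [hgood.ρ_pos]
  have hsub : ball (0 : Cn n) R ⊆ ball (0 : Cn n) T.att.ρ := ball_subset_ball hRρ'.le
  set K : Set (Cn n) := ball (0 : Cn n) R ∩ σ ⁻¹' Tg with hK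
  have hKm : MeasurableSet K := by
    have hpw : Measurable ((ball (0 : Cn n) R).piecewise σ fun _ => 0) :=
      ContinuousOn.measurable_piecewise (hgood.hol.continuousOn.mono hsub) continuousOn_const
        isOpen_ball.measurableSet
    have heq : K = ball (0 : Cn n) R ∩ ((ball (0 : Cn n) R).piecewise σ fun _ => 0) ⁻¹' Tg := by
      ext y
      constructor
      · rintro ⟨h1, h2⟩
        refine ⟨h1, ?_⟩
        rw [Set.mem_preimage, Set.piecewise_eq_of_mem _ _ _ h1]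
        exact h2
      · rintro ⟨h1, h2⟩
        rw [Set.mem_preimage, Set.piecewise_eq_of_mem _ _ _ h1] at h2
        exact ⟨h1, h2⟩
    rw [heq]
    exact isOpen_ball.measurableSet.inter (hpw hTgm)
  set Φ' : Cn n → ℝ≥0∞ := fun x => ENNReal.ofReal (Real.exp (- T.φ x)) with hΦ'
  have h1 : ∫⁻ y in ball (0 : Cn n) R,
      K.indicator (fun y => ‖(fderiv ℂ σ y).det‖ₑ ^ 2 * Φ' (σ y)) y = ⊤ := by
    refine lift_tube_eq_top _ R κ ρ hρ0 hρR hκ T.u hT.u_nonneg hT.u_ne fun s y hs hy => ?_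
    obtain ⟨h2, h3, h4, h5⟩ := htube s y hs hy
    have hyR : y ∈ ball (0 : Cn n) R := by
      rw [mem_ball_zero_iff, pi_norm_lt_iff hR]
      intro i
      refine lt_of_lt_of_le (hy i).2 (le_trans ?_ (hρR i))
      have : Real.exp (-(s * T.u i)) ≤ 1 := by
        rw [Real.exp_le_one_iff]
        have := mul_nonneg hs (hT.u_nonneg i)
        linarith
      calc ρ i * Real.exp (-(s * T.u i)) ≤ ρ i * 1 := mul_le_mul_of_nonneg_left this (hρ0 i).le
        _ = ρ i := mul_one _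
    have hyK : y ∈ K := ⟨hyR, h2, h3, h4⟩
    rw [Set.indicator_of_mem hyK, hΦ']
    simp only
    rw [← ofReal_norm, ← ENNReal.ofReal_pow (norm_nonneg _), ← ENNReal.ofReal_mul (by positivity)]
    exact ENNReal.ofReal_le_ofReal h5
  rw [setLIntegral_indicator hKm, Set.inter_eq_left.2 (Set.inter_subset_left : K ⊆ _)] at h1
  have h2 := r242_lintegral_le_card_image (ball (0 : Cn n) T.att.ρ) K isOpen_ball
    (Set.inter_subset_left.trans hsub) hKm σ hgood.hol Finset.univ T.att.A hgood.A_meas hgood.A_inj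
    (fun y hy hdet => by
      obtain ⟨a, ha⟩ := hgood.A_cov y (hsub hy.1) hdet
      exact Set.mem_iUnion₂.2 ⟨a, Finset.mem_univ _, ha⟩) Φ'
  rw [h1, top_le_iff] at h2
  have h3 : ∫⁻ x in σ '' K, Φ' x ≤ ∫⁻ x in Tg, Φ' x := by
    refine lintegral_mono_set ?_
    rintro _ ⟨y, hy, rfl⟩
    exact hy.2
  by_contra hcon
  have h4 : ∫⁻ x in σ '' K, Φ' x < ⊤ := lt_of_le_of_lt h3 (lt_top_iff_ne_top.2 hcon)
  exact absurd h2 (ENNReal.mul_lt_top (ENNReal.natCast_lt_top _) h4).ne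

end six

/-! ### 7. assembly -/

theorem trop_locLift {T : TropData n N} (hT : T.Ok) : LocLift T.r0 T.D0 T.φ := by
  obtain ⟨r1, δ, hr1, hr10, hδ, hint⟩ := trop_choice hT
  obtain ⟨CB, hCB, hdb⟩ := trop_dbar hT hr1 hr10 hδ
  refine ⟨T.g r1 δ, (T.E r1 δ).indicator (fun _ => CB), r1, hr1, hr10, trop_g_smooth hT r1 δ,
    trop_g_norm_le r1 δ, fun z hz => trop_g_eq_zero hr1 δ hz,
    measurable_const.indicator (trop_E_meas hT hr10 δ), ?_, hdb, ?_,
    fun r hr => trop_div hT hr1 hr10 hδ hr⟩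
  · intro z
    exact Set.indicator_nonneg (fun _ _ => hCB) z
  · have hE := trop_E_meas hT hr10 δ
    have h1 : ∀ z, ENNReal.ofReal ((T.E r1 δ).indicator (fun _ => CB) z * Real.exp (-T.φ z))
        = (T.E r1 δ).indicator
            (fun z => ENNReal.ofReal CB * ENNReal.ofReal (Real.exp (-T.φ z))) z := by
      intro z
      by_cases hz : z ∈ T.E r1 δ
      · rw [Set.indicator_of_mem hz, Set.indicator_of_mem hz, ENNReal.ofReal_mul hCB]
      · rw [Set.indicator_of_notMem hz, Set.indicator_of_notMem hz, zero_mul, ENNReal.ofReal_zero]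
    simp_rw [h1]
    rw [setLIntegral_indicator hE, Set.inter_comm,
      lintegral_const_mul' _ _ ENNReal.ofReal_ne_top]
    exact ENNReal.mul_lt_top ENNReal.ofReal_lt_top hint

end Claimed.Agent.R242
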