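/-
Row 242 (S0480), package LIFT.  BridgeT: `GlobLift` + LIFT 2 (`trop_locLift`) ==> the clause (LT) of `Loc/Clauses`.      Owner: helper62.

  * `bridge_LT`    : `L.GlobLift mm Gen → S.IsBasis m s → (F : CellFam L m s) → LTClause L mm Gen m s F.data`.

Reusable (also for the `Lift32` half of the bridge):
  * `bt_locLift_congr` : `LocLift r0 D0 φ` depends only on `φ` on the (relatively) interior set `D0`;
  * `LocReal.btTau`    : the sections `σ_0, σ_1 + r₀ σ_0, .., σ_n + r₀ σ_0` of `k₀ L`; `bt_tau_mem`, `bt_tau_hol` (`= zetaOf r₀ (hol k₀ σ_0)`), `bt_tau_hol_ne`, `bt_tau_ne`;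
  * `bt_D0_isOpen`, `bt_D0_eq`.
-/
import Claimed.Agent.R242.Lift.Trop
import Claimed.Agent.R242.Loc.Cell
import Claimed.Agent.R242.Loc.Clauses
import Claimed.Agent.R242.Tay.Div

set_option autoImplicit false

open MeasureTheory Complex Metric
open scoped ContDiff ComplexConjugate ENNReal Topology

namespace Claimed.Agent.R242

variable {n : ℕ}

/-! ### 1. `LocLift` depends only on the weight on `D0` -/

theorem bt_locLift_congr {r0 : ℝ} {D0 : Set (Cn n)} {φ φ' : Cn n → ℝ} (hD : IsOpen D0)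
    (h : ∀ z ∈ D0, φ z = φ' z) (H : LocLift r0 D0 φ) : LocLift r0 D0 φ' := by
  obtain ⟨g, B, r1, h1, h2, h3, h4, h5, h6, h7, h8, h9, h10⟩ := H
  have hae : ∀ᵐ z ∂(volume.restrict D0), φ z = φ' z :=
    ae_restrict_of_forall_mem hD.measurableSet h
  refine ⟨g, B, r1, h1, h2, h3, h4, h5, h6, h7, ?_, ?_, ?_⟩
  · intro z hz a
    have : φ =ᶠ[𝓝 z] φ' := Filter.eventuallyEq_of_mem (hD.mem_nhds hz) h
    rw [← levi_congr this a]
    exact h8 z hz a
  · have : ∫⁻ z in D0, ENNReal.ofReal (B z * Real.exp (-φ' z))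
        = ∫⁻ z in D0, ENNReal.ofReal (B z * Real.exp (-φ z)) := by
      apply lintegral_congr_ae
      filter_upwards [hae] with z hz
      rw [hz]
    rw [this]
    exact h9
  · intro r hr
    rw [← h10 r hr]
    apply lintegral_congr_ae
    have hsub : {z | z ∈ D0 ∧ ‖z‖ < r ∧ g z = 1} ⊆ D0 := fun z hz => hz.1
    filter_upwards [ae_restrict_of_ae_restrict_of_subset hsub hae] with z hz
    rw [hz]

theorem bt_D0_isOpen {ι : Type*} [Finite ι] {r0 : ℝ} {f : ι → Cn n → ℂ}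
    (hf : ∀ i, ContinuousOn (f i) (ball 0 r0)) :
    IsOpen {z | z ∈ ball (0 : Cn n) r0 ∧ ∀ i, f i z ≠ 0} := by
  rw [isOpen_iff_mem_nhds]
  rintro z ⟨hz, hz0⟩
  have h1 : ∀ᶠ y in 𝓝 z, y ∈ ball (0 : Cn n) r0 := isOpen_ball.mem_nhds hz
  have h2 : ∀ᶠ y in 𝓝 z, ∀ i, f i y ≠ 0 := by
    rw [Filter.eventually_all]
    intro i
    exact ((hf i).continuousAt (isOpen_ball.mem_nhds hz)).eventually_ne (hz0 i)
  filter_upwards [h1, h2] with y a b using ⟨a, b⟩

/-! ### 2. the sections `σ_0, σ_j + r₀ σ_0` -/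

section tau

variable {K : Type*} [Field K] [Algebra ℂ K] {S : SecRing K} (L : LocReal S n)

/-- the sections `σ_0, σ_1 + r₀ σ_0, .., σ_n + r₀ σ_0` of `k₀ L`: none of them vanishes on the polydisc. -/
noncomputable def LocReal.btTau : Fin (n + 1) → K :=
  Fin.cons (L.σ 0) (fun j : Fin n => L.σ j.succ + (L.r₀ : ℂ) • L.σ 0)

theorem bt_tau_mem (j : Fin (n + 1)) : L.btTau j ∈ S.R L.k₀ := by
  refine Fin.cases ?_ (fun j => ?_) j
  · exact L.σ_mem 0
  · exact (S.R L.k₀).add_mem (L.σ_mem _) ((S.R L.k₀).smul_mem _ (L.σ_mem 0))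

theorem bt_tau_hol {z : Cn n} (hz : z ∈ ball (0 : Cn n) L.r₀) (j : Fin (n + 1)) :
    L.hol L.k₀ (L.btTau j) z = zetaOf (L.r₀ : ℂ) (L.hol L.k₀ (L.σ 0)) z j := by
  refine Fin.cases ?_ (fun j => ?_) j
  · rfl
  · show L.hol L.k₀ (L.σ j.succ + (L.r₀ : ℂ) • L.σ 0) z = (z j + (L.r₀ : ℂ)) * L.hol L.k₀ (L.σ 0) z
    rw [L.hol_add _ _ _ (L.σ_mem _) ((S.R L.k₀).smul_mem _ (L.σ_mem 0)) z hz,
      L.hol_smul _ _ _ (L.σ_mem 0) z hz, L.σ_coord j z hz]
    ring

theorem bt_coord_add_ne {r : ℝ} {z : Cn n} (hz : z ∈ ball (0 : Cn n) r) (j : Fin n) :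
    z j + (r : ℂ) ≠ 0 := by
  intro h
  have h1 : z j = -(r : ℂ) := eq_neg_of_add_eq_zero_left h
  have h2 : ‖z j‖ < r := lt_of_le_of_lt (norm_le_pi_norm z j) (mem_ball_zero_iff.1 hz)
  rw [h1, norm_neg, Complex.norm_real, Real.norm_eq_abs] at h2
  exact absurd (le_abs_self r) (not_le.2 h2)

theorem bt_tau_hol_ne {z : Cn n} (hz : z ∈ ball (0 : Cn n) L.r₀) (j : Fin (n + 1)) :
    L.hol L.k₀ (L.btTau j) z ≠ 0 := by
  rw [bt_tau_hol L hz]
  refine Fin.cases ?_ (fun j => ?_) j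
  · exact L.σ_ne z hz
  · exact mul_ne_zero (bt_coord_add_ne hz j) (L.σ_ne z hz)

theorem bt_tau_ne (j : Fin (n + 1)) : L.btTau j ≠ 0 := by
  intro h
  have h0 : (0 : Cn n) ∈ ball (0 : Cn n) L.r₀ := mem_ball_self L.r₀_pos
  apply bt_tau_hol_ne L h0 j
  rw [h]
  exact loc_hi_hol_zero L _ h0

end tau

/-! ### 3. the leaves of a `CellFam` -/

section leaves

variable {K : Type*} [Field K] [Algebra ℂ K] {S : SecRing K} {L : LocReal S n} {m : ℕ}
  {s : Fin (S.N m) → K}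

/-- the leaf `l` of a `CellFam` as an `MLeaf` -/
noncomputable def CellFam.btLeaf (F : CellFam L m s) (l : Fin F.nl) : MLeaf n (Fin (S.N m)) where
  ρ := F.r l
  σ := F.σ l
  k := F.k l
  o := F.o l
  UJ := F.uj l
  U := F.us l
  nA := (F.inj l).choose
  A := (F.inj l).choose_spec.choose

theorem CellFam.btLeaf_good (F : CellFam L m s) (l : Fin F.nl) :
    (F.btLeaf l).Good L.r₀ (fun i => L.hol m (s i)) where
  ρ_pos := F.r_pos l
  hol := F.hol l
  maps := fun y hy => F.maps l hy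
  jac := F.jac_eq l
  UJ_cont := (F.uj_hol l).continuousOn
  UJ_ne := F.uj_ne l
  mono := fun i => F.sec_eq l i
  U_cont := fun i => (F.us_hol l i).continuousOn
  U_ne := fun i => F.us_ne l i
  A_meas := (F.inj l).choose_spec.choose_spec.1
  A_inj := (F.inj l).choose_spec.choose_spec.2.1
  A_cov := fun y hy hj => by
    have := (F.inj l).choose_spec.choose_spec.2.2 (show y ∈ {y | y ∈ ball (0 : Cn n) (F.r l) ∧ cjac (F.σ l) y ≠ 0} from ⟨hy, hj⟩)
    exact Set.mem_iUnion.1 this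

theorem bt_ow_oAt (F : CellFam L m s) (l : Fin F.nl) (z' : Cn n) (u : Fin n → ℝ)
    (h : ∀ j ∈ wsupp u, z' j = 0) (i : Fin (S.N m)) : ow (F.oAt l z') u i = ow (F.o l) u i := by
  unfold ow CellFam.oAt
  refine Finset.sum_congr rfl fun j _ => ?_
  by_cases hj : u j = 0
  · rw [hj, zero_mul, zero_mul]
  · rw [if_pos (h j (by simp [wsupp, hj]))]

theorem bt_disc_kAt (F : CellFam L m s) (l : Fin F.nl) (z' : Cn n) (u : Fin n → ℝ)
    (h : ∀ j ∈ wsupp u, z' j = 0) : disc (F.kAt l z') u = disc (F.k l) u := by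
  unfold disc CellFam.kAt
  refine Finset.sum_congr rfl fun j _ => ?_
  by_cases hj : u j = 0
  · rw [hj, zero_mul, zero_mul]
  · rw [if_pos (h j (by simp [wsupp, hj]))]

/-- a holomorphic map on the polydisc that vanishes on a stratum near one of its points vanishes on the whole stratum -/
theorem bt_stratum_identity {σ : Cn n → Cn n} {ρ r : ℝ} (hσ : DifferentiableOn ℂ σ (ball 0 ρ)) (J : Finset (Fin n))
    {z' : Cn n} (hz' : z' ∈ ball (0 : Cn n) ρ) (hJ : ∀ j ∈ J, z' j = 0) (hr : 0 < r)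
    (h : ∀ y ∈ ball (0 : Cn n) r, (∀ j ∈ J, y j = 0) → σ (z' + y) = 0) :
    ∀ y ∈ ball (0 : Cn n) ρ, (∀ j ∈ J, y j = 0) → σ y = 0 := by
  intro y hy hyJ
  funext i
  have hd : DifferentiableOn ℂ (fun y => σ (locPr J y) i) (ball 0 ρ) := by
    have h1 : DifferentiableOn ℂ (fun y => σ (locPr J y)) (ball 0 ρ) :=
      hσ.comp (locPr_differentiable J).differentiableOn fun y hy => locPr_mem_ball J hy
    exact (differentiableOn_pi.1 h1) i
  have hev : (fun y => σ (locPr J y) i) =ᶠ[𝓝 z'] 0 := by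
    filter_upwards [ball_mem_nhds z' hr] with w hw
    have h1 : locPr J w = z' + locPr J (w - z') := by
      funext j
      unfold locPr
      by_cases hj : j ∈ J
      · simp [hj, hJ j hj]
      · simp [hj]
    have h2 : locPr J (w - z') ∈ ball (0 : Cn n) r := by
      apply locPr_mem_ball
      rwa [mem_ball_zero_iff, ← mem_ball_iff_norm]
    show σ (locPr J w) i = 0
    rw [h1, h _ h2 fun j hj => locPr_apply_mem _ hj]
    rfl
  have := loc_eqOn_zero_of_eventually hd hz' hev y hy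
  simpa [locPr_eq_self hyJ] using this

/-- the cone hypothesis for the leaves, from the last hypothesis of (LT) -/
theorem bt_coneHyp (F : CellFam L m s) (hs : ∀ i, s i ∈ S.R m) (b q : Fin (S.N m) → ℝ) (η θ : ℝ)
    (H : ∀ (G : GChart S n) (k : Fin n → ℕ) (o : Fin n → Fin (S.N m) → ℕ) (u : Fin n → ℝ), (k, o) ∈ F.data →
        L.TC L.x G k → MonoIn m s G o → (∀ i, 0 ≤ u i) → u ≠ 0 →
        (∃ μ : ℝ, 0 < μ ∧ ∀ i, |ow o u i - μ * q i| ≤ θ * μ) →
        (∃ i, 0 < q i ∧ (1 - η) * ∑ i', b i' * ow o u i' + η * (ow o u i / q i) < disc k u) ∨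
        ((∀ i, ow o u i = disc k u * q i) ∧ G.IsPt (wsupp u))) (l : Fin F.nl) :
    ConeHyp (F.btLeaf l).k (F.btLeaf l).o b q η θ (F.btLeaf l).Adm (F.btLeaf l).Ctr := by
  intro u hu hu0 hadm hcone
  obtain ⟨z', hz', hσ, hJ⟩ := hadm
  have hz'b : z' ∈ ball (0 : Cn n) (F.r l) := by
    have h1 : ‖z'‖ ≤ F.r l / 2 := mem_closedBall_zero_iff.1 hz'
    rw [mem_ball_zero_iff]
    linarith [F.r_pos l]
  obtain ⟨c, G, hck, hrep, hmono, hπ⟩ := cell_exists F hs l z' hz'b hσ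
  have how : ∀ i, ow (F.oAt l z') u i = ow (F.o l) u i := bt_ow_oAt F l z' u hJ
  have hdisc : disc (F.kAt l z') u = disc (F.k l) u := bt_disc_kAt F l z' u hJ
  have := H G (F.kAt l z') (F.oAt l z') u (cell_data_mem F l z') ⟨c, hck, hrep⟩ hmono hu hu0
    (by simp only [how]; exact hcone)
  simp only [how, hdisc] at this
  rcases this with h | ⟨h1, h2⟩
  · exact Or.inl h
  · refine Or.inr ⟨h1, ?_⟩
    have h3 := (loc_isPt_iff L c G hrep (wsupp u)).1 h2
    exact bt_stratum_identity (F.hol l) (wsupp u) hz'b hJ c.r_pos fun y hy hyJ => by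
      rw [← (hπ y hy).2]
      exact h3 y hy hyJ

/-- the chart of the exact cell as an `MLeaf` (on a smaller polydisc) -/
theorem bt_exact_leaf (hs : ∀ i, s i ∈ S.R m) (c : MChart n L.D (L.x : Cn n)) (G : GChart S n)
    (hG : L.Rep c G) (o : Fin n → Fin (S.N m) → ℕ) (hmono : MonoIn m s G o) :
    ∃ 𝔩₀ : MLeaf n (Fin (S.N m)), 𝔩₀.Good L.r₀ (fun i => L.hol m (s i)) ∧ 𝔩₀.k = c.k ∧ 𝔩₀.o = o ∧
      𝔩₀.σ 0 = 0 := by
  classical
  have hdiv : ∀ i, ∃ g : Cn n → ℂ, DifferentiableOn ℂ g (ball 0 c.r) ∧ g 0 ≠ 0 ∧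
      ∀ y ∈ ball (0 : Cn n) c.r, L.hol m (s i) (c.π y) = g y * ∏ j, y j ^ o j i := by
    intro i
    obtain ⟨V, hV0, hV⟩ := hmono i
    have hf : DifferentiableOn ℂ (fun y => L.hol m (s i) (c.π y)) (ball 0 c.r) :=
      (L.hol_diff m (s i) (hs i)).comp c.hol c.maps
    have hdvd : MvPowerSeries.monomial (toExp fun j => o j i) (1 : ℂ)
        ∣ tay 0 (fun y => L.hol m (s i) (c.π y)) := by
      rw [← hG m (s i) (hs i), hV]
      exact Dvd.intro_left _ rfl
    obtain ⟨g, hg, hfg⟩ := (tay_monomial_dvd_iff c.r_pos hf _).1 hdvd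
    refine ⟨g, hg, ?_, fun y hy => ?_⟩
    · have hga : AnalyticAt ℂ g 0 := tay_analyticAt_of_ball c.r_pos hg
      have h1 : tay 0 (fun y => L.hol m (s i) (c.π y))
          = MvPowerSeries.monomial (toExp fun j => o j i) (1 : ℂ) * tay 0 g := by
        have h1 : (fun y => L.hol m (s i) (c.π y))
            =ᶠ[𝓝 0] fun z => tayMono (toExp fun j => o j i) (z - 0) * g z :=
          Filter.eventuallyEq_of_mem (ball_mem_nhds 0 c.r_pos) hfg
        have h2 : AnalyticAt ℂ (fun z : Cn n => tayMono (toExp fun j => o j i) (z - 0)) 0 := by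
          apply tay_analyticAt_of_ball c.r_pos (r := c.r)
          exact ((tayMono_differentiable _).comp (by fun_prop)).differentiableOn
        rw [tay_congr h1, tay_mul h2 hga, tay_tayMono]
      rw [← hG m (s i) (hs i), hV, mul_comm] at h1
      have hne : MvPowerSeries.monomial (toExp fun j => o j i) (1 : ℂ) ≠ 0 := by
        intro h0
        have := congrArg (MvPowerSeries.coeff (toExp fun j => o j i)) h0
        simp [MvPowerSeries.coeff_monomial_same] at this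
      have h2 : V = tay 0 g := mul_left_cancel₀ hne h1
      rw [← tay_coeff_zero hga, ← h2]
      exact hV0
    · rw [hfg y hy, sub_zero, mul_comm]
      rfl
  choose g hg hg0 hfg using hdiv
  have hev : ∀ᶠ y in 𝓝 (0 : Cn n), y ∈ ball (0 : Cn n) c.r ∧ ∀ i, g i y ≠ 0 := by
    refine Filter.Eventually.and (ball_mem_nhds (0 : Cn n) c.r_pos) ?_
    rw [Filter.eventually_all]
    intro i
    exact ((hg i).continuousOn.continuousAt (ball_mem_nhds 0 c.r_pos)).eventually_ne (hg0 i)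
  obtain ⟨ρ, hρ, hball⟩ := Metric.eventually_nhds_iff_ball.1 hev
  have hsub : ball (0 : Cn n) ρ ⊆ ball (0 : Cn n) c.r := fun y hy => (hball y hy).1
  refine ⟨{ ρ := ρ, σ := c.π, k := c.k, o := o, UJ := c.unit, U := g, nA := c.inj.choose,
            A := c.inj.choose_spec.choose }, ?_, rfl, rfl, c.center⟩
  exact
    { ρ_pos := hρ
      hol := c.hol.mono hsub
      maps := fun y hy => c.maps (hsub hy)
      jac := fun y hy => c.jac_eq y (hsub hy)
      UJ_cont := (c.unit_hol.mono hsub).continuousOn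
      UJ_ne := fun y hy => c.unit_ne y (hsub hy)
      mono := fun i y hy => hfg i y (hsub hy)
      U_cont := fun i => ((hg i).mono hsub).continuousOn
      U_ne := fun i y hy => (hball y hy).2 i
      A_meas := c.inj.choose_spec.choose_spec.1
      A_inj := c.inj.choose_spec.choose_spec.2.1
      A_cov := fun y hy hj => by
        have := c.inj.choose_spec.choose_spec.2.2
          (show y ∈ {y | y ∈ ball (0 : Cn n) c.r ∧ cjac c.π y ≠ 0} from ⟨hsub hy, hj⟩)
        exact Set.mem_iUnion.1 this }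

end leaves

/-! ### 4. the numerical parameters -/

theorem bt_numerics {N : ℕ} (m k₀ mm : ℕ) (hk₀ : 1 ≤ k₀) (b q : Fin N → ℝ) (η : ℝ)
    (hq1 : ∃ i, 0 < q i)
    (hbud : ∀ i, 0 < q i → (1 - η) * (m * ∑ i', b i') + η * (m / q i) < mm) :
    ∃ (ν : Fin N → ℝ) (ub ε c : ℝ), 0 < ε ∧ 0 < c ∧ (∀ i, 0 < q i → 0 ≤ ν i) ∧
      (∀ i, 0 < q i → m / q i + ν i * k₀ = ub) ∧
      (1 - η) * (m * ∑ i, b i) + η * ub + ε * (Fintype.card (Fin N) * m) + c * k₀ = mm := by
  classical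
  obtain ⟨i₁, hi₁, hmax⟩ := Finset.exists_max_image (Finset.univ.filter fun i => 0 < q i)
    (fun i => (m : ℝ) / q i) (by obtain ⟨i, hi⟩ := hq1; exact ⟨i, by simp [hi]⟩)
  have hi₁' : 0 < q i₁ := (Finset.mem_filter.1 hi₁).2
  obtain ⟨ub, hub⟩ : ∃ ub : ℝ, ub = m / q i₁ := ⟨_, rfl⟩
  obtain ⟨gap, hgapd⟩ : ∃ gap : ℝ, gap = mm - ((1 - η) * (m * ∑ i, b i) + η * ub) := ⟨_, rfl⟩
  have hgap : 0 < gap := by
    rw [hgapd, hub]
    exact sub_pos.2 (hbud i₁ hi₁')
  have hk : (0 : ℝ) < k₀ := by exact_mod_cast hk₀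
  obtain ⟨A, hAd⟩ : ∃ A : ℝ, A = (Fintype.card (Fin N) : ℝ) * m := ⟨_, rfl⟩
  have hA : 0 ≤ A := by rw [hAd]; positivity
  refine ⟨fun i => (ub - m / q i) / k₀, ub, gap / (2 * (A + 1)),
    (gap - gap / (2 * (A + 1)) * A) / k₀, by positivity, ?_, ?_, ?_, ?_⟩
  · apply div_pos _ hk
    have : gap / (2 * (A + 1)) * A < gap := by
      rw [div_mul_eq_mul_div, div_lt_iff₀ (by positivity)]
      nlinarith
    linarith
  · intro i hi
    refine div_nonneg (sub_nonneg.2 ?_) hk.le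
    rw [hub]
    exact hmax i (by simp [hi])
  · intro i _
    rw [div_mul_cancel₀ _ hk.ne']
    ring
  · rw [div_mul_cancel₀ _ hk.ne', ← hAd, hgapd]
    ring

/-! ### 5. the bridge -/

section bridge

variable {K : Type*} [Field K] [Algebra ℂ K] {S : SecRing K}

/-- **(LT) from the global lifting principle.** -/
theorem bridge_LT (L : LocReal S n) (mm : ℕ) (Gen : Prop) (hGL : L.GlobLift mm Gen) (m : ℕ)
    (s : Fin (S.N m) → K) (hs : S.IsBasis m s) (F : CellFam L m s) :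
    LTClause L mm Gen m s F.data := by
  intro b q η θ hb hq hq1 hη hη1 hθ hbud hbq hex hcone
  obtain ⟨G, k, o, u, -, ⟨c, hck, hrep⟩, hmono, hu, hu0, hexact⟩ := hex
  obtain ⟨𝔩₀, hgood₀, hk₀, ho₀, hσ₀⟩ := bt_exact_leaf hs.1 c G hrep o hmono
  obtain ⟨ν, ub, ε, cc, hε, hcc, hν, hub, hdeg⟩ := bt_numerics m L.k₀ mm L.hk₀ b q η hq1 hbud
  obtain ⟨i₀, hi₀⟩ := hq1
  let T : TropData n (S.N m) :=
    { r0 := L.r₀, f := fun i => L.hol m (s i), e := L.hol L.k₀ (L.σ 0), nl := F.nl, lf := F.btLeaf,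
      att := 𝔩₀, u := u, μ := (m : ℝ) / L.k₀, b := b, q := q, ν := ν, η := η, θ := θ, ε := ε,
      c := cc, i₀ := i₀ }
  have hT : T.Ok :=
    { r0_pos := L.r₀_pos
      f_hol := fun i => L.hol_diff m (s i) (hs.1 i)
      e_hol := L.hol_diff _ _ (L.σ_mem 0)
      e_ne := L.σ_ne
      good := F.btLeaf_good
      cover := F.cover
      b_pos := hb
      q_nonneg := hq
      q_pos := hi₀
      η_pos := hη
      η_lt := hη1
      θ_pos := hθ
      ε_pos := hε
      c_pos := hcc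
      sum_bq := hbq
      cone := bt_coneHyp F hs.1 b q η θ hcone
      att_good := hgood₀
      att_zero := hσ₀
      u_nonneg := hu
      u_ne := hu0
      att_eq := fun i => by
        show ow 𝔩₀.o u i = disc 𝔩₀.k u * q i
        rw [ho₀, hk₀, hck]
        exact hexact i }
  have hLL := trop_locLift hT
  refine hGL (Fin (S.N m) ⊕ Fin (n + 1)) (Sum.elim (fun _ => m) (fun _ => L.k₀))
    (Sum.elim s L.btTau)
    (fun v => wtT ((m : ℝ) / L.k₀) b q ν η ε cc (fun i => v (Sum.inl i)) (fun j => v (Sum.inr j)))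
    ?_ ?_ ?_ ?_
  · rintro (i | j)
    · exact hs.1 i
    · exact bt_tau_mem L j
  · rintro (i | j)
    · exact hs.2.ne_zero i
    · exact bt_tau_ne L j
  · have := uwt_wtT (n := n) m L.k₀ L.hk₀ b q ν η ε cc ub (fun i => (hb i).le) ⟨i₀, hi₀⟩ hη.le
      hη1.le hε.le hcc.le hν hub
    rw [hdeg] at this
    exact this
  · have hD : {z | z ∈ ball (0 : Cn n) L.r₀ ∧ ∀ i : Fin (S.N m) ⊕ Fin (n + 1),
        L.hol (Sum.elim (fun _ => m) (fun _ => L.k₀) i) (Sum.elim s L.btTau i) z ≠ 0} = T.D0 := by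
      ext z
      constructor
      · rintro ⟨h1, h2⟩
        exact ⟨h1, fun i => h2 (Sum.inl i)⟩
      · rintro ⟨h1, h2⟩
        refine ⟨h1, ?_⟩
        rintro (i | j)
        · exact h2 i
        · exact bt_tau_hol_ne L h1 j
    rw [hD]
    have hopen : IsOpen T.D0 := bt_D0_isOpen fun i => (L.hol_diff m (s i) (hs.1 i)).continuousOn
    refine bt_locLift_congr hopen (fun z hz => ?_) hLL
    show wtT ((m : ℝ) / L.k₀) b q ν η ε cc (fun i => L.hol m (s i) z)
        (zetaOf (L.r₀ : ℂ) (L.hol L.k₀ (L.σ 0)) z)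
      = wtT ((m : ℝ) / L.k₀) b q ν η ε cc (fun i => L.hol m (s i) z)
        (fun j => L.hol L.k₀ (L.btTau j) z)
    congr 1
    funext j
    exact (bt_tau_hol L hz.1 j).symm

end bridge

end Claimed.Agent.R242
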