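/-
Row 242 (S0480), package LIFT, sub-package ORD (LIFT 1 = analytic half of Proposition 3.2).     Architect: helper71.

GOAL (file `Lift/Ord.lean`):   `ord_locLift : OrdCfg n h r0 f w β → … → LocLift r0 D0 (wtO ∘ (f, zetaOf e))`.

THE ARGUMENT (replaces the blow-up, the two degenerations and Kawamata-Viehweg of the paper).
 `f k` (`k : Fin n`) holomorphic on the polydisc `ball 0 r0`; all exponents of `tay 0 (f k)` have degree `≥ n h`; `β k` is an exponent of degree `n h`,
 the unique `w`-minimal one among those of degree `n h`; `β k i < h` for `i ≠ k`.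
 (1) `v i = N + w i`, `N > max_k <w, β k>`: then `β k` is the UNIQUE `v`-minimal exponent of `tay 0 (f k)`                       [`ord_cfg_weights`]
 (2) family `P_k(z,s) = s^(-d_k) f_k(s^v z)`, `d_k = <v, β k>`, `(s^v z)_i = s^(v i) z_i`; as a power series
     `P_k(z,s) = ∑_γ c_γ s^(<v,γ> - d_k) z^γ`: jointly continuous on `ball 0 r0 × [0,1]` (M-test), holomorphic in `z`,
     `P_k(z,0) = c_(β k) z^(β k)`                                                                                            [`OrdFam`]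
 (3) `(∑_k |c_k z^(β k)|²)^(-1/h)` is integrable near every `ζ ≠ 0`: if `ζ_k ≠ 0` it is `≤ C ∏_(i≠k) |z_i|^(-2 β k i / h)`, all exponents `< 1`   [`ord_mono_int`]
 (4) SC (`semicontinuity`) + compactness of the annulus `{ρ/2 ≤ ‖z‖ ≤ ρ}`: for small `s > 0`, `(∑_k |P_k(z,s)|²)^(-1/h)` is integrable on the annulus   [`ord_sc_compact`]
 (5) diagonal change of variables: `(∑_k |f_k|²)^(-1/h)` is integrable on the DISTORTED annulus `ordAnn r`, `r j = ρ s^(v j)`              [`ord_annulus_int`]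
 (6) cut-off with polyradius `chiP r` (`Lift/Cutoff`, proved); `∂̄ chiP r` is bounded and supported in `ordAnn r`; Levi form of the weight `≥ c |a|²/(1+∑|z_j+C|²)²` (`Lift/Weights`, proved)
 (7) `|f_k| ≤ C ‖z‖^(n h)`, so `e^{-φ} ≥ c' ‖z‖^(-2n)`, not integrable at `0` (Howald with the monomials `z_i^n`)                        [`ord_bound`, `ord_div`]
-/
import Claimed.Agent.R242.Lift.Weights
import Claimed.Agent.R242.Lift.Cutoff
import Claimed.Agent.R242.Tay.Main

set_option autoImplicit false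

open MeasureTheory Complex Metric
open scoped ContDiff ComplexConjugate ENNReal Topology

namespace Claimed.Agent.R242

variable {n : ℕ}

/-- weighted degree `<v, γ>` -/
def ordDeg (v : Fin n → ℕ) (γ : Fin n →₀ ℕ) : ℕ := ∑ i, v i * γ i

/-- the diagonal dilation `(s^v z)_i = s^(v i) z_i` -/
noncomputable def ordDgl (v : Fin n → ℕ) (s : ℝ) (z : Cn n) : Cn n := fun i => (s : ℂ) ^ v i * z i

/-- clamp to `[0,1]` -/
noncomputable def ordClp (s : ℝ) : ℝ := max 0 (min s 1)

/-- the series `∑_γ c_γ t^(<v,γ> - d) z^γ` (natural subtraction) -/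
noncomputable def ordSer (F : MvPowerSeries (Fin n) ℂ) (v : Fin n → ℕ) (d : ℕ) (t : ℝ) :
    MvPowerSeries (Fin n) ℂ :=
  fun γ => MvPowerSeries.coeff γ F * (t : ℂ) ^ (ordDeg v γ - d)

/-- the degenerating family `P(z,s) = s^(-d) F(s^v z)`, defined for all real `s` through the clamp -/
noncomputable def ordDil (F : MvPowerSeries (Fin n) ℂ) (v : Fin n → ℕ) (d : ℕ) (z : Cn n) (s : ℝ) : ℂ :=
  tayEval (ordSer F v d (ordClp s)) z

/-- the closed distorted annulus of multiradius `r` -/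
def ordAnn (r : Fin n → ℝ) : Set (Cn n) := {z | (∀ j, ‖z j‖ ≤ r j) ∧ ∃ j, r j / 2 ≤ ‖z j‖}

/-- the good configuration of Proposition 3.2 (hypotheses of `Lift32Clause`, for the functions `f k = hol D (r k)`) -/
structure OrdCfg (n h : ℕ) (r0 : ℝ) (f : Fin n → Cn n → ℂ) (w : Fin n → ℕ)
    (β : Fin n → (Fin n →₀ ℕ)) : Prop where
  hn : 1 ≤ n
  hh : 1 ≤ h
  r0_pos : 0 < r0
  hol : ∀ k, DifferentiableOn ℂ (f k) (ball 0 r0)
  lead : ∀ k, MvPowerSeries.coeff (β k) (tay 0 (f k)) ≠ 0
  deg : ∀ k, ∑ i, β k i = n * h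
  small : ∀ k i, i ≠ k → β k i < h
  mult : ∀ k γ, MvPowerSeries.coeff γ (tay 0 (f k)) ≠ 0 → n * h ≤ ∑ i, γ i
  init : ∀ k γ, MvPowerSeries.coeff γ (tay 0 (f k)) ≠ 0 → ∑ i, γ i = n * h → γ ≠ β k →
    ∑ i, w i * β k i < ∑ i, w i * γ i

/-- the domain of the weight -/
def ordD0 (r0 : ℝ) (f : Fin n → Cn n → ℂ) : Set (Cn n) := {z | z ∈ ball (0 : Cn n) r0 ∧ ∀ k, f k z ≠ 0}

/-- the weight of LIFT 1 -/
noncomputable def ordPhi (h : ℕ) (c : ℝ) (C : ℂ) (f : Fin n → Cn n → ℂ) (e : Cn n → ℂ) (z : Cn n) : ℝ :=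
  wtO (h : ℝ) c (fun k => f k z) (zetaOf C e z)

theorem ord_coeff_ser (F : MvPowerSeries (Fin n) ℂ) (v : Fin n → ℕ) (d : ℕ) (t : ℝ) (γ : Fin n →₀ ℕ) :
    MvPowerSeries.coeff γ (ordSer F v d t) = MvPowerSeries.coeff γ F * (t : ℂ) ^ (ordDeg v γ - d) := rfl

theorem ordClp_nonneg (s : ℝ) : 0 ≤ ordClp s := le_max_left _ _

theorem ordClp_le_one (s : ℝ) : ordClp s ≤ 1 := max_le zero_le_one (min_le_right _ _)

theorem ordClp_zero : ordClp 0 = 0 := by simp [ordClp]

theorem ordClp_of_mem {s : ℝ} (h0 : 0 ≤ s) (h1 : s ≤ 1) : ordClp s = s := by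
  simp [ordClp, h0, h1]

theorem ordClp_continuous : Continuous ordClp := continuous_const.max (continuous_id.min continuous_const)

end Claimed.Agent.R242

/-! equation lemmas of this file, cited once here (rule 6) -/
namespace Claimed.Agent.R242

theorem r242_eqcite_Lift_OrdDefs : True := by
  have := @Claimed.Agent.R242.ordAnn.eq_1
  have := @Claimed.Agent.R242.ordDil.eq_1
  have := @Claimed.Agent.R242.ordClp.eq_1
  have := @Claimed.Agent.R242.ordDgl.eq_1
  have := @Claimed.Agent.R242.ordDeg.eq_1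
  have := @Claimed.Agent.R242.ordD0.eq_1
  have := @Claimed.Agent.R242.ordPhi.eq_1
  have := @Claimed.Agent.R242.ordSer.eq_1
  trivial

end Claimed.Agent.R242
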