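/-
Row 242 (S0480), LIFT / ORD: the degenerating family.      Architect: helper71.      Paper-free; Mathlib + package TAY (statements of `Tay/Series`, `Tay/Mono`, `Tay/Basic`).

LEAF ORD-FAM-A  = `ord_cfg_weights`, `ord_tayMono_dgl`, `ord_dil_zero`, `ord_dil_pos`, `ord_norm_dgl_le`      (algebra, ~120 lines)
LEAF ORD-FAM-B  = `ord_ser_conv`, `ord_dil_differentiableOn`, `ord_dil_continuousOn`                          (M-test, ~150 lines)

PLANS.
* `ord_cfg_weights`: `N := 1 + ∑ k, ∑ i, w i * β k i`, `v i := N + w i`.  `ordDeg v γ = N * ∑ γ i + ∑ w i * γ i` (`Finset.sum_add_distrib`, `add_mul`, `Finset.mul_sum`).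
  Case `∑ γ i = n h`: use `H.init`.  Case `n h < ∑ γ i` (`H.mult`): `N * (n h + 1) ≤ N * ∑ γ i` and `∑ w i * β k i < N` (`Finset.single_le_sum`).
* `ord_tayMono_dgl`: `tayMono γ (ordDgl v s z) = ∏ (s^(v i) * z i)^(γ i) = s^(∑ v i * γ i) * ∏ z i^(γ i)` (`mul_pow`, `← pow_mul`, `Finset.prod_mul_distrib`, `Finset.prod_pow_eq_pow_sum`).
* `ord_dil_zero`: unfold `ordDil`, `tayEval`, `ord_coeff_ser`, `ordClp_zero`; `tsum_eq_single β`; for `γ ≠ β`: either `coeff γ F = 0` or `0 < ordDeg v γ - d`, `zero_pow`.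
* `ord_dil_pos`: `ordClp_of_mem`; `← tsum_mul_left`; termwise: if `coeff γ F = 0` both sides vanish, else `s^d * s^(ordDeg v γ - d) = s^(ordDeg v γ)` (`← pow_add`, `Nat.add_sub_cancel'`), `ord_tayMono_dgl`.
* `ord_ser_conv`: `‖coeff γ (ordSer F v d t)‖ ≤ ‖coeff γ F‖` for `|t| ≤ 1` (`pow_le_one₀`); `Summable.of_nonneg_of_le`.
* `ord_dil_differentiableOn`: `TayConv.differentiableOn (ord_ser_conv ..)`  (see its statement in `Tay/Series`).
* `ord_dil_continuousOn`: it suffices to prove `ContinuousOn` on `closedBall 0 ρ ×ˢ univ` for every `ρ < r` (a point `(z,s)` with `‖z‖ < r` has the neighbourhood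
  `ball 0 ρ ×ˢ univ`, `ρ = (‖z‖ + r)/2`: `ContinuousOn.continuousAt` + `ContinuousAt.continuousWithinAt`).  There: `continuousOn_tsum` with
  `u γ = ‖coeff γ F‖ * ρ ^ γ.degree` (summable by `hF ρ`), terms continuous (`tayMono_differentiable.continuous`, `ordClp_continuous`, `Complex.continuous_ofReal`),
  bound by `norm_tayMono_le_norm` / `norm_tayMono_le`, `pow_le_one₀`.
-/
import Claimed.Agent.R242.Lift.OrdDefs

set_option autoImplicit false

open MeasureTheory Complex Metric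
open scoped ContDiff ComplexConjugate ENNReal Topology

namespace Claimed.Agent.R242

variable {n : ℕ}

theorem ord_deg_add (N : ℕ) (w : Fin n → ℕ) (γ : Fin n →₀ ℕ) :
    ordDeg (fun i => N + w i) γ = N * ∑ i, γ i + ∑ i, w i * γ i := by
  unfold ordDeg
  simp only [add_mul]
  rw [Finset.sum_add_distrib, Finset.mul_sum]

/-- (1) weights for which `β k` is the unique minimal exponent of `tay 0 (f k)` -/
theorem ord_cfg_weights {h : ℕ} {r0 : ℝ} {f : Fin n → Cn n → ℂ} {w : Fin n → ℕ}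
    {β : Fin n → (Fin n →₀ ℕ)} (H : OrdCfg n h r0 f w β) :
    ∃ v : Fin n → ℕ, ∀ k γ, MvPowerSeries.coeff γ (tay 0 (f k)) ≠ 0 → γ ≠ β k →
      ordDeg v (β k) < ordDeg v γ := by
  obtain ⟨N, hN⟩ : ∃ N : ℕ, N = 1 + ∑ k, ∑ i, w i * β k i := ⟨_, rfl⟩
  refine ⟨fun i => N + w i, fun k γ hγ hne => ?_⟩
  rw [ord_deg_add, ord_deg_add, H.deg k]
  have hk : ∑ i, w i * β k i < N := by
    have := Finset.single_le_sum (f := fun k => ∑ i, w i * β k i) (fun _ _ => Nat.zero_le _)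
      (Finset.mem_univ k)
    omega
  rcases (H.mult k γ hγ).eq_or_lt with he | hlt
  · rw [← he]
    exact Nat.add_lt_add_left (H.init k γ hγ he.symm hne) _
  · have h1 : N * (n * h + 1) ≤ N * ∑ i, γ i := Nat.mul_le_mul_left _ hlt
    rw [Nat.mul_add, Nat.mul_one] at h1
    omega

theorem ord_tayMono_dgl (v : Fin n → ℕ) (s : ℝ) (γ : Fin n →₀ ℕ) (z : Cn n) :
    tayMono γ (ordDgl v s z) = (s : ℂ) ^ ordDeg v γ * tayMono γ z := by
  unfold tayMono ordDgl ordDeg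
  simp only [mul_pow, ← pow_mul]
  rw [Finset.prod_mul_distrib, Finset.prod_pow_eq_pow_sum]

theorem ord_norm_dgl_le (v : Fin n → ℕ) {s : ℝ} (h0 : 0 ≤ s) (h1 : s ≤ 1) (z : Cn n) :
    ‖ordDgl v s z‖ ≤ ‖z‖ := by
  rw [pi_norm_le_iff_of_nonneg (norm_nonneg z)]
  intro i
  unfold ordDgl
  rw [norm_mul, norm_pow, Complex.norm_real, Real.norm_of_nonneg h0]
  calc s ^ v i * ‖z i‖ ≤ 1 * ‖z i‖ :=
        mul_le_mul_of_nonneg_right (pow_le_one₀ h0 h1) (norm_nonneg _)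
    _ = ‖z i‖ := one_mul _
    _ ≤ ‖z‖ := norm_le_pi_norm z i

/-- the special fibre is the initial monomial -/
theorem ord_dil_zero (F : MvPowerSeries (Fin n) ℂ) (v : Fin n → ℕ) (β : Fin n →₀ ℕ)
    (h : ∀ γ, MvPowerSeries.coeff γ F ≠ 0 → γ ≠ β → ordDeg v β < ordDeg v γ) (z : Cn n) :
    ordDil F v (ordDeg v β) z 0 = MvPowerSeries.coeff β F * tayMono β z := by
  unfold ordDil tayEval
  rw [ordClp_zero, tsum_eq_single β]
  · rw [ord_coeff_ser, Nat.sub_self, pow_zero, mul_one]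
  · intro γ hγ
    rw [ord_coeff_ser]
    by_cases hc : MvPowerSeries.coeff γ F = 0
    · rw [hc, zero_mul, zero_mul]
    · have h1 := h γ hc hγ
      have h2 : ordDeg v γ - ordDeg v β ≠ 0 := by omega
      rw [Complex.ofReal_zero, zero_pow h2, mul_zero, zero_mul]

/-- the general fibre is the dilated function -/
theorem ord_dil_pos (F : MvPowerSeries (Fin n) ℂ) (v : Fin n → ℕ) (d : ℕ)
    (h : ∀ γ, MvPowerSeries.coeff γ F ≠ 0 → d ≤ ordDeg v γ) {s : ℝ} (h0 : 0 ≤ s) (h1 : s ≤ 1)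
    (z : Cn n) :
    (s : ℂ) ^ d * ordDil F v d z s = tayEval F (ordDgl v s z) := by
  unfold ordDil tayEval
  rw [ordClp_of_mem h0 h1, ← tsum_mul_left]
  refine tsum_congr fun γ => ?_
  rw [ord_coeff_ser, ord_tayMono_dgl]
  by_cases hc : MvPowerSeries.coeff γ F = 0
  · rw [hc]
    ring
  · have h2 : (s : ℂ) ^ ordDeg v γ = (s : ℂ) ^ d * (s : ℂ) ^ (ordDeg v γ - d) := by
      rw [← pow_add, Nat.add_sub_cancel' (h γ hc)]
    rw [h2]
    ring

theorem ord_norm_coeff_ser_le (F : MvPowerSeries (Fin n) ℂ) (v : Fin n → ℕ) (d : ℕ) {t : ℝ}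
    (h0 : 0 ≤ t) (h1 : t ≤ 1) (γ : Fin n →₀ ℕ) :
    ‖MvPowerSeries.coeff γ (ordSer F v d t)‖ ≤ ‖MvPowerSeries.coeff γ F‖ := by
  rw [ord_coeff_ser, norm_mul, norm_pow, Complex.norm_real, Real.norm_of_nonneg h0]
  calc ‖MvPowerSeries.coeff γ F‖ * t ^ (ordDeg v γ - d) ≤ ‖MvPowerSeries.coeff γ F‖ * 1 :=
        mul_le_mul_of_nonneg_left (pow_le_one₀ h0 h1) (norm_nonneg _)
    _ = _ := mul_one _

theorem ord_ser_conv {F : MvPowerSeries (Fin n) ℂ} {r : ℝ} (hF : TayConv F r) (v : Fin n → ℕ)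
    (d : ℕ) {t : ℝ} (h0 : 0 ≤ t) (h1 : t ≤ 1) : TayConv (ordSer F v d t) r := by
  intro ρ hρ0 hρ
  refine Summable.of_nonneg_of_le (fun γ => by positivity) (fun γ => ?_) (hF ρ hρ0 hρ)
  exact mul_le_mul_of_nonneg_right (ord_norm_coeff_ser_le F v d h0 h1 γ) (by positivity)

theorem ord_dil_differentiableOn {F : MvPowerSeries (Fin n) ℂ} {r : ℝ} (hF : TayConv F r)
    (v : Fin n → ℕ) (d : ℕ) (s : ℝ) :
    DifferentiableOn ℂ (fun z => ordDil F v d z s) (ball 0 r) :=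
  (ord_ser_conv hF v d (ordClp_nonneg s) (ordClp_le_one s)).differentiableOn

theorem ord_dil_continuousOn {F : MvPowerSeries (Fin n) ℂ} {r : ℝ} (hF : TayConv F r)
    (v : Fin n → ℕ) (d : ℕ) :
    ContinuousOn (fun q : Cn n × ℝ => ordDil F v d q.1 q.2) (ball 0 r ×ˢ Set.univ) := by
  have key : ∀ ρ : ℝ, 0 ≤ ρ → ρ < r →
      ContinuousOn (fun q : Cn n × ℝ => ordDil F v d q.1 q.2) (closedBall 0 ρ ×ˢ Set.univ) := by
    intro ρ hρ0 hρ
    unfold ordDil tayEval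
    refine continuousOn_tsum (u := fun γ => ‖MvPowerSeries.coeff γ F‖ * ρ ^ γ.degree)
      (fun γ => ?_) (hF ρ hρ0 hρ) (fun γ q hq => ?_)
    · simp only [ord_coeff_ser]
      have c1 : Continuous fun q : Cn n × ℝ => ((ordClp q.2 : ℝ) : ℂ) :=
        Complex.continuous_ofReal.comp (ordClp_continuous.comp continuous_snd)
      have c2 : Continuous fun q : Cn n × ℝ => tayMono γ q.1 :=
        (tayMono_differentiable γ).continuous.comp continuous_fst
      exact ((continuous_const.mul (c1.pow _)).mul c2).continuousOn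
    · rw [norm_mul]
      have hz : ‖q.1‖ ≤ ρ := mem_closedBall_zero_iff.1 hq.1
      exact mul_le_mul (ord_norm_coeff_ser_le F v d (ordClp_nonneg _) (ordClp_le_one _) γ)
        (norm_tayMono_le γ fun i => (norm_le_pi_norm q.1 i).trans hz) (norm_nonneg _)
        (norm_nonneg _)
  rintro ⟨z, s⟩ ⟨hz, -⟩
  have hz' : ‖z‖ < r := mem_ball_zero_iff.1 hz
  have h1 : ‖z‖ < (‖z‖ + r) / 2 := by linarith
  have h2 : (‖z‖ + r) / 2 < r := by linarith
  have h3 := key ((‖z‖ + r) / 2) ((norm_nonneg z).trans h1.le) h2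
  have hnhds : closedBall (0 : Cn n) ((‖z‖ + r) / 2) ×ˢ (Set.univ : Set ℝ) ∈ 𝓝 (z, s) := by
    apply prod_mem_nhds _ Filter.univ_mem
    exact Filter.mem_of_superset (isOpen_ball.mem_nhds (mem_ball_zero_iff.2 h1)) ball_subset_closedBall
  exact (h3.continuousAt hnhds).continuousWithinAt

end Claimed.Agent.R242
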