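/-
Row 242 (S0480), LIFT / ORD: integrability on the distorted annulus, divergence at the origin.      Architect: helper71.
Paper-free; Mathlib + `SCV/Howald` (proved), `SCV/Sc` (`sc_centred`, `sc_rpow_le_one_add`: proved), `SCV/Main.semicontinuity`, package TAY.

LEAF ORD-INT-MONO = `ord_mono_int`                               (~120 lines)
LEAF ORD-INT-SC   = `ord_sc_compact`                             (~90 lines; copy of the proof of `sc_compact` in `SCV/Sc.lean`)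
LEAF ORD-INT-CV   = `ord_cv_dgl`, `ord_dgl_image_ann`, `ord_ann_compact`, `ord_ann_zero_notMem`  (~120 lines)
LEAF ORD-INT-DIV  = `ord_bound`, `ord_div`                       (~150 lines)
GLUE              = `ord_annulus_int` (helper71)

PLANS.
* `ord_mono_int`.  Pick `k` with `ζ k ≠ 0` (`ζ ≠ 0`, `funext`).  `ρ := ‖ζ k‖ / 2`, `R := ‖ζ‖ + ρ`, so `ball ζ ρ ⊆ ball 0 R` and `ρ ≤ ‖z k‖` on `ball ζ ρ`
  (`norm_le_pi_norm (z - ζ) k`).  Pointwise on `ball ζ ρ`: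
    `sumPow 1 (cf · * tayMono (β ·) z) ≥ ofReal ‖cf k * tayMono (β k) z‖ ^ (2*1) ≥ ofReal (‖cf k‖² ρ^(2 β k k)) * ∏ i, ‖z i‖ₑ ^ (2 * b i)`,   `b i := if i = k then 0 else β k i`
  (`Finset.single_le_sum`, `norm_tayMono`), hence (`ENNReal.rpow_le_rpow_of_nonpos`/`ENNReal.rpow_neg`, antitone)
    `(sumPow ..)^(-(1/h)) ≤ C * (∑ _ : Fin 1, ∏ i, ‖z i‖ₑ ^ (2 * b i)) ^ (-(1/h))`,  `C = ofReal(..)^(-(1/h)) < ⊤`.
  Finiteness of `∫ ball 0 R` of the right side: `r242_howald (N := 1) (β := fun _ i => b i) (b := 0) (c := 1/h)`, criterion: `w ≥ 0`, `w ≠ 0`: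
  `(1/h) ∑ w i * b i < ∑ w i * (0 + 1)` because `b i / h < 1` for all `i` (`H.small`; `b k = 0`) and some `w i > 0` (`Finset.sum_lt_sum`).  (the factor `∏ ‖z i‖ₑ^(2*0) = 1`.)
* `ord_sc_compact`.  `hSC : ScAt a c s₀ n := fun R hR g hg hint => semicontinuity n R hR a ha g hg.cont hg.holo c hc s₀ hint` (`scP` and `sumPow` have the same body: `rfl`/`unfold`).
  `IsCompact.induction_on` with `p K' := ∃ M < ⊤, ∀ᶠ s in 𝓝 s₀, ∫⁻ z in K', (..)^(-c) ≤ M`  (empty, mono, union as in `sc_compact`).  Local step at `ζ ∈ K`: `ρ' := min ρ (R - ‖ζ‖)`;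
  `sc_centred hSC ζ ρ' _ g (family on ball ζ ρ' ⊆ ball 0 R) (hint restricted)` gives `ε, r, M`; then `x^(-c) ≤ 1 + x^(-(c+ε))` (`sc_rpow_le_one_add`), bound `volume (ball ζ r) + M`.
* `ord_cv_dgl`.  `r242_lintegral_image_holo K hK (ordDgl v s) (fun _ => L) ..` with `L : Cn n →L[ℂ] Cn n` the diagonal map (`ContinuousLinearMap.pi fun i => (s:ℂ)^(v i) • ContinuousLinearMap.proj i`),
  `L.hasFDerivAt.hasFDerivWithinAt`, injective since `s ≠ 0`; `L.det = ∏ (s:ℂ)^(v i)` (`cjac_diag` of `Tay/Jac` gives `cjac (fun z => c * z) y = ∏ c j`; or `LinearMap.det_toLin'`/`Matrix.det_diagonal`);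
  `‖∏ (s:ℂ)^(v i)‖ₑ^2 = ofReal (∏ s^(2 * v i))`; `lintegral_const_mul'`.
* `ord_dgl_image_ann`.  `z ↦ ordDgl v s z` is a bijection with inverse `y i / s^(v i)`; `‖(ordDgl v s z) j‖ = s^(v j) ‖z j‖`.
* `ord_ann_compact`: closed (finite intersections/unions of closed sets: `isClosed_le`) and contained in `closedBall 0 (∑ |r j|)` or `Metric.isCompact_of_isClosed_isBounded`.
* `ord_bound`.  `F := tay 0 f`, `hF := tay_conv hf`, `C := (∑' γ, ‖coeff γ F‖ * ρ ^ γ.degree) / ρ ^ d`.  For `‖z‖ ≤ ρ`: `f z = ∑' coeff γ F * tayMono γ z` (`tay_hasSum`, `sub_zero`),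
  `‖coeff γ F * tayMono γ z‖ ≤ ‖coeff γ F‖ ‖z‖^|γ|` and for `coeff ≠ 0`: `‖z‖^|γ| = ‖z‖^d ‖z‖^(|γ|-d) ≤ ‖z‖^d ρ^(|γ|-d) = ‖z‖^d ρ^|γ| / ρ^d`;   `γ.degree = ∑ i, γ i` (`Finsupp.degree_eq_sum`).
  `norm_tsum_le_tsum_norm`, `Summable.tsum_le_tsum`, `tsum_mul_left`.
* `ord_div`.  `r242_howald (N := n) (β := fun k i => if i = k then n else 0) (b := 0) (c := 1) R`: the criterion FAILS for `w = 1` (`1 * n < n` is false), so the integral of
  `(∏ ‖z i‖ₑ^(2*0)) * (∑ k, ∏ i, ‖z i‖ₑ^(2 β k i))^(-1) = (∑ k, ‖z k‖ₑ^(2n))^(-1)` is `⊤`  (`NeZero n` from `1 ≤ n`).  Pointwise `(∑ k ‖z k‖ₑ^(2n))^(-1) ≤ ofReal ((‖z‖^(2n))⁻¹)` for `z ≠ 0`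
  (some `‖z k‖ = ‖z‖`: `Finset.exists_mem_eq_sup'`/`pi_norm`...), and `{0}` is a null set for `n ≥ 1` (or: at `z = 0` use a.e.).
-/
import Claimed.Agent.R242.Lift.OrdFam
import Claimed.Agent.R242.SCV.Sc

set_option autoImplicit false

open MeasureTheory Complex Metric
open scoped ContDiff ComplexConjugate ENNReal Topology

namespace Claimed.Agent.R242

variable {n : ℕ}

theorem ord_mono_rpow_anti {x y : ℝ≥0∞} (h : x ≤ y) {c : ℝ} (hc : 0 ≤ c) : y ^ (-c) ≤ x ^ (-c) := by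
  rw [ENNReal.rpow_neg, ENNReal.rpow_neg, ENNReal.inv_le_inv]
  exact ENNReal.rpow_le_rpow h hc

/-- (3) the monomial limit is integrable near every point `ζ ≠ 0` -/
theorem ord_mono_int (h : ℕ) (hh : 1 ≤ h) (β : Fin n → (Fin n →₀ ℕ))
    (hsmall : ∀ k i, i ≠ k → β k i < h) (cf : Fin n → ℂ) (hcf : ∀ k, cf k ≠ 0)
    (ζ : Cn n) (hζ : ζ ≠ 0) :
    ∃ ρ > 0, ∫⁻ z in ball ζ ρ,
      (sumPow (fun _ : Fin n => (1 : ℝ)) fun k => cf k * tayMono (β k) z) ^ (-(1 / (h : ℝ))) < ⊤ := by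
  classical
  obtain ⟨k, hk⟩ : ∃ k, ζ k ≠ 0 := by
    by_contra hcon
    push Not at hcon
    exact hζ (funext hcon)
  obtain ⟨ρ, hρdef⟩ : ∃ ρ : ℝ, ρ = ‖ζ k‖ / 2 := ⟨_, rfl⟩
  have hρ : 0 < ρ := by
    rw [hρdef]
    have := norm_pos_iff.2 hk
    positivity
  refine ⟨ρ, hρ, ?_⟩
  obtain ⟨bn, hbn⟩ : ∃ bn : Fin n → ℕ, bn = fun i => if i = k then 0 else β k i := ⟨_, rfl⟩
  have hbk : bn k = 0 := by rw [hbn]; simp
  have hbi : ∀ i, i ≠ k → bn i = β k i := fun i hi => by rw [hbn]; simp [hi]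
  have hblt : ∀ i, bn i < h := by
    intro i
    by_cases hi : i = k
    · rw [hi, hbk]; omega
    · rw [hbi i hi]; exact hsmall k i hi
  have hh0 : (0 : ℝ) < h := by exact_mod_cast hh
  have hc0 : (0 : ℝ) ≤ 1 / (h : ℝ) := by positivity
  have hR : 0 < ‖ζ‖ + ρ := by positivity
  -- Howald
  have hHow := (r242_howald (N := 1) (fun _ i => (bn i : ℝ)) (fun _ _ => Nat.cast_nonneg _)
    (fun _ => 0) (1 / (h : ℝ)) hc0 (‖ζ‖ + ρ) hR).2 (by
      intro w hw hw0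
      refine ⟨0, ?_⟩
      rw [Finset.mul_sum]
      obtain ⟨i₀, hi₀⟩ : ∃ i, w i ≠ 0 := by
        by_contra hcon
        push Not at hcon
        exact hw0 (funext hcon)
      have hterm : ∀ i, 1 / (h : ℝ) * (bn i : ℝ) < 1 := by
        intro i
        rw [one_div, inv_mul_lt_iff₀ hh0, mul_one]
        exact_mod_cast hblt i
      refine Finset.sum_lt_sum (fun i _ => ?_) ⟨i₀, Finset.mem_univ _, ?_⟩
      · have := mul_le_mul_of_nonneg_left (hterm i).le (hw i)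
        nlinarith
      · have hpos : 0 < w i₀ := lt_of_le_of_ne (hw i₀) (Ne.symm hi₀)
        have := mul_lt_mul_of_pos_left (hterm i₀) hpos
        nlinarith)
  simp only [mul_zero, ENNReal.rpow_zero, Finset.prod_const_one, one_mul, Finset.univ_unique,
    Finset.sum_const, Finset.card_singleton, one_smul] at hHow
  -- the constant
  obtain ⟨C₁, hC₁⟩ : ∃ C₁ : ℝ≥0∞, C₁ = (‖cf k‖ₑ * ENNReal.ofReal ρ ^ (β k k)) ^ (2 * (1 : ℝ)) :=
    ⟨_, rfl⟩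
  have hbase0 : ‖cf k‖ₑ * ENNReal.ofReal ρ ^ (β k k) ≠ 0 :=
    mul_ne_zero (enorm_ne_zero.2 (hcf k)) (pow_ne_zero _ (ENNReal.ofReal_pos.2 hρ).ne')
  have hbaset : ‖cf k‖ₑ * ENNReal.ofReal ρ ^ (β k k) ≠ ⊤ :=
    ENNReal.mul_ne_top enorm_ne_top (ENNReal.pow_ne_top ENNReal.ofReal_ne_top)
  have hC₁0 : C₁ ≠ 0 := by
    rw [hC₁]
    intro h0
    rw [ENNReal.rpow_eq_zero_iff] at h0
    rcases h0 with h0 | h0
    · exact hbase0 h0.1
    · exact hbaset h0.1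
  have hC₁t : C₁ ≠ ⊤ := by
    rw [hC₁]
    exact ENNReal.rpow_ne_top_of_nonneg (by norm_num) hbaset
  have hCc : C₁ ^ (-(1 / (h : ℝ))) ≠ ⊤ := ENNReal.rpow_ne_top_of_ne_zero hC₁0 hC₁t
  have hTt : ∀ z : Cn n, ∏ i, ‖z i‖ₑ ^ (2 * (bn i : ℝ)) ≠ ⊤ := fun z =>
    ENNReal.prod_ne_top fun i _ => ENNReal.rpow_ne_top_of_nonneg (by positivity) enorm_ne_top
  -- pointwise bound
  have hpt : ∀ z ∈ ball ζ ρ,
      (sumPow (fun _ : Fin n => (1 : ℝ)) fun k => cf k * tayMono (β k) z) ^ (-(1 / (h : ℝ)))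
        ≤ C₁ ^ (-(1 / (h : ℝ))) * (∏ i, ‖z i‖ₑ ^ (2 * (bn i : ℝ))) ^ (-(1 / (h : ℝ))) := by
    intro z hz
    rw [← ENNReal.mul_rpow_of_ne_top hC₁t (hTt z)]
    refine ord_mono_rpow_anti ?_ hc0
    have hzk : ENNReal.ofReal ρ ≤ ‖z k‖ₑ := by
      rw [← ofReal_norm]
      apply ENNReal.ofReal_le_ofReal
      have h1 : ‖(z - ζ) k‖ ≤ ‖z - ζ‖ := norm_le_pi_norm (z - ζ) k
      have h2 : ‖z - ζ‖ < ρ := mem_ball_iff_norm.1 hz
      have h3 : ‖ζ k‖ ≤ ‖z k‖ + ‖(z - ζ) k‖ := by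
        have : ζ k = z k - (z - ζ) k := by simp
        rw [this]
        exact norm_sub_le _ _
      linarith
    have e1 : ∏ i, ‖z i‖ₑ ^ (2 * (bn i : ℝ)) = (∏ i, ‖z i‖ₑ ^ (bn i)) ^ (2 * (1 : ℝ)) := by
      rw [← ENNReal.prod_rpow_of_nonneg (by norm_num : (0 : ℝ) ≤ 2 * 1)]
      refine Finset.prod_congr rfl fun i _ => ?_
      rw [← ENNReal.rpow_natCast, ← ENNReal.rpow_mul]
      congr 1
      ring
    have e2 : ‖cf k * tayMono (β k) z‖ₑ = ‖cf k‖ₑ * ∏ i, ‖z i‖ₑ ^ (β k i) := by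
      unfold tayMono
      rw [enorm_mul]
      congr 1
      simp only [enorm_eq_nnnorm, nnnorm_prod, nnnorm_pow]
      push_cast
      rfl
    have e3 : ENNReal.ofReal ρ ^ (β k k) * ∏ i, ‖z i‖ₑ ^ (bn i) ≤ ∏ i, ‖z i‖ₑ ^ (β k i) := by
      rw [← Finset.mul_prod_erase Finset.univ _ (Finset.mem_univ k),
        ← Finset.mul_prod_erase Finset.univ (fun i => ‖z i‖ₑ ^ (β k i)) (Finset.mem_univ k), hbk,
        pow_zero, one_mul]
      refine mul_le_mul' (pow_le_pow_left' hzk _) (le_of_eq ?_)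
      refine Finset.prod_congr rfl fun i hi => ?_
      rw [hbi i (Finset.ne_of_mem_erase hi)]
    calc C₁ * ∏ i, ‖z i‖ₑ ^ (2 * (bn i : ℝ))
        = (‖cf k‖ₑ * ENNReal.ofReal ρ ^ (β k k) * ∏ i, ‖z i‖ₑ ^ (bn i)) ^ (2 * (1 : ℝ)) := by
          rw [hC₁, e1, ← ENNReal.mul_rpow_of_nonneg _ _ (by norm_num : (0 : ℝ) ≤ 2 * 1)]
      _ ≤ (‖cf k * tayMono (β k) z‖ₑ) ^ (2 * (1 : ℝ)) := by
          refine ENNReal.rpow_le_rpow ?_ (by norm_num)
          rw [e2, mul_assoc]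
          exact mul_le_mul' le_rfl e3
      _ ≤ _ := by
          unfold sumPow
          rw [← ofReal_norm]
          exact Finset.single_le_sum
            (f := fun k => ENNReal.ofReal ‖cf k * tayMono (β k) z‖ ^ (2 * (1 : ℝ)))
            (fun _ _ => bot_le) (Finset.mem_univ k)
  have hsub : ball ζ ρ ⊆ ball (0 : Cn n) (‖ζ‖ + ρ) := by
    intro z hz
    rw [mem_ball_zero_iff]
    have h2 : ‖z - ζ‖ < ρ := mem_ball_iff_norm.1 hz
    have h3 : ‖z‖ ≤ ‖ζ‖ + ‖z - ζ‖ := by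
      have : z = ζ + (z - ζ) := by abel
      conv_lhs => rw [this]
      exact norm_add_le _ _
    linarith
  calc ∫⁻ z in ball ζ ρ,
        (sumPow (fun _ : Fin n => (1 : ℝ)) fun k => cf k * tayMono (β k) z) ^ (-(1 / (h : ℝ)))
      ≤ ∫⁻ z in ball ζ ρ,
          C₁ ^ (-(1 / (h : ℝ))) * (∏ i, ‖z i‖ₑ ^ (2 * (bn i : ℝ))) ^ (-(1 / (h : ℝ))) :=
        setLIntegral_mono' isOpen_ball.measurableSet hpt
    _ ≤ ∫⁻ z in ball (0 : Cn n) (‖ζ‖ + ρ),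
          C₁ ^ (-(1 / (h : ℝ))) * (∏ i, ‖z i‖ₑ ^ (2 * (bn i : ℝ))) ^ (-(1 / (h : ℝ))) :=
        lintegral_mono_set hsub
    _ = C₁ ^ (-(1 / (h : ℝ))) * ∫⁻ z in ball (0 : Cn n) (‖ζ‖ + ρ),
          (∏ i, ‖z i‖ₑ ^ (2 * (bn i : ℝ))) ^ (-(1 / (h : ℝ))) := lintegral_const_mul' _ _ hCc
    _ < ⊤ := ENNReal.mul_lt_top hCc.lt_top hHow

/-- (4) SC + compactness -/
theorem ord_sc_compact {ι : Type*} [Fintype ι] (a : ι → ℝ) (ha : ∀ i, 0 < a i) (c : ℝ) (hc : 0 < c)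
    (R : ℝ) (g : ι → Cn n → ℝ → ℂ)
    (hgc : ∀ i, ContinuousOn (fun q : Cn n × ℝ => g i q.1 q.2) (ball 0 R ×ˢ Set.univ))
    (hgh : ∀ i s, DifferentiableOn ℂ (fun z => g i z s) (ball 0 R))
    (s₀ : ℝ) (K : Set (Cn n)) (hK : IsCompact K) (hKR : K ⊆ ball 0 R)
    (hloc : ∀ ζ ∈ K, ∃ ρ > 0, ∫⁻ z in ball ζ ρ, (sumPow a fun i => g i z s₀) ^ (-c) < ⊤) :
    ∃ M : ℝ≥0∞, M < ⊤ ∧ ∀ᶠ s in 𝓝 s₀, ∫⁻ z in K, (sumPow a fun i => g i z s) ^ (-c) ≤ M := by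
  have hSC : ScAt a c s₀ n := fun R hR g hg hint =>
    semicontinuity n R hR a ha g hg.cont hg.holo c hc s₀ hint
  have hfam : ScFam n 0 R g := ⟨hgc, hgh⟩
  refine IsCompact.induction_on (p := fun K' : Set (Cn n) => ∃ M : ℝ≥0∞, M < ⊤ ∧
      ∀ᶠ s in 𝓝 s₀, ∫⁻ z in K', (sumPow a fun i => g i z s) ^ (-c) ≤ M) hK ?_ ?_ ?_ ?_
  · exact ⟨0, ENNReal.zero_lt_top, Filter.Eventually.of_forall fun s => by simp⟩
  · rintro K₁ K₂ h12 ⟨M, hM, hev⟩
    refine ⟨M, hM, ?_⟩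
    filter_upwards [hev] with s hs
    exact (lintegral_mono_set h12).trans hs
  · rintro K₁ K₂ ⟨M, hM, hev⟩ ⟨M₂, hM₂, hev₂⟩
    refine ⟨M + M₂, ENNReal.add_lt_top.2 ⟨hM, hM₂⟩, ?_⟩
    filter_upwards [hev, hev₂] with s hs hs₂
    exact (lintegral_union_le _ _ _).trans (add_le_add hs hs₂)
  · intro ζ hζ
    obtain ⟨ρ, hρ, hint⟩ := hloc ζ hζ
    have hζR : ‖ζ‖ < R := mem_ball_zero_iff.1 (hKR hζ)
    have hρ' : 0 < min ρ (R - ‖ζ‖) := lt_min hρ (by linarith)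
    have hsub : ball ζ (min ρ (R - ‖ζ‖)) ⊆ ball (0 : Cn n) R := by
      intro z hz
      rw [mem_ball] at hz
      rw [mem_ball]
      calc dist z 0 ≤ dist z ζ + dist ζ 0 := dist_triangle _ _ _
        _ < (R - ‖ζ‖) + ‖ζ‖ := by
            rw [dist_zero_right]
            exact add_lt_add_of_lt_of_le (hz.trans_le (min_le_right _ _)) le_rfl
        _ = R := by ring
    obtain ⟨ε, hε, r, hr, M, hM, hev⟩ := sc_centred hSC ζ (min ρ (R - ‖ζ‖)) hρ' g (hfam.mono hsub)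
      ((lintegral_mono_set (ball_subset_ball (min_le_left _ _))).trans_lt hint)
    refine ⟨ball ζ r, mem_nhdsWithin_of_mem_nhds (ball_mem_nhds ζ hr), volume (ball ζ r) + M,
      ENNReal.add_lt_top.2 ⟨measure_ball_lt_top, hM⟩, ?_⟩
    filter_upwards [hev] with s hs
    calc ∫⁻ z in ball ζ r, (sumPow a fun i => g i z s) ^ (-c)
        ≤ ∫⁻ z in ball ζ r, (1 + (scP a fun i => g i z s) ^ (-(c + ε))) :=
          lintegral_mono fun z => sc_rpow_le_one_add _ _ _ hc.le (by linarith)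
      _ = volume (ball ζ r) + ∫⁻ z in ball ζ r, (scP a fun i => g i z s) ^ (-(c + ε)) := by
          rw [lintegral_add_left measurable_const, lintegral_const, one_mul,
            Measure.restrict_apply MeasurableSet.univ, Set.univ_inter]
      _ ≤ _ := add_le_add le_rfl hs

/-- diagonal change of variables -/
theorem ord_cv_dgl (v : Fin n → ℕ) {s : ℝ} (hs : 0 < s) (K : Set (Cn n)) (hK : MeasurableSet K)
    (Φ : Cn n → ℝ≥0∞) :
    ∫⁻ x in ordDgl v s '' K, Φ x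
      = ENNReal.ofReal (∏ i, s ^ (2 * v i)) * ∫⁻ y in K, Φ (ordDgl v s y) := by
  set c : Cn n := fun i => (s : ℂ) ^ v i with hc
  have hfun : ordDgl v s = fun z => c * z := rfl
  have hc0 : ∀ i, c i ≠ 0 := fun i => pow_ne_zero _ (by exact_mod_cast hs.ne')
  have hd : ∀ y : Cn n, HasFDerivAt (fun z : Cn n => c * z) (ContinuousLinearMap.mul ℂ (Cn n) c) y :=
    fun y => (ContinuousLinearMap.mul ℂ (Cn n) c).hasFDerivAt
  have hinj : Set.InjOn (ordDgl v s) K := by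
    intro x _ y _ hxy
    funext i
    have := congrFun hxy i
    exact mul_left_cancel₀ (hc0 i) this
  rw [r242_lintegral_image_holo K hK (ordDgl v s) (fun _ => ContinuousLinearMap.mul ℂ (Cn n) c)
    (fun y _ => by rw [hfun]; exact (hd y).hasFDerivWithinAt) hinj Φ]
  have hdet : (ContinuousLinearMap.mul ℂ (Cn n) c).det = ∏ j, c j := by
    have h1 := cjac_diag c (0 : Cn n)
    rw [cjac, (hd 0).fderiv] at h1
    exact h1
  have hval : ‖(ContinuousLinearMap.mul ℂ (Cn n) c).det‖ₑ ^ 2 = ENNReal.ofReal (∏ i, s ^ (2 * v i)) := by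
    rw [hdet, ← ofReal_norm, ← ENNReal.ofReal_pow (norm_nonneg _), norm_prod, ← Finset.prod_pow]
    congr 1
    refine Finset.prod_congr rfl fun i _ => ?_
    rw [hc, norm_pow, Complex.norm_real, Real.norm_of_nonneg hs.le, ← pow_mul, mul_comm]
  rw [hval, lintegral_const_mul' _ _ ENNReal.ofReal_ne_top]

theorem ord_norm_dgl_apply (v : Fin n → ℕ) {s : ℝ} (hs : 0 < s) (z : Cn n) (j : Fin n) :
    ‖ordDgl v s z j‖ = s ^ v j * ‖z j‖ := by
  rw [ordDgl, norm_mul, norm_pow, Complex.norm_real, Real.norm_of_nonneg hs.le]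

theorem ord_dgl_image_ann (v : Fin n → ℕ) {s : ℝ} (hs : 0 < s) (ρ : ℝ) :
    ordDgl v s '' ordAnn (fun _ : Fin n => ρ) = ordAnn (fun j => ρ * s ^ v j) := by
  have hp : ∀ j, 0 < s ^ v j := fun j => pow_pos hs _
  ext y
  constructor
  · rintro ⟨z, ⟨h1, j, h2⟩, rfl⟩
    refine ⟨fun i => ?_, j, ?_⟩
    · rw [ord_norm_dgl_apply v hs, mul_comm]
      exact mul_le_mul_of_nonneg_right (h1 i) (hp i).le
    · rw [ord_norm_dgl_apply v hs]
      show ρ * s ^ v j / 2 ≤ s ^ v j * ‖z j‖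
      rw [mul_comm ρ, mul_div_assoc]
      exact mul_le_mul_of_nonneg_left h2 (hp j).le
  · rintro ⟨h1, j, h2⟩
    have hc0 : ∀ i, ((s : ℂ) ^ v i) ≠ 0 := fun i => pow_ne_zero _ (by exact_mod_cast hs.ne')
    have hy : ordDgl v s (fun i => y i / (s : ℂ) ^ v i) = y := by
      funext i
      simp only [ordDgl]
      rw [mul_div_cancel₀ _ (hc0 i)]
    have hn : ∀ i, ‖y i / (s : ℂ) ^ v i‖ = ‖y i‖ / s ^ v i := by
      intro i
      rw [norm_div, norm_pow, Complex.norm_real, Real.norm_of_nonneg hs.le]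
    refine ⟨fun i => y i / (s : ℂ) ^ v i, ⟨fun i => ?_, j, ?_⟩, hy⟩
    · simp only []
      rw [hn, div_le_iff₀ (hp i)]
      exact h1 i
    · simp only []
      rw [hn, le_div_iff₀ (hp j)]
      calc ρ / 2 * s ^ v j = ρ * s ^ v j / 2 := by ring
        _ ≤ ‖y j‖ := h2

theorem ord_ann_compact (r : Fin n → ℝ) : IsCompact (ordAnn r) := by
  refine Metric.isCompact_of_isClosed_isBounded ?_ ?_
  · have h1 : ordAnn r = (⋂ j, {z : Cn n | ‖z j‖ ≤ r j}) ∩ ⋃ j, {z : Cn n | r j / 2 ≤ ‖z j‖} := by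
      ext z
      simp [ordAnn]
    rw [h1]
    refine IsClosed.inter (isClosed_iInter fun j => ?_) (isClosed_iUnion_of_finite fun j => ?_)
    · exact isClosed_le (continuous_apply j).norm continuous_const
    · exact isClosed_le continuous_const (continuous_apply j).norm
  · refine (Metric.isBounded_closedBall (x := (0 : Cn n)) (r := ∑ j, |r j|)).subset ?_
    intro z hz
    rw [mem_closedBall_zero_iff, pi_norm_le_iff_of_nonneg (Finset.sum_nonneg fun j _ => abs_nonneg _)]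
    intro i
    exact ((hz.1 i).trans (le_abs_self _)).trans
      (Finset.single_le_sum (f := fun j => |r j|) (fun j _ => abs_nonneg _) (Finset.mem_univ i))

theorem ord_ann_zero_notMem {r : Fin n → ℝ} (hr : ∀ j, 0 < r j) : (0 : Cn n) ∉ ordAnn r := by
  rintro ⟨-, j, hj⟩
  simp only [Pi.zero_apply, norm_zero] at hj
  linarith [hr j]

/-- (7a) -/
theorem ord_bound {f : Cn n → ℂ} {r0 : ℝ} (hf : DifferentiableOn ℂ f (ball 0 r0)) (d : ℕ)
    (hd : ∀ γ : Fin n →₀ ℕ, MvPowerSeries.coeff γ (tay 0 f) ≠ 0 → d ≤ ∑ i, γ i)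
    {ρ : ℝ} (h0 : 0 < ρ) (hρ : ρ < r0) :
    ∃ C : ℝ, 0 ≤ C ∧ ∀ z : Cn n, ‖z‖ ≤ ρ → ‖f z‖ ≤ C * ‖z‖ ^ d := by
  have hF : TayConv (tay 0 f) r0 := tay_conv hf
  have hsum := hF ρ h0.le hρ
  have hS0 : 0 ≤ ∑' γ : Fin n →₀ ℕ, ‖MvPowerSeries.coeff γ (tay 0 f)‖ * ρ ^ γ.degree :=
    tsum_nonneg fun γ => by positivity
  refine ⟨(∑' γ : Fin n →₀ ℕ, ‖MvPowerSeries.coeff γ (tay 0 f)‖ * ρ ^ γ.degree) / ρ ^ d,
    by positivity, fun z hz => ?_⟩
  have hzb : z ∈ ball (0 : Cn n) r0 := mem_ball_zero_iff.2 (hz.trans_lt hρ)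
  have h1 := tay_hasSum hf hzb
  rw [sub_zero] at h1
  have h2 := hsum.hasSum.mul_right (‖z‖ ^ d / ρ ^ d)
  have h3 := h1.norm_le_of_bounded h2 fun γ => ?_
  · calc ‖f z‖ ≤ _ := h3
      _ = _ := by ring
  · by_cases hc : MvPowerSeries.coeff γ (tay 0 f) = 0
    · rw [hc]
      simp
    · have hdγ : d ≤ γ.degree := by
        rw [Finsupp.degree_eq_sum]
        exact hd γ hc
      rw [norm_mul, mul_assoc]
      refine mul_le_mul_of_nonneg_left ?_ (norm_nonneg _)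
      refine (norm_tayMono_le_norm γ z).trans ?_
      obtain ⟨e, he⟩ : ∃ e, γ.degree = d + e := ⟨γ.degree - d, by omega⟩
      rw [he, pow_add, pow_add]
      have h4 : ‖z‖ ^ e ≤ ρ ^ e := pow_le_pow_left₀ (norm_nonneg _) hz e
      have h5 : ρ ^ d * ρ ^ e * (‖z‖ ^ d / ρ ^ d) = ‖z‖ ^ d * ρ ^ e := by
        field_simp
      rw [h5]
      exact mul_le_mul_of_nonneg_left h4 (by positivity)

/-- (7b) `‖z‖^(-2n)` is not integrable at the origin of `ℂⁿ` -/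
theorem ord_div (hn : 1 ≤ n) (r : ℝ) (hr : 0 < r) :
    ∫⁻ z in ball (0 : Cn n) r, ENNReal.ofReal ((‖z‖ ^ (2 * n))⁻¹) = ⊤ := by
  refine r242_tube_eq_top (fun z => ENNReal.ofReal ((‖z‖ ^ (2 * n))⁻¹)) r r ((r ^ (2 * n))⁻¹) hr le_rfl
    (by positivity) (fun _ => 1) (fun _ => zero_le_one) ?_ ?_
  · intro h
    have := congrFun h ⟨0, hn⟩
    simp at this
  · intro s z hs hz
    refine ENNReal.ofReal_le_ofReal ?_
    have hE : 0 < r * Real.exp (-(s * 1)) := by positivity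
    have h1 : ‖z‖ ≤ r * Real.exp (-(s * 1)) :=
      (pi_norm_le_iff_of_nonneg hE.le).2 fun i => (hz i).2.le
    have h2 : 0 < ‖z‖ := by
      have h3 := (hz ⟨0, hn⟩).1
      have h4 : 0 < r * Real.exp (-(s * 1) - 1) := by positivity
      have h5 := norm_le_pi_norm z ⟨0, hn⟩
      linarith
    have h6 : ‖z‖ ^ (2 * n) ≤ (r * Real.exp (-(s * 1))) ^ (2 * n) := pow_le_pow_left₀ h2.le h1 _
    have h7 : ((r * Real.exp (-(s * 1))) ^ (2 * n))⁻¹ ≤ (‖z‖ ^ (2 * n))⁻¹ :=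
      inv_anti₀ (by positivity) h6
    refine le_trans (le_of_eq ?_) h7
    rw [mul_pow, mul_inv, ← Real.exp_nat_mul, ← Real.exp_neg]
    congr 2
    simp
    ring

theorem ord_rpow_neg_anti {x y : ℝ≥0∞} (h : x ≤ y) {c : ℝ} (hc : 0 ≤ c) : y ^ (-c) ≤ x ^ (-c) := by
  rw [ENNReal.rpow_neg, ENNReal.rpow_neg, ENNReal.inv_le_inv]
  exact ENNReal.rpow_le_rpow h hc

theorem ord_sumPow_ne_top {ι : Type*} [Fintype ι] (g : ι → ℂ) :
    sumPow (fun _ : ι => (1 : ℝ)) g ≠ ⊤ := by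
  unfold sumPow
  refine ENNReal.sum_ne_top.2 fun i _ => ?_
  exact ENNReal.rpow_ne_top_of_nonneg (by norm_num) ENNReal.ofReal_ne_top

/-- scaling the entries by factors `≥ t` -/
theorem ord_sumPow_scale {ι : Type*} [Fintype ι] (g G : ι → ℂ) (t : ℝ) (ht : 0 ≤ t)
    (h : ∀ i, t * ‖G i‖ ≤ ‖g i‖) :
    ENNReal.ofReal t ^ (2 * (1 : ℝ)) * sumPow (fun _ : ι => (1 : ℝ)) G
      ≤ sumPow (fun _ : ι => (1 : ℝ)) g := by
  unfold sumPow
  rw [Finset.mul_sum]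
  refine Finset.sum_le_sum fun i _ => ?_
  rw [← ENNReal.mul_rpow_of_nonneg _ _ (by norm_num : (0 : ℝ) ≤ 2 * 1), ← ENNReal.ofReal_mul ht]
  exact ENNReal.rpow_le_rpow (ENNReal.ofReal_le_ofReal (h i)) (by norm_num)

/-- (5) integrability on a distorted annulus -/
theorem ord_annulus_int {h : ℕ} {r0 : ℝ} {f : Fin n → Cn n → ℂ} {w : Fin n → ℕ}
    {β : Fin n → (Fin n →₀ ℕ)} (H : OrdCfg n h r0 f w β) {ρ : ℝ} (h0 : 0 < ρ) (hρ : ρ < r0) :
    ∃ r : Fin n → ℝ, (∀ j, 0 < r j) ∧ (∀ j, r j ≤ ρ) ∧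
      ∫⁻ z in ordAnn r, (sumPow (fun _ : Fin n => (1 : ℝ)) fun k => f k z) ^ (-(1 / (h : ℝ))) < ⊤ := by
  obtain ⟨v, hv⟩ := ord_cfg_weights H
  have hF : ∀ k, TayConv (tay 0 (f k)) r0 := fun k => tay_conv (H.hol k)
  have hh0 : (0 : ℝ) < 1 / (h : ℝ) := by
    have : (0 : ℝ) < h := by exact_mod_cast H.hh
    positivity
  set K : Set (Cn n) := ordAnn (fun _ : Fin n => ρ) with hKdef
  have hKR : ∀ z ∈ K, ‖z‖ ≤ ρ := fun z hz => (pi_norm_le_iff_of_nonneg h0.le).2 hz.1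
  obtain ⟨M, hM, hev⟩ := ord_sc_compact (fun _ : Fin n => (1 : ℝ)) (fun _ => one_pos) (1 / (h : ℝ)) hh0 r0
    (fun k z s => ordDil (tay 0 (f k)) v (ordDeg v (β k)) z s)
    (fun k => ord_dil_continuousOn (hF k) v _) (fun k s => ord_dil_differentiableOn (hF k) v _ s)
    0 K (ord_ann_compact _)
    (fun z hz => mem_ball_zero_iff.2 ((hKR z hz).trans_lt hρ))
    (fun ζ hζ => by
      have hζ0 : ζ ≠ 0 := fun h => ord_ann_zero_notMem (fun _ => h0) (h ▸ hζ)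
      obtain ⟨ρ', hρ', hint⟩ := ord_mono_int h H.hh β H.small
        (fun k => MvPowerSeries.coeff (β k) (tay 0 (f k))) H.lead ζ hζ0
      refine ⟨ρ', hρ', ?_⟩
      simpa only [ord_dil_zero _ v _ (hv _)] using hint)
  obtain ⟨s, hs, hs0, hs1⟩ : ∃ s : ℝ, (∫⁻ z in K, (sumPow (fun _ : Fin n => (1 : ℝ)) fun k =>
      ordDil (tay 0 (f k)) v (ordDeg v (β k)) z s) ^ (-(1 / (h : ℝ))) ≤ M) ∧ 0 < s ∧ s ≤ 1 := by
    have h1 : ∀ᶠ s : ℝ in 𝓝[>] 0, s ∈ Set.Ioc (0 : ℝ) 1 := Ioc_mem_nhdsGT one_pos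
    obtain ⟨s, hs, hs'⟩ := ((hev.filter_mono nhdsWithin_le_nhds).and h1).exists
    exact ⟨s, hs, hs'.1, hs'.2⟩
  refine ⟨fun j => ρ * s ^ v j, fun j => by positivity, fun j => ?_, ?_⟩
  · exact mul_le_of_le_one_right h0.le (pow_le_one₀ hs0.le hs1)
  rw [← ord_dgl_image_ann v hs0 ρ, ord_cv_dgl v hs0 _ (ord_ann_compact _).measurableSet]
  refine ENNReal.mul_lt_top ENNReal.ofReal_lt_top ?_
  set D : ℕ := ∑ k, ordDeg v (β k) with hD
  have hsD : 0 < s ^ D := by positivity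
  set C₀ : ℝ≥0∞ := ENNReal.ofReal (s ^ D) ^ (2 * (1 : ℝ)) with hC₀
  have hC₀top : C₀ ≠ ⊤ := ENNReal.rpow_ne_top_of_nonneg (by norm_num) ENNReal.ofReal_ne_top
  have hC₀0 : C₀ ≠ 0 := by
    rw [hC₀]
    intro h
    rw [ENNReal.rpow_eq_zero_iff] at h
    rcases h with h | h
    · exact (ENNReal.ofReal_pos.2 hsD).ne' h.1
    · exact ENNReal.ofReal_ne_top h.1
  have hpt : ∀ y ∈ K, (sumPow (fun _ : Fin n => (1 : ℝ)) fun k => f k (ordDgl v s y)) ^ (-(1 / (h : ℝ)))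
      ≤ C₀ ^ (-(1 / (h : ℝ))) * (sumPow (fun _ : Fin n => (1 : ℝ)) fun k =>
          ordDil (tay 0 (f k)) v (ordDeg v (β k)) y s) ^ (-(1 / (h : ℝ))) := by
    intro y hy
    rw [← ENNReal.mul_rpow_of_ne_top hC₀top (ord_sumPow_ne_top _)]
    refine ord_rpow_neg_anti ?_ hh0.le
    refine ord_sumPow_scale _ _ _ hsD.le fun k => ?_
    have hmem : ordDgl v s y ∈ ball (0 : Cn n) r0 :=
      mem_ball_zero_iff.2 (((ord_norm_dgl_le v hs0.le hs1 y).trans (hKR y hy)).trans_lt hρ)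
    have e1 : f k (ordDgl v s y) = (s : ℂ) ^ ordDeg v (β k)
        * ordDil (tay 0 (f k)) v (ordDeg v (β k)) y s := by
      rw [ord_dil_pos _ v _ (fun γ hγ => ?_) hs0.le hs1, ← tay_eval_eq (H.hol k) hmem, sub_zero]
      by_cases hγβ : γ = β k
      · rw [hγβ]
      · exact (hv k γ hγ hγβ).le
    rw [e1, norm_mul, norm_pow, Complex.norm_real, Real.norm_of_nonneg hs0.le]
    refine mul_le_mul_of_nonneg_right ?_ (norm_nonneg _)
    refine pow_le_pow_of_le_one hs0.le hs1 ?_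
    exact Finset.single_le_sum (f := fun k => ordDeg v (β k)) (fun _ _ => Nat.zero_le _) (Finset.mem_univ k)
  calc ∫⁻ y in K, (sumPow (fun _ : Fin n => (1 : ℝ)) fun k => f k (ordDgl v s y)) ^ (-(1 / (h : ℝ)))
      ≤ ∫⁻ y in K, C₀ ^ (-(1 / (h : ℝ))) * (sumPow (fun _ : Fin n => (1 : ℝ)) fun k =>
          ordDil (tay 0 (f k)) v (ordDeg v (β k)) y s) ^ (-(1 / (h : ℝ))) :=
        setLIntegral_mono' (ord_ann_compact _).measurableSet hpt
    _ = C₀ ^ (-(1 / (h : ℝ))) * ∫⁻ y in K, (sumPow (fun _ : Fin n => (1 : ℝ)) fun k =>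
          ordDil (tay 0 (f k)) v (ordDeg v (β k)) y s) ^ (-(1 / (h : ℝ))) := by
        rw [lintegral_const_mul' _ _ (ENNReal.rpow_ne_top_of_ne_zero hC₀0 hC₀top)]
    _ < ⊤ := ENNReal.mul_lt_top (ENNReal.rpow_ne_top_of_ne_zero hC₀0 hC₀top).lt_top (hs.trans_lt hM)

end Claimed.Agent.R242
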