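/-
Row 242 (S0480), LIFT / ORD: the local lifting datum of LIFT 1.      Architect: helper71.      (adapted to `Lift/Defs` v2: `zetaOf C e z`, `chiP`, `dAb`.)

LEAF ORD-WT-C = `ord_exp_neg_phi`, `ord_sumPow_eq` (~60 lines)      LEAF ORD-FIN = `ord_fin` (~120 lines)      LEAF ORD-TOP = `ord_top` (~150 lines)      GLUE = `ord_locLift` (proved)

PLANS.
* `ord_exp_neg_phi`: unfold `ordPhi`, `wtO`, `lsq` (first term), `lsq_zetaOf hez`, `lgs`; `Real.rpow_def_of_pos`, `Real.exp_add`, `Real.log_mul`.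
* `ord_sumPow_eq`: `ENNReal.ofReal_sum_of_nonneg`, `ENNReal.ofReal_rpow_of_nonneg`, `Real.rpow_natCast`/`Real.rpow_two` (`2 * 1 = 2`).
* `ord_fin`.  `K := closedBall 0 ρ ⊆ ball 0 r0` compact, `e` continuous and `≠ 0` on it: `∃ m > 0, m ≤ ‖e z‖` on `K` (`IsCompact.exists_isMinOn` for `‖e ·‖`, or `r242_common_bounds`; if `ρ < 0` then `ordAnn r = ∅` for `n ≥ 1`).
  For `z ∈ ordD0 r0 f`: if `z ∉ ordAnn r` the integrand is `ofReal (0 * _) = 0`; if `z ∈ ordAnn r` then `‖z‖ ≤ ρ`, and by `ord_exp_neg_phi`, `ord_sumPow_eq`, `ENNReal.ofReal_rpow_of_pos`: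
  `ofReal (A * exp (-φ z)) ≤ ofReal (|A| * (m²)^(-c)) * (sumPow 1 (f · z))^(-(1/h))`   [`(‖e z‖² (1+∑‖z j + C‖²))^(-c) ≤ (m²)^(-c)`: `Real.rpow_le_rpow_of_nonpos`; `ENNReal.ofReal_mul`].
  So `∫ ≤ ∫⁻ z in ordAnn r, C' * (..)` : bound the integrand on `ordD0` by `(ordAnn r).indicator (fun z => C' * ..) z`, `lintegral_indicator`, `setLIntegral_le_lintegral`, `lintegral_const_mul'`.
* `ord_top`.  WLOG `δ ≤ r0/2` (`lintegral_mono_set`: the set for `min δ (r0/2)` is smaller; `top_le_iff`).  `ρ := r0/2`.  `ord_bound (H.hol k) (n*h) (H.mult k)` gives `C k`; `C' := 1 + ∑ C k`;  `∑ ‖f k z‖² ≤ n C'² ‖z‖^(2 n h)`;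
  `‖e z‖ ≤ Me` on `closedBall 0 ρ`, `‖z j + C‖ ≤ ρ + ‖C‖`.   For `z ∈ ordD0`, `‖z‖ < δ`:
  `exp (-φ z) = S₁^(-1/h) S₂^(-c) ≥ (n C'²)^(-1/h) (‖z‖^(2 n h))^(-1/h) (Me² (1 + n (ρ+‖C‖)²))^(-c) = c' (‖z‖^(2n))⁻¹`   (`Real.rpow_le_rpow_of_nonpos`, `Real.mul_rpow`, `← Real.rpow_natCast`, `← Real.rpow_mul`;
  `z ≠ 0` on `ordD0` is not needed: at `z = 0` the right side is `0`).
  The set `{z ∈ ordD0 ∧ ‖z‖ < δ}` is a.e. equal to `ball 0 δ`: the difference lies in `⋃ k, {z ∈ ball 0 r0 ∧ f k z = 0}`, null by `tay_zero_null_ball (H.hol k)` (`f k ≢ 0` because `tay 0 (f k) ≠ 0`: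
  if `f k = 0` on the ball then `tay 0 (f k) = 0` by `tay_congr` + `tay_const`, contradiction with `H.lead k`).   `setLIntegral_congr`, `ENNReal.ofReal_mul`, `lintegral_const_mul'`, `ord_div`, `ENNReal.mul_top`.
-/
import Claimed.Agent.R242.Lift.OrdInt

set_option autoImplicit false

open MeasureTheory Complex Metric
open scoped ContDiff ComplexConjugate ENNReal Topology

namespace Claimed.Agent.R242

variable {n : ℕ}

theorem ord_exp_neg_phi (h : ℕ) (c : ℝ) (C : ℂ) {f : Fin n → Cn n → ℂ} {e : Cn n → ℂ} {z : Cn n}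
    (hfz : ∃ k, f k z ≠ 0) (hez : e z ≠ 0) :
    Real.exp (-(ordPhi h c C f e z))
      = (∑ k, ‖f k z‖ ^ 2) ^ (-(1 / (h : ℝ))) * (‖e z‖ ^ 2 * (1 + ∑ j, ‖z j + C‖ ^ 2)) ^ (-c) := by
  obtain ⟨k, hk⟩ := hfz
  have hpos : 0 < ∑ k, ‖f k z‖ ^ 2 := by
    have h1 : 0 < ‖f k z‖ := norm_pos_iff.2 hk
    have h2 : ‖f k z‖ ^ 2 ≤ ∑ k, ‖f k z‖ ^ 2 :=
      Finset.single_le_sum (f := fun k => ‖f k z‖ ^ 2) (fun _ _ => by positivity) (Finset.mem_univ k)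
    have h3 : 0 < ‖f k z‖ ^ 2 := by positivity
    linarith
  have he0 : 0 < ‖e z‖ := norm_pos_iff.2 hez
  have hs : 0 < 1 + ∑ j, ‖z j + C‖ ^ 2 := by positivity
  rw [Real.rpow_def_of_pos hpos, Real.rpow_def_of_pos (by positivity), ← Real.exp_add,
    Real.log_mul (by positivity) hs.ne']
  unfold ordPhi wtO
  rw [lsq_zetaOf hez]
  unfold lsq lgs
  congr 1
  ring

theorem ord_sumPow_eq {ι : Type*} [Fintype ι] (g : ι → ℂ) :
    sumPow (fun _ : ι => (1 : ℝ)) g = ENNReal.ofReal (∑ i, ‖g i‖ ^ 2) := by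
  unfold sumPow
  rw [ENNReal.ofReal_sum_of_nonneg fun i _ => by positivity]
  refine Finset.sum_congr rfl fun i _ => ?_
  rw [ENNReal.ofReal_rpow_of_nonneg (norm_nonneg _) (by norm_num)]
  congr 1
  rw [mul_one]
  exact Real.rpow_two _

theorem ord_isOpen_D0 {r0 : ℝ} {f : Fin n → Cn n → ℂ}
    (hf : ∀ k, DifferentiableOn ℂ (f k) (ball 0 r0)) : IsOpen (ordD0 r0 f) := by
  rw [isOpen_iff_mem_nhds]
  intro z hz
  have h1 : ∀ k, ∀ᶠ y in 𝓝 z, f k y ≠ 0 := fun k =>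
    ((hf k).continuousOn.continuousAt (isOpen_ball.mem_nhds hz.1)).eventually_ne (hz.2 k)
  filter_upwards [isOpen_ball.mem_nhds hz.1, Filter.eventually_all.2 h1] with y hy1 hy2
  exact ⟨hy1, hy2⟩

/-- `exp (-(1/h) log ∑|f_k|²)` as an `ENNReal` power of `sumPow` -/
theorem ord_exp_lsq (h : ℕ) {g : Fin n → ℂ} (hg : 0 < ∑ k, ‖g k‖ ^ 2) :
    ENNReal.ofReal (Real.exp (-(1 / (h : ℝ) * lsq g)))
      = (sumPow (fun _ : Fin n => (1 : ℝ)) g) ^ (-(1 / (h : ℝ))) := by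
  rw [ord_sumPow_eq, ENNReal.ofReal_rpow_of_pos hg, Real.rpow_def_of_pos hg]
  unfold lsq
  congr 2
  ring

theorem ord_fin_core {h : ℕ} {r0 : ℝ} {f : Fin n → Cn n → ℂ} (hn : 1 ≤ n)
    (hf : ∀ k, DifferentiableOn ℂ (f k) (ball 0 r0)) (ψ : Cn n → ℝ) {B : ℝ} {r : Fin n → ℝ}
    (hψ : ∀ z ∈ ordAnn r, -B ≤ ψ z)
    (hint : ∫⁻ z in ordAnn r,
      (sumPow (fun _ : Fin n => (1 : ℝ)) fun k => f k z) ^ (-(1 / (h : ℝ))) < ⊤) (A : ℝ) :
    ∫⁻ z in ordD0 r0 f, ENNReal.ofReal ((ordAnn r).indicator (fun _ => A) z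
      * Real.exp (-(1 / (h : ℝ) * lsq (fun k => f k z) + ψ z))) < ⊤ := by
  have hAnn : MeasurableSet (ordAnn r) := (ord_ann_compact r).measurableSet
  have hpt : ∀ z ∈ ordD0 r0 f, ENNReal.ofReal ((ordAnn r).indicator (fun _ => A) z
      * Real.exp (-(1 / (h : ℝ) * lsq (fun k => f k z) + ψ z)))
      ≤ (ordAnn r).indicator (fun z => ENNReal.ofReal (|A| * Real.exp B)
        * (sumPow (fun _ : Fin n => (1 : ℝ)) fun k => f k z) ^ (-(1 / (h : ℝ)))) z := by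
    intro z hz
    by_cases hza : z ∈ ordAnn r
    · rw [Set.indicator_of_mem hza, Set.indicator_of_mem hza]
      have hpos : 0 < ∑ k, ‖f k z‖ ^ 2 := by
        refine Finset.sum_pos (fun k _ => ?_) ⟨⟨0, hn⟩, Finset.mem_univ _⟩
        have : 0 < ‖f k z‖ := norm_pos_iff.2 (hz.2 k)
        positivity
      rw [← ord_exp_lsq h hpos, ← ENNReal.ofReal_mul (by positivity)]
      refine ENNReal.ofReal_le_ofReal ?_
      have e : Real.exp (-(1 / (h : ℝ) * lsq (fun k => f k z) + ψ z))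
          = Real.exp (-ψ z) * Real.exp (-(1 / (h : ℝ) * lsq fun k => f k z)) := by
        rw [← Real.exp_add]
        congr 1
        ring
      rw [e, ← mul_assoc]
      refine mul_le_mul_of_nonneg_right ?_ (Real.exp_pos _).le
      have h1 : Real.exp (-ψ z) ≤ Real.exp B := Real.exp_le_exp.2 (by linarith [hψ z hza])
      calc A * Real.exp (-ψ z) ≤ |A| * Real.exp (-ψ z) :=
            mul_le_mul_of_nonneg_right (le_abs_self A) (Real.exp_pos _).le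
        _ ≤ |A| * Real.exp B := mul_le_mul_of_nonneg_left h1 (abs_nonneg _)
    · rw [Set.indicator_of_notMem hza, Set.indicator_of_notMem hza, zero_mul, ENNReal.ofReal_zero]
  calc _ ≤ ∫⁻ z in ordD0 r0 f, (ordAnn r).indicator (fun z => ENNReal.ofReal (|A| * Real.exp B)
        * (sumPow (fun _ : Fin n => (1 : ℝ)) fun k => f k z) ^ (-(1 / (h : ℝ)))) z :=
        setLIntegral_mono' (ord_isOpen_D0 hf).measurableSet hpt
    _ ≤ ∫⁻ z, (ordAnn r).indicator (fun z => ENNReal.ofReal (|A| * Real.exp B)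
        * (sumPow (fun _ : Fin n => (1 : ℝ)) fun k => f k z) ^ (-(1 / (h : ℝ)))) z :=
        setLIntegral_le_lintegral _ _
    _ = ENNReal.ofReal (|A| * Real.exp B) * ∫⁻ z in ordAnn r,
        (sumPow (fun _ : Fin n => (1 : ℝ)) fun k => f k z) ^ (-(1 / (h : ℝ))) := by
        rw [lintegral_indicator hAnn, lintegral_const_mul' _ _ ENNReal.ofReal_ne_top]
    _ < ⊤ := ENNReal.mul_lt_top ENNReal.ofReal_lt_top hint

theorem ord_exists_ne {h : ℕ} {r0 : ℝ} {f : Fin n → Cn n → ℂ} {w : Fin n → ℕ}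
    {β : Fin n → (Fin n →₀ ℕ)} (H : OrdCfg n h r0 f w β) (k : Fin n) :
    ∃ z ∈ ball (0 : Cn n) r0, f k z ≠ 0 := by
  by_contra hcon
  push Not at hcon
  have h1 : f k =ᶠ[𝓝 0] fun _ => (0 : ℂ) := by
    filter_upwards [ball_mem_nhds (0 : Cn n) H.r0_pos] with z hz
    exact hcon z hz
  have h2 : tay 0 (f k) = 0 := by
    rw [tay_congr h1, tay_const]
    simp
  apply H.lead k
  rw [h2]
  simp

theorem ord_top_core {h : ℕ} {r0 : ℝ} {f : Fin n → Cn n → ℂ} {w : Fin n → ℕ}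
    {β : Fin n → (Fin n →₀ ℕ)} (H : OrdCfg n h r0 f w β) (ψ : Cn n → ℝ) {B : ℝ}
    (hψ : ∀ z ∈ closedBall (0 : Cn n) (r0 / 2), ψ z ≤ B) {δ : ℝ} (hδ : 0 < δ) :
    ∫⁻ z in {z | z ∈ ordD0 r0 f ∧ ‖z‖ < δ},
      ENNReal.ofReal (Real.exp (-(1 / (h : ℝ) * lsq (fun k => f k z) + ψ z))) = ⊤ := by
  have hr0 := H.r0_pos
  have hn := H.hn
  have hh : (0 : ℝ) < h := by exact_mod_cast H.hh
  obtain ⟨δ', hδ', hδ'δ, hδ'r⟩ : ∃ δ' : ℝ, 0 < δ' ∧ δ' ≤ δ ∧ δ' ≤ r0 / 2 :=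
    ⟨min δ (r0 / 2), lt_min hδ (half_pos hr0), min_le_left _ _, min_le_right _ _⟩
  have hC : ∀ k, ∃ C : ℝ, 0 ≤ C ∧ ∀ z : Cn n, ‖z‖ ≤ r0 / 2 → ‖f k z‖ ≤ C * ‖z‖ ^ (n * h) := fun k =>
    ord_bound (H.hol k) (n * h) (H.mult k) (half_pos hr0) (half_lt_self hr0)
  choose C hC0 hC using hC
  obtain ⟨Ct, hCt⟩ : ∃ Ct : ℝ, Ct = ∑ k, C k ^ 2 + 1 := ⟨_, rfl⟩
  have hCt0 : 0 < Ct := by
    rw [hCt]
    have : 0 ≤ ∑ k, C k ^ 2 := Finset.sum_nonneg fun k _ => by positivity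
    linarith
  obtain ⟨κ, hκ⟩ : ∃ κ : ℝ, κ = Real.exp (-(1 / (h : ℝ) * Real.log Ct) - B) := ⟨_, rfl⟩
  have hκ0 : 0 < κ := hκ ▸ Real.exp_pos _
  -- the smaller set
  have hSopen : IsOpen {z | z ∈ ordD0 r0 f ∧ ‖z‖ < δ'} := by
    have : {z | z ∈ ordD0 r0 f ∧ ‖z‖ < δ'} = ordD0 r0 f ∩ ball 0 δ' := by
      ext z
      simp
    rw [this]
    exact (ord_isOpen_D0 H.hol).inter isOpen_ball
  have hpt : ∀ z ∈ {z | z ∈ ordD0 r0 f ∧ ‖z‖ < δ'}, ENNReal.ofReal (κ * (‖z‖ ^ (2 * n))⁻¹)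
      ≤ ENNReal.ofReal (Real.exp (-(1 / (h : ℝ) * lsq (fun k => f k z) + ψ z))) := by
    rintro z ⟨hz, hzδ⟩
    refine ENNReal.ofReal_le_ofReal ?_
    have hzr : ‖z‖ ≤ r0 / 2 := hzδ.le.trans hδ'r
    have hpos : 0 < ∑ k, ‖f k z‖ ^ 2 := by
      refine Finset.sum_pos (fun k _ => ?_) ⟨⟨0, hn⟩, Finset.mem_univ _⟩
      have : 0 < ‖f k z‖ := norm_pos_iff.2 (hz.2 k)
      positivity
    have hup : ∑ k, ‖f k z‖ ^ 2 ≤ Ct * ‖z‖ ^ (2 * n * h) := by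
      have h1 : ∀ k, ‖f k z‖ ^ 2 ≤ C k ^ 2 * ‖z‖ ^ (2 * n * h) := by
        intro k
        have h2 := pow_le_pow_left₀ (norm_nonneg _) (hC k z hzr) 2
        have e : (C k * ‖z‖ ^ (n * h)) ^ 2 = C k ^ 2 * ‖z‖ ^ (2 * n * h) := by
          rw [mul_pow, ← pow_mul]
          congr 2
          ring
        rwa [e] at h2
      calc ∑ k, ‖f k z‖ ^ 2 ≤ ∑ k, C k ^ 2 * ‖z‖ ^ (2 * n * h) := Finset.sum_le_sum fun k _ => h1 k
        _ = (∑ k, C k ^ 2) * ‖z‖ ^ (2 * n * h) := by rw [Finset.sum_mul]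
        _ ≤ Ct * ‖z‖ ^ (2 * n * h) := by
            refine mul_le_mul_of_nonneg_right ?_ (by positivity)
            rw [hCt]
            linarith
    have hz0 : 0 < ‖z‖ := by
      rcases (norm_nonneg z).lt_or_eq with h0 | h0
      · exact h0
      · exfalso
        rw [← h0, zero_pow (by have := H.hh; positivity), mul_zero] at hup
        linarith
    have hlog : Real.log (∑ k, ‖f k z‖ ^ 2)
        ≤ Real.log Ct + (h : ℝ) * ((2 * n : ℕ) * Real.log ‖z‖) := by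
      have h3 := Real.log_le_log hpos hup
      rw [Real.log_mul hCt0.ne' (by positivity), Real.log_pow] at h3
      push_cast at h3 ⊢
      linarith
    have e1 : κ * (‖z‖ ^ (2 * n))⁻¹
        = Real.exp (-(1 / (h : ℝ) * Real.log Ct) - B - (2 * n : ℕ) * Real.log ‖z‖) := by
      rw [Real.exp_sub _ ((2 * n : ℕ) * Real.log ‖z‖), Real.exp_nat_mul, Real.exp_log hz0, hκ]
      rfl
    rw [e1]
    refine Real.exp_le_exp.2 ?_
    have h4 := hψ z (mem_closedBall_zero_iff.2 hzr)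
    have h5 : 1 / (h : ℝ) * Real.log (∑ k, ‖f k z‖ ^ 2)
        ≤ 1 / (h : ℝ) * (Real.log Ct + (h : ℝ) * ((2 * n : ℕ) * Real.log ‖z‖)) :=
      mul_le_mul_of_nonneg_left hlog (by positivity)
    have e2 : 1 / (h : ℝ) * (Real.log Ct + (h : ℝ) * ((2 * n : ℕ) * Real.log ‖z‖))
        = 1 / (h : ℝ) * Real.log Ct + (2 * n : ℕ) * Real.log ‖z‖ := by
      field_simp
    rw [e2] at h5
    unfold lsq
    linarith
  have hae : ({z | z ∈ ordD0 r0 f ∧ ‖z‖ < δ'} : Set (Cn n)) =ᵐ[volume] ball (0 : Cn n) δ' := by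
    rw [ae_eq_set]
    constructor
    · have : {z | z ∈ ordD0 r0 f ∧ ‖z‖ < δ'} \ ball (0 : Cn n) δ' = ∅ := by
        ext z
        simp
      rw [this, measure_empty]
    · have hsub : ball (0 : Cn n) δ' \ {z | z ∈ ordD0 r0 f ∧ ‖z‖ < δ'}
          ⊆ ⋃ k, {z | z ∈ ball (0 : Cn n) r0 ∧ f k z = 0} := by
        rintro z ⟨hz1, hz2⟩
        have hzδ : ‖z‖ < δ' := mem_ball_zero_iff.1 hz1
        have hzb : z ∈ ball (0 : Cn n) r0 := mem_ball_zero_iff.2 (by linarith)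
        by_contra hcon
        rw [Set.mem_iUnion] at hcon
        push Not at hcon
        exact hz2 ⟨⟨hzb, fun k hk => hcon k ⟨hzb, hk⟩⟩, hzδ⟩
      refine measure_mono_null hsub ?_
      rw [measure_iUnion_null_iff]
      exact fun k => tay_zero_null_ball (H.hol k) (ord_exists_ne H k)
  rw [← top_le_iff]
  calc (⊤ : ℝ≥0∞) = ENNReal.ofReal κ * ∫⁻ z in ball (0 : Cn n) δ', ENNReal.ofReal ((‖z‖ ^ (2 * n))⁻¹) := by
        rw [ord_div hn δ' hδ', ENNReal.mul_top (ENNReal.ofReal_pos.2 hκ0).ne']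
    _ = ∫⁻ z in ball (0 : Cn n) δ', ENNReal.ofReal (κ * (‖z‖ ^ (2 * n))⁻¹) := by
        rw [← lintegral_const_mul' _ _ ENNReal.ofReal_ne_top]
        refine lintegral_congr fun z => ?_
        rw [ENNReal.ofReal_mul hκ0.le]
    _ = ∫⁻ z in {z | z ∈ ordD0 r0 f ∧ ‖z‖ < δ'}, ENNReal.ofReal (κ * (‖z‖ ^ (2 * n))⁻¹) :=
        (setLIntegral_congr hae).symm
    _ ≤ ∫⁻ z in {z | z ∈ ordD0 r0 f ∧ ‖z‖ < δ'},
          ENNReal.ofReal (Real.exp (-(1 / (h : ℝ) * lsq (fun k => f k z) + ψ z))) :=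
        setLIntegral_mono' hSopen.measurableSet hpt
    _ ≤ ∫⁻ z in {z | z ∈ ordD0 r0 f ∧ ‖z‖ < δ},
          ENNReal.ofReal (Real.exp (-(1 / (h : ℝ) * lsq (fun k => f k z) + ψ z))) := by
        refine lintegral_mono_set ?_
        rintro z ⟨hz1, hz2⟩
        exact ⟨hz1, hz2.trans_le hδ'δ⟩

/-- `log ∑ |ζ_l|²` is bounded on compact sets -/
theorem ord_lsq_zeta_bdd (C : ℂ) {K : Set (Cn n)} (hK : IsCompact K) {e : Cn n → ℂ}
    (he : ContinuousOn e K) (hne : ∀ z ∈ K, e z ≠ 0) :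
    ∃ A : ℝ, 0 ≤ A ∧ ∀ z ∈ K, |lsq (zetaOf C e z)| ≤ A := by
  have hc : ContinuousOn (fun z : Cn n => lgs (e z) + Real.log (1 + ∑ j, ‖z j + C‖ ^ 2)) K := by
    refine ContinuousOn.add ?_ ?_
    · unfold lgs
      refine ContinuousOn.log (he.norm.pow 2) fun y hy => ?_
      have : 0 < ‖e y‖ := norm_pos_iff.2 (hne y hy)
      positivity
    · refine ContinuousOn.log (by fun_prop) fun z _ => ?_
      have : 0 ≤ ∑ j, ‖z j + C‖ ^ 2 := Finset.sum_nonneg fun j _ => by positivity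
      linarith
  obtain ⟨A, hA⟩ := hK.exists_bound_of_continuousOn hc
  refine ⟨max A 0, le_max_right _ _, fun z hz => ?_⟩
  rw [lsq_zetaOf (hne z hz)]
  exact le_trans (hA z hz) (le_max_left _ _)

theorem ord_fin {h : ℕ} {r0 : ℝ} {f : Fin n → Cn n → ℂ} {w : Fin n → ℕ}
    {β : Fin n → (Fin n →₀ ℕ)} (H : OrdCfg n h r0 f w β) {e : Cn n → ℂ}
    (he : DifferentiableOn ℂ e (ball 0 r0)) (hene : ∀ z ∈ ball (0 : Cn n) r0, e z ≠ 0)
    {c : ℝ} (hc : 0 ≤ c) (C : ℂ) {ρ : ℝ} (hρ : ρ < r0) {r : Fin n → ℝ} (hrρ : ∀ j, r j ≤ ρ)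
    (hint : ∫⁻ z in ordAnn r,
      (sumPow (fun _ : Fin n => (1 : ℝ)) fun k => f k z) ^ (-(1 / (h : ℝ))) < ⊤) (A : ℝ) :
    ∫⁻ z in ordD0 r0 f,
      ENNReal.ofReal ((ordAnn r).indicator (fun _ => A) z * Real.exp (-(ordPhi h c C f e z))) < ⊤ := by
  have hsub : closedBall (0 : Cn n) ρ ⊆ ball (0 : Cn n) r0 := closedBall_subset_ball hρ
  obtain ⟨A1, hA10, hA1⟩ := ord_lsq_zeta_bdd C (isCompact_closedBall (0 : Cn n) ρ)
    (he.continuousOn.mono hsub) fun z hz => hene z (hsub hz)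
  refine ord_fin_core (B := c * A1) H.hn H.hol (fun z => c * lsq (zetaOf C e z)) (fun z hz => ?_) hint A
  have hρ0 : 0 ≤ ρ := (norm_nonneg _).trans ((hz.1 ⟨0, H.hn⟩).trans (hrρ _))
  have hzK : z ∈ closedBall (0 : Cn n) ρ :=
    mem_closedBall_zero_iff.2 ((pi_norm_le_iff_of_nonneg hρ0).2 fun j => (hz.1 j).trans (hrρ j))
  have h1 := (abs_le.1 (hA1 z hzK)).1
  have h2 := mul_le_mul_of_nonneg_left h1 hc
  linarith

theorem ord_top {h : ℕ} {r0 : ℝ} {f : Fin n → Cn n → ℂ} {w : Fin n → ℕ}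
    {β : Fin n → (Fin n →₀ ℕ)} (H : OrdCfg n h r0 f w β) {e : Cn n → ℂ}
    (he : DifferentiableOn ℂ e (ball 0 r0)) (hene : ∀ z ∈ ball (0 : Cn n) r0, e z ≠ 0)
    {c : ℝ} (hc : 0 ≤ c) (C : ℂ) {δ : ℝ} (hδ : 0 < δ) :
    ∫⁻ z in {z | z ∈ ordD0 r0 f ∧ ‖z‖ < δ}, ENNReal.ofReal (Real.exp (-(ordPhi h c C f e z))) = ⊤ := by
  have hsub : closedBall (0 : Cn n) (r0 / 2) ⊆ ball (0 : Cn n) r0 :=
    closedBall_subset_ball (half_lt_self H.r0_pos)
  obtain ⟨A1, hA10, hA1⟩ := ord_lsq_zeta_bdd C (isCompact_closedBall (0 : Cn n) (r0 / 2))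
    (he.continuousOn.mono hsub) fun z hz => hene z (hsub hz)
  refine ord_top_core (B := c * A1) H (fun z => c * lsq (zetaOf C e z)) (fun z hz => ?_) hδ
  exact mul_le_mul_of_nonneg_left (abs_le.1 (hA1 z hz)).2 hc

/-- **LIFT 1, local part**: a good configuration gives a local lifting datum for the weight `wtO`. -/
theorem ord_locLift {h : ℕ} {r0 : ℝ} {f : Fin n → Cn n → ℂ} {w : Fin n → ℕ}
    {β : Fin n → (Fin n →₀ ℕ)} (H : OrdCfg n h r0 f w β) {e : Cn n → ℂ}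
    (he : DifferentiableOn ℂ e (ball 0 r0)) (hene : ∀ z ∈ ball (0 : Cn n) r0, e z ≠ 0)
    {c : ℝ} (hc : 0 < c) (C : ℂ) :
    LocLift r0 {z | z ∈ ball (0 : Cn n) r0 ∧ ∀ k, f k z ≠ 0}
      (fun z => wtO (h : ℝ) c (fun k => f k z) (zetaOf C e z)) := by
  have hr0 := H.r0_pos
  have hn := H.hn
  have hh : (0 : ℝ) < h := by exact_mod_cast H.hh
  have : Nonempty (Fin n) := ⟨⟨0, hn⟩⟩
  obtain ⟨r, hr, hrρ, hint⟩ := ord_annulus_int H (half_pos hr0) (half_lt_self hr0)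
  obtain ⟨Cg, hCg, hbd⟩ := exists_dAb_chiP_le r hr
  set ρ : ℝ := r0 / 2 with hρdef
  have hρ0 : 0 < ρ := half_pos hr0
  have hρ : ρ < r0 := half_lt_self hr0
  set u : ℝ := (1 + (n : ℝ) * (ρ + ‖C‖) ^ 2) ^ 2 with hu
  have hu0 : 0 < u := by positivity
  refine ⟨fun z => ((chiP r z : ℝ) : ℂ), (ordAnn r).indicator (fun _ => Cg * u / c), ρ, hρ0, hρ,
    (Complex.ofRealCLM.contDiff.comp (contDiff_chiP r)).contDiffOn, fun z => ?_, fun z hz => ?_, ?_,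
    fun z => ?_, fun z hz a => ?_, ?_, fun δ hδ => ?_⟩
  · rw [Complex.norm_real, Real.norm_of_nonneg (chiP_nonneg r z)]
    exact chiP_le_one r z
  · obtain ⟨j, hj⟩ : ∃ j, ‖z‖ ≤ ‖z j‖ := by
      by_contra hcon
      push Not at hcon
      have h1 : ‖z‖ < ‖z‖ := (pi_norm_lt_iff (lt_of_lt_of_le hρ0 hz)).2 hcon
      exact lt_irrefl _ h1
    show ((chiP r z : ℝ) : ℂ) = 0
    rw [chiP_eq_zero r hr ⟨j, (hrρ j).trans (hz.trans hj)⟩, Complex.ofReal_zero]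
  · exact measurable_const.indicator (ord_ann_compact r).measurableSet
  · exact Set.indicator_nonneg (fun _ _ => by positivity) z
  · by_cases hza : z ∈ ordAnn r
    · rw [Set.indicator_of_mem hza]
      have h1 := levi_wtO_zetaOf_ge (C := C) (h : ℝ) c hh hc.le
        (fun k => holAt_of_differentiableOn isOpen_ball (H.hol k) hz.1) hz.2
        (holAt_of_differentiableOn isOpen_ball he hz.1) (hene z hz.1) a
      have h2 : (1 + ∑ j, ‖z j + C‖ ^ 2) ^ 2 ≤ u := by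
        refine pow_le_pow_left₀ (by positivity) ?_ 2
        have : ∑ j, ‖z j + C‖ ^ 2 ≤ ∑ _j : Fin n, (ρ + ‖C‖) ^ 2 :=
          Finset.sum_le_sum fun j _ => pow_le_pow_left₀ (norm_nonneg _)
            ((norm_add_le _ _).trans (add_le_add_left ((hza.1 j).trans (hrρ j)) _)) 2
        simp only [Finset.sum_const, Finset.card_univ, Fintype.card_fin, nsmul_eq_mul] at this
        linarith
      have hS : 0 ≤ ∑ j, ‖a j‖ ^ 2 := by positivity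
      have h3 : (∑ j, ‖a j‖ ^ 2) / u ≤ (∑ j, ‖a j‖ ^ 2) / (1 + ∑ j, ‖z j + C‖ ^ 2) ^ 2 :=
        div_le_div_of_nonneg_left hS (by positivity) h2
      have h4 := (mul_le_mul_of_nonneg_left h3 hc.le).trans h1
      calc _ ≤ Cg * ∑ j, ‖a j‖ ^ 2 := hbd z a
        _ = Cg * u / c * (c * ((∑ j, ‖a j‖ ^ 2) / u)) := by field_simp
        _ ≤ _ := mul_le_mul_of_nonneg_left h4 (by positivity)
    · rw [Set.indicator_of_notMem hza, zero_mul]
      have h1 : (∀ j, ‖z j‖ < r j / 2) ∨ ∃ j, r j < ‖z j‖ := by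
        by_contra hcon
        push Not at hcon
        exact hza ⟨hcon.2, hcon.1⟩
      rw [dAb_chiP_eq_zero r hr h1]
      simp
  · exact ord_fin H he hene hc.le C hρ hrρ hint _
  · obtain ⟨j₀, -, hj₀⟩ := Finset.exists_min_image Finset.univ r ⟨⟨0, hn⟩, Finset.mem_univ _⟩
    have hδ' : 0 < min δ (r j₀ / 2) := lt_min hδ (half_pos (hr j₀))
    rw [← top_le_iff, ← ord_top H he hene hc.le C hδ']
    refine lintegral_mono_set fun z hz => ⟨hz.1, hz.2.trans_le (min_le_left _ _), ?_⟩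
    have h1 : ∀ j, ‖z j‖ ≤ r j / 2 := fun j => by
      have h2 : ‖z j‖ ≤ ‖z‖ := norm_le_pi_norm z j
      have h3 : ‖z‖ < r j₀ / 2 := hz.2.trans_le (min_le_right _ _)
      have h4 := hj₀ j (Finset.mem_univ j)
      linarith
    show ((chiP r z : ℝ) : ℂ) = 1
    rw [chiP_eq_one r hr h1, Complex.ofReal_one]

end Claimed.Agent.R242
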