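/-
Row 242 (S0480), package LIFT.  Bridge32: `GlobLift` + LIFT 1 (`ord_locLift`) ==> the clause `Lift32Clause` of `Loc/Clauses`.      Owner: helper71.
Everything in this file is proved (glue only).   `lift_top32 := bridge_32 (M.locReal hM x) hn mm hmm (M.GenAt x mm) (GLOBAL)`.
-/
import Claimed.Agent.R242.Lift.Ord
import Claimed.Agent.R242.Lift.BridgeT
import Claimed.Agent.R242.Loc.Rep

set_option autoImplicit false

open MeasureTheory Complex Metric
open scoped ContDiff ComplexConjugate ENNReal Topology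

namespace Claimed.Agent.R242

variable {n : ℕ} {K : Type*} [Field K] [Algebra ℂ K] {S : SecRing K}

/-- **`lift32` from the global lifting principle.** -/
theorem bridge_32 (L : LocReal S n) (hn : 1 ≤ n) (mm : ℕ) (hmm : n + 1 ≤ mm) (Gen : Prop)
    (hGL : L.GlobLift mm Gen) : Lift32Clause S n (L.chart L.x) Gen := by
  intro h D hh hD1 hD2 w hcfg
  choose r hr β hlead hdeg hsmall hmult hinit using hcfg
  have : Nonempty (Fin n) := ⟨⟨0, hn⟩⟩
  have hT : ∀ k, (L.chart L.x).T D (r k) = tay 0 (L.hol D (r k)) := fun k => L.chart_T L.x D (r k) (hr k)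
  have H : OrdCfg n h L.r₀ (fun k => L.hol D (r k)) w β :=
    { hn := hn
      hh := hh
      r0_pos := L.r₀_pos
      hol := fun k => L.hol_diff D (r k) (hr k)
      lead := fun k => by rw [← hT k]; exact hlead k
      deg := hdeg
      small := hsmall
      mult := fun k γ hγ => hmult k γ (by rw [hT k]; exact hγ)
      init := fun k γ hγ => hinit k γ (by rw [hT k]; exact hγ) }
  have hh0 : (0 : ℝ) < h := by exact_mod_cast hh
  have hk0 : (0 : ℝ) < L.k₀ := by exact_mod_cast L.hk₀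
  have hDh : (D : ℝ) / h < mm := by
    rw [div_lt_iff₀ hh0]
    have h1 : (D : ℝ) < ((n : ℝ) + 1) * h := by exact_mod_cast hD2
    have h2 : ((n : ℝ) + 1) ≤ mm := by exact_mod_cast hmm
    nlinarith
  set c : ℝ := ((mm : ℝ) - D / h) / L.k₀ with hc
  have hc0 : 0 < c := div_pos (sub_pos.2 hDh) hk0
  have hdegc : (D : ℝ) / h + c * L.k₀ = mm := by
    rw [hc]
    field_simp
    ring
  have hLL := ord_locLift H (L.hol_diff _ _ (L.σ_mem 0)) L.σ_ne hc0 (L.r₀ : ℂ)
  have hr0 : ∀ k, r k ≠ 0 := fun k hk => by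
    apply hlead k
    have h0 := (L.chart L.x).smul D 0 0 (S.R D).zero_mem
    rw [zero_smul, zero_smul] at h0
    rw [hk, h0]
    simp
  refine hGL (Fin n ⊕ Fin (n + 1)) (Sum.elim (fun _ => D) (fun _ => L.k₀)) (Sum.elim r L.btTau)
    (fun v => wtO (h : ℝ) c (fun i => v (Sum.inl i)) (fun j => v (Sum.inr j))) ?_ ?_ ?_ ?_
  · rintro (i | j)
    · exact hr i
    · exact bt_tau_mem L j
  · rintro (i | j)
    · exact hr0 i
    · exact bt_tau_ne L j
  · have := uwt_wtO (n := n) (ι := Fin n) D L.k₀ (h : ℝ) c hh0 hc0.le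
    rw [hdegc] at this
    exact this
  · have hD : {z | z ∈ ball (0 : Cn n) L.r₀ ∧ ∀ i : Fin n ⊕ Fin (n + 1),
        L.hol (Sum.elim (fun _ => D) (fun _ => L.k₀) i) (Sum.elim r L.btTau i) z ≠ 0}
        = {z | z ∈ ball (0 : Cn n) L.r₀ ∧ ∀ k, L.hol D (r k) z ≠ 0} := by
      ext z
      constructor
      · rintro ⟨h1, h2⟩
        exact ⟨h1, fun i => h2 (Sum.inl i)⟩
      · rintro ⟨h1, h2⟩
        refine ⟨h1, ?_⟩
        rintro (i | j)
        · exact h2 i
        · exact bt_tau_hol_ne L h1 j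
    rw [hD]
    have hopen : IsOpen {z | z ∈ ball (0 : Cn n) L.r₀ ∧ ∀ k, L.hol D (r k) z ≠ 0} :=
      bt_D0_isOpen fun k => (L.hol_diff D (r k) (hr k)).continuousOn
    refine bt_locLift_congr hopen (fun z hz => ?_) hLL
    show wtO (h : ℝ) c (fun k => L.hol D (r k) z) (zetaOf (L.r₀ : ℂ) (L.hol L.k₀ (L.σ 0)) z)
      = wtO (h : ℝ) c (fun k => L.hol D (r k) z) (fun j => L.hol L.k₀ (L.btTau j) z)
    congr 1
    funext j
    exact (bt_tau_hol L hz.1 j).symm

end Claimed.Agent.R242
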