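/-
Row 242 (S0480), package LIFT, part GLOBAL (architect: helper45).   Glob: THE GLOBAL LIFTING PRINCIPLE for the local realisation of a `Model`.

`lgl_globLift : (M.locReal hM x).GlobLift mm (∃ h, UnitAt x (h lam_x^mm) ∧ ∀ p, RegAt p (h jac lam_p^mm))`   (= `GlobLift mm (M.GenAt x mm)`, `GenAt` of `Lift/Top.lean`, unfolded).
Glue of `lgl_chart` (GlobC), `lgl_tame`, `LglTame.max`, `lgl_wt_bpf`, `lgl_wt_of_hwt` (GlobD) and `Model.global` (Anad/Main).
-/
import Claimed.Agent.R242.Lift.GlobD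
import Claimed.Agent.R242.Anad.LocReal

set_option autoImplicit false

open MeasureTheory Complex Metric Filter Topology MvPolynomial
open scoped ContDiff ComplexConjugate ENNReal

namespace Claimed.Agent.R242

variable {n : ℕ} {K : Type} [Field K] [Algebra ℂ K] (M : Model n K)

theorem lgl_globLift (hM : M.IsAmple) (x : M.Pt) (mm : ℕ) :
    (M.locReal hM x).GlobLift mm
      (∃ h : K, M.UnitAt x (h * M.lam x ^ mm) ∧ ∀ p, M.RegAt p (h * M.jac x p * M.lam p ^ mm)) := by
  classical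
  intro ι _ d s Φ hs hs0 hΦ hLL
  have hsec : ∀ i, M.IsSec (d i) (s i) := hs
  set E0 := M.echart x with hE0
  -- polynomials for the sections
  have hP' : ∀ i, ∃ P : MvPolynomial (Fin n ⊕ Fin E0.c) ℂ, aeval E0.gen P = s i * M.lam x ^ d i :=
    fun i => hM.sec_ring x (d i) (s i) (hsec i)
  choose P hP using hP'
  have hG : aeval E0.gen (∏ i, P i) ≠ 0 := by
    rw [map_prod]
    refine Finset.prod_ne_zero_iff.2 fun i _ => ?_
    rw [hP]
    exact mul_ne_zero (hs0 i) (pow_ne_zero _ (M.lam_ne x))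
  -- the base point free family
  obtain ⟨j₀, hbpf⟩ := hM.bpf
  obtain ⟨N, τ, hτ, hτu⟩ := hbpf (max j₀ 1) (le_max_left _ _)
  set j := max j₀ 1 with hj
  have hj1 : 1 ≤ j := le_max_right _ _
  have hT' : ∀ l, ∃ T : MvPolynomial (Fin n ⊕ Fin E0.c) ℂ, aeval E0.gen T = τ l * M.lam x ^ j :=
    fun l => hM.sec_ring x j (τ l) (hτ l)
  choose T hT using hT'
  have hTne : ∀ v : E0.pts, ∃ l, eval v.1 (T l) ≠ 0 := by
    intro v
    obtain ⟨l, hl⟩ := hτu x v.1 v.2
    refine ⟨l, ?_⟩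
    have h1 := ((E0.unitAtPt_iff v.2).1 hl).2
    rwa [← hT, E0.val_aeval v.2] at h1
  let χ0 : E0.pts → ℝ := fun v => (mm : ℝ) / j * lsq (fun l => eval v.1 (T l))
  have hχ0 : Continuous χ0 := by
    refine continuous_const.mul ?_
    unfold lsq
    refine Continuous.log ?_ fun v => ?_
    · refine continuous_finsetSum _ fun l _ => ?_
      exact (((Chart.continuous_eval (T l)).comp continuous_subtype_val).norm).pow 2
    · obtain ⟨l, hl⟩ := hTne v
      refine ne_of_gt ?_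
      refine lt_of_lt_of_le ?_ (Finset.single_le_sum (f := fun l => ‖eval v.1 (T l)‖ ^ 2)
        (fun i _ => by positivity) (Finset.mem_univ l))
      have := norm_pos_iff.2 hl
      positivity
  -- the local lifting datum in terms of the polynomials
  have hhol : ∀ i z, (M.locReal hM x).hol (d i) (s i) z = eval (E0.sect (M.basePt x) z) (P i) := by
    intro i z
    rw [M.locReal_hol_apply, ← hP]
    exact E0.val_aeval (E0.sect_mem _ z) (P i)
  simp only [hhol] at hLL
  set E := E0.localise (∏ i, P i) hG with hE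
  obtain ⟨F, hF, hint, hval⟩ := lgl_chart E0 (M.basePt x) (M.pr_basePt x) _
    (M.locReal_ball_subset_sheet hM x) hΦ P hG hLL χ0 hχ0
  -- tameness
  have hv1 : ∀ (w : E.pts) i, E.val w.1 (s i * M.lam x ^ d i)
      = eval (E0.toChart.locMap (∏ i, P i) w).1 (P i) := by
    intro w i
    rw [← hP]
    exact lgl_val_localise_aeval E0 _ hG w (P i)
  have hv2 : ∀ (w : E.pts) l, E.val w.1 (τ l * M.lam x ^ j)
      = eval (E0.toChart.locMap (∏ i, P i) w).1 (T l) := by
    intro w l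
    rw [← hT]
    exact lgl_val_localise_aeval E0 _ hG w (T l)
  have ht1 : LglTame M x E mm (fun w => Φ fun i => E.val w.1 (s i * M.lam x ^ d i)) := by
    refine lgl_tame hM x _ hG (lgl_wt_of_hwt hΦ.toHWt) s hsec fun w i => ?_
    show E.val w.1 (s i * M.lam x ^ d i) ≠ 0
    rw [hv1]
    have h1 : eval (E0.toChart.locMap (∏ i, P i) w).1 (∏ i, P i) ≠ 0 :=
      E0.toChart.eval_locPt_ne_zero _ w.2
    rw [map_prod, Finset.prod_ne_zero_iff] at h1
    exact h1 i (Finset.mem_univ i)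
  have ht2 : LglTame M x E mm
      (fun w => (mm : ℝ) / j * lsq fun l => E.val w.1 (τ l * M.lam x ^ j)) := by
    refine lgl_tame hM x _ hG (lgl_wt_bpf j hj1 mm) τ hτ fun w => ?_
    obtain ⟨l, hl⟩ := hTne (E0.toChart.locMap (∏ i, P i) w)
    refine ⟨l, ?_⟩
    show E.val w.1 (τ l * M.lam x ^ j) ≠ 0
    rw [hv2]
    exact hl
  have ht := ht1.max ht2
  simp only [hv1, hv2] at ht
  obtain ⟨⟨N₁, c₁, hc₁, hψ₁⟩, hψ₂⟩ := ht
  obtain ⟨h, hh, hglob⟩ := M.global x (∏ i, P i) hG mm F hF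
    (fun w => ENNReal.ofReal (Real.exp (- max
          (Φ fun i => eval (E0.toChart.locMap (∏ i, P i) w).1 (P i))
          (χ0 (E0.toChart.locMap (∏ i, P i) w))))) hint
    ⟨N₁, c₁, hc₁, fun w => ENNReal.ofReal_le_ofReal (hψ₁ w)⟩
    (fun p => by
      obtain ⟨r, hr, c, hc, hcmp⟩ := hψ₂ p
      exact ⟨r, hr, c, hc, fun w w' hs hw' => ENNReal.ofReal_le_ofReal (hcmp w w' hs hw')⟩)
  refine ⟨h, ?_, hglob⟩
  have hreg : E0.RegAtPt (M.basePt x).1 (h * M.lam x ^ mm) := by
    have h1 := hglob x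
    have h2 : M.jac x x = 1 := E0.jac_self
    rwa [h2, mul_one] at h1
  have h1 := hval (h * M.lam x ^ mm) hreg fun w => (hh w).2
  refine (E0.unitAtPt_iff (M.basePt x).2).2 ⟨hreg, ?_⟩
  rw [h1]
  exact one_ne_zero

end Claimed.Agent.R242
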