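/-
Row 242 (S0480), package LIFT, part GLOBAL (architect: helper45).   GlobA: the ABSTRACT lifting theorem on a Riemann domain.   No paper, no Model.

SETTING.  `p : W → Cn n` a Riemann domain with a smooth exhaustion `ρ` (hypotheses of `hormander_rd_holo`), `φ` a smooth psh weight on `W`,
`e` a SHEET of `p` (`IsSheet p e`), `e.target = D0 ⊆ ball 0 r0`, such that `{x ∈ e.source | ‖p x‖ ≤ r1}` is closed in `W` for `r1 < r0`
(in the application `W = W_x[1/g]`, `e.source` = the part of `W` over the polydisc around `x`).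
`LocLift r0 e.target (φ ∘ e.symm)` (file `Lift/Defs`) = `(g, B, r1)`.

PLAN.
 * `g̃ := rdPull p e g`, `B̃ := rdPull p e B` (indicator of `e.source` of `g ∘ p`, `B ∘ p`; file `SCV/RdSheet`).
   `A := {x ∈ e.source | ‖p x‖ ≤ r1}` closed; `g̃ = 0` on the open set `Aᶜ` (`r1 ≤ ‖z‖ → g z = 0`; in fact for `‖p x‖ > r1`).
 * `lgl_pull_contDiff`: at `x ∈ e.source`: `rdPull p e G = G ∘ p` near `x` (`e.open_source`), `rdLoc_comp`/`RdContDiffAt.congr`, `G` is `C^k` at `p x ∈ e.target` (open);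
   at `x ∉ e.source`: `x ∈ Aᶜ`, `rdPull = 0` near `x`.
 * `lgl_pull_db`: the same two cases with `rdDb_congr`, `rdDb_comp`, `rdDb_const`.
 * `lgl_hor`: `hormander_rd_holo hp ρ .. φ .. g̃ .. B̃ ..`; the pointwise inequality: in `e.source` it is the one of `LocLift` at `z = p x` (`rdLevi_eq_sheet`), outside both sides
   vanish; `∫ B̃ d(rdVolW p φ) = ∫_{e.source} .. = ∫_{e.target} ofReal (B z * exp (-φ (e.symm z)))` (`lintegral_rdVolW_ofReal`, `lintegral_sheet`, `he.apply_symm`).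
 * `lgl_L2`: `‖F‖² ≤ 2 ‖g̃ - F‖² + 2 ‖g̃‖²`, `‖g̃‖ ≤ 1`, `g̃ = 0` off `{x ∈ e.source | ‖p x‖ ≤ r1}`, `ψ ≤ e^{-φ}`.
 * `lgl_value`: if `c ≠ 1` there are `δ, r > 0` with `‖1 - F (e.symm z)‖ ≥ δ` for `z ∈ e.target`, `‖z‖ < r`.  On `T = {z ∈ e.target | ‖z‖ < r ∧ g z = 1}`:
   `∫_T ofReal (δ² exp (-φ(e.symm z))) ≤ ∫_{e.target} ofReal (‖g z - F (e.symm z)‖² exp(..)) = ∫_{e.source} .. ≤ ∫ ‖g̃ - F‖² d(rdVolW) < ⊤`, but the left side is `δ² * ⊤`.
-/
import Claimed.Agent.R242.Lift.Defs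

set_option autoImplicit false

open MeasureTheory Complex Metric Filter
open scoped ContDiff ComplexConjugate ENNReal Topology

namespace Claimed.Agent.R242

variable {n : ℕ} {W : Type*} [TopologicalSpace W] {p : W → Cn n} (hp : IsLocalHomeomorph p)
  {e : OpenPartialHomeomorph W (Cn n)} (he : IsSheet p e)

include he in
/-- pull-back through a sheet of a function which is smooth on the target and vanishes off a subset `A ⊆ e.source` closed in `W` -/
theorem lgl_pull_contDiff {F : Type*} [NormedAddCommGroup F] [NormedSpace ℝ F] {k : WithTop ℕ∞}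
    {G : Cn n → F} (hG : ContDiffOn ℝ k G e.target) {A : Set W} (hA : IsClosed A)
    (hAe : A ⊆ e.source) (h0 : ∀ x ∈ e.source, x ∉ A → G (p x) = 0) :
    RdContDiff hp k (rdPull p e G) := by
  intro x
  by_cases hx : x ∈ e.source
  · have h1 : (fun y => G (p y)) =ᶠ[𝓝 x] rdPull p e G := by
      filter_upwards [e.open_source.mem_nhds hx] with y hy
      exact (rdPull_of_mem G hy).symm
    have hpx : p x ∈ e.target := by
      rw [← he]
      exact e.map_source hx
    have h2 : RdContDiffAt hp k (fun y => G (p y)) x :=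
      (hG.contDiffAt (e.open_target.mem_nhds hpx)).congr_of_eventuallyEq (rdLoc_comp hp G x)
    exact h2.congr hp h1
  · have hxA : x ∉ A := fun h => hx (hAe h)
    have h1 : (fun _ => (0 : F)) =ᶠ[𝓝 x] rdPull p e G := by
      filter_upwards [hA.isOpen_compl.mem_nhds hxA] with y hy
      by_cases hys : y ∈ e.source
      · rw [rdPull_of_mem G hys, h0 y hys hy]
      · rw [rdPull_of_notMem G hys]
    exact (rdContDiff_const hp (0 : F) x).congr hp h1

include he in
theorem lgl_pull_db {G : Cn n → ℂ} {A : Set W} (hA : IsClosed A)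
    (hAe : A ⊆ e.source) (h0 : ∀ x ∈ e.source, x ∉ A → G (p x) = 0) (j : Fin n) (x : W) :
    rdDb hp j (rdPull p e G) x = rdPull p e (dzb j G) x := by
  by_cases hx : x ∈ e.source
  · have h1 : rdPull p e G =ᶠ[𝓝 x] fun y => G (p y) := by
      filter_upwards [e.open_source.mem_nhds hx] with y hy
      exact rdPull_of_mem G hy
    rw [rdDb_congr hp h1, rdDb_comp, rdPull_of_mem _ hx]
  · have hxA : x ∉ A := fun h => hx (hAe h)
    have h1 : rdPull p e G =ᶠ[𝓝 x] fun _ => (0 : ℂ) := by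
      filter_upwards [hA.isOpen_compl.mem_nhds hxA] with y hy
      by_cases hys : y ∈ e.source
      · rw [rdPull_of_mem G hys, h0 y hys hy]
      · rw [rdPull_of_notMem G hys]
    rw [rdDb_congr hp h1, rdDb_const, rdPull_of_notMem _ hx]

variable [T2Space W] [SecondCountableTopology W] [MeasurableSpace W] [BorelSpace W]

include he in
/-- Hörmander with the transplanted cut-off -/
theorem lgl_hor
    (ρ : W → ℝ) (hρ : RdContDiff hp ∞ ρ) (hρc : ∀ t, IsCompact {x | ρ x ≤ t})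
    (hρl : ∀ x a, ∑ j, ‖a j‖ ^ 2 ≤ rdLevi hp ρ x a)
    (φ : W → ℝ) (hφ : RdContDiff hp ∞ φ) (hφl : ∀ x a, 0 ≤ rdLevi hp φ x a)
    (g : Cn n → ℂ) (B : Cn n → ℝ) (r1 : ℝ)
    (hcl : IsClosed {x | x ∈ e.source ∧ ‖p x‖ ≤ r1})
    (hg : ContDiffOn ℝ ∞ g e.target) (hg0 : ∀ z, r1 ≤ ‖z‖ → g z = 0)
    (hB : Measurable B) (hB0 : ∀ z, 0 ≤ B z)
    (hgB : ∀ z ∈ e.target, ∀ a : Cn n,
      ‖∑ j, dzb j g z * conj (a j)‖ ^ 2 ≤ B z * levi (fun z => φ (e.symm z)) z a)
    (hBi : ∫⁻ z in e.target, ENNReal.ofReal (B z * Real.exp (-φ (e.symm z))) < ⊤) :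
    ∃ F : W → ℂ, RdHolo hp F ∧
      ∫⁻ x, ENNReal.ofReal (‖rdPull p e g x - F x‖ ^ 2 * Real.exp (-φ x)) ∂(rdVol p) < ⊤ := by
  have hAe : {x | x ∈ e.source ∧ ‖p x‖ ≤ r1} ⊆ e.source := fun x hx => hx.1
  have h0 : ∀ x ∈ e.source, x ∉ {x | x ∈ e.source ∧ ‖p x‖ ≤ r1} → g (p x) = 0 := by
    intro x hx hxA
    apply hg0
    by_contra hlt
    exact hxA ⟨hx, (not_le.1 hlt).le⟩
  have hgt : RdContDiff hp ∞ (rdPull p e g) := lgl_pull_contDiff hp he hg hcl hAe h0
  have hBm : Measurable (rdPull p e B) :=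
    (hB.comp (rd_measurable_proj hp)).indicator e.open_source.measurableSet
  have hB0' : ∀ x, 0 ≤ rdPull p e B x := by
    intro x
    by_cases hx : x ∈ e.source
    · rw [rdPull_of_mem B hx]
      exact hB0 _
    · rw [rdPull_of_notMem B hx]
  have hpt : ∀ x, ∀ a : Cn n, ‖∑ j, rdDb hp j (rdPull p e g) x * conj (a j)‖ ^ 2
      ≤ rdPull p e B x * rdLevi hp φ x a := by
    intro x a
    simp only [lgl_pull_db hp he hcl hAe h0]
    by_cases hx : x ∈ e.source
    · simp only [rdPull_of_mem _ hx]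
      rw [rdLevi_eq_sheet hp φ he hx]
      refine hgB (p x) ?_ a
      rw [← he]
      exact e.map_source hx
    · simp only [rdPull_of_notMem _ hx]
      simp
  have hφm : Measurable φ := (hφ.continuous hp).measurable
  have hBi' : ∫⁻ x, ENNReal.ofReal (rdPull p e B x) ∂(rdVolW p φ) < ⊤ := by
    rw [lintegral_rdVolW_ofReal hφm hB0']
    have e1 : (fun x => ENNReal.ofReal (rdPull p e B x * Real.exp (-φ x)))
        = e.source.indicator (fun x => ENNReal.ofReal (B (p x) * Real.exp (-φ x))) := by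
      funext x
      by_cases hx : x ∈ e.source
      · rw [Set.indicator_of_mem hx, rdPull_of_mem B hx]
      · rw [Set.indicator_of_notMem hx, rdPull_of_notMem B hx, zero_mul, ENNReal.ofReal_zero]
    rw [e1, lintegral_indicator e.open_source.measurableSet, lintegral_sheet hp he]
    refine lt_of_le_of_lt (le_of_eq ?_) hBi
    refine setLIntegral_congr_fun e.open_target.measurableSet fun z hz => ?_
    simp only [he.apply_symm hz]
  obtain ⟨F, hF, -, hle, -⟩ :=
    hormander_rd_holo hp ρ hρ hρc hρl φ hφ hφl _ hgt _ hBm hB0' hpt hBi'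
  refine ⟨F, hF, ?_⟩
  rw [← lintegral_rdVolW_ofReal hφm (g := fun x => ‖rdPull p e g x - F x‖ ^ 2)
    (fun x => by positivity)]
  exact lt_of_le_of_lt hle hBi'

include hp he in
/-- `F` is `L²` for every weight `ψ ≤ e^{-φ}` which is integrable on the part `‖p x‖ ≤ r1` of the sheet -/
theorem lgl_L2 (φ : W → ℝ) (hφ : Continuous φ) (g : Cn n → ℂ) (hg1 : ∀ z, ‖g z‖ ≤ 1) (r1 : ℝ)
    (hg0 : ∀ z, r1 ≤ ‖z‖ → g z = 0) (F : W → ℂ)
    (hF : Continuous F) (hgc : Continuous (rdPull p e g))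
    (hint : ∫⁻ x, ENNReal.ofReal (‖rdPull p e g x - F x‖ ^ 2 * Real.exp (-φ x)) ∂(rdVol p) < ⊤)
    (ψ : W → ℝ≥0∞) (hψm : Measurable ψ) (hψ : ∀ x, ψ x ≤ ENNReal.ofReal (Real.exp (-φ x)))
    (hψi : ∫⁻ x in {x | x ∈ e.source ∧ ‖p x‖ ≤ r1}, ψ x ∂(rdVol p) < ⊤) :
    ∫⁻ x, ENNReal.ofReal (‖F x‖ ^ 2) * ψ x ∂(rdVol p) < ⊤ := by
  set A : Set W := {x | x ∈ e.source ∧ ‖p x‖ ≤ r1} with hAdef
  have hAm : MeasurableSet A :=
    e.open_source.measurableSet.inter (measurableSet_le (rd_measurable_proj hp).norm measurable_const)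
  have hm : Measurable fun x =>
      2 * ENNReal.ofReal (‖rdPull p e g x - F x‖ ^ 2 * Real.exp (-φ x)) := by
    have h1 : Continuous fun x => ‖rdPull p e g x - F x‖ ^ 2 * Real.exp (-φ x) := by fun_prop
    exact (h1.measurable.ennreal_ofReal).const_mul 2
  calc ∫⁻ x, ENNReal.ofReal (‖F x‖ ^ 2) * ψ x ∂(rdVol p)
      ≤ ∫⁻ x, (2 * ENNReal.ofReal (‖rdPull p e g x - F x‖ ^ 2 * Real.exp (-φ x))
          + 2 * A.indicator ψ x) ∂(rdVol p) := by
        refine lintegral_mono fun x => ?_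
        have h1 : ‖F x‖ ^ 2 ≤ 2 * ‖rdPull p e g x - F x‖ ^ 2 + 2 * ‖rdPull p e g x‖ ^ 2 := by
          have h2 : ‖F x‖ ≤ ‖rdPull p e g x - F x‖ + ‖rdPull p e g x‖ := by
            have := norm_sub_le (rdPull p e g x) (rdPull p e g x - F x)
            rw [sub_sub_cancel] at this
            linarith
          nlinarith [sq_nonneg (‖rdPull p e g x - F x‖ - ‖rdPull p e g x‖), norm_nonneg (F x),
            norm_nonneg (rdPull p e g x - F x), norm_nonneg (rdPull p e g x)]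
        have h3 : ENNReal.ofReal (‖F x‖ ^ 2) ≤ 2 * ENNReal.ofReal (‖rdPull p e g x - F x‖ ^ 2)
            + 2 * ENNReal.ofReal (‖rdPull p e g x‖ ^ 2) := by
          refine (ENNReal.ofReal_le_ofReal h1).trans ?_
          rw [ENNReal.ofReal_add (by positivity) (by positivity),
            ENNReal.ofReal_mul (by norm_num), ENNReal.ofReal_mul (by norm_num)]
          simp
        have h4 : ENNReal.ofReal (‖rdPull p e g x‖ ^ 2) * ψ x ≤ A.indicator ψ x := by
          by_cases hxA : x ∈ A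
          · have hx : x ∈ e.source := hxA.1
            rw [Set.indicator_of_mem hxA, rdPull_of_mem g hx]
            have h5 : ENNReal.ofReal (‖g (p x)‖ ^ 2) ≤ 1 := by
              rw [← ENNReal.ofReal_one]
              refine ENNReal.ofReal_le_ofReal ?_
              exact pow_le_one₀ (norm_nonneg _) (hg1 _)
            calc ENNReal.ofReal (‖g (p x)‖ ^ 2) * ψ x ≤ 1 * ψ x := by gcongr
              _ = ψ x := one_mul _
          · rw [Set.indicator_of_notMem hxA]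
            by_cases hx : x ∈ e.source
            · have h6 : g (p x) = 0 := by
                apply hg0
                by_contra hlt
                exact hxA ⟨hx, (not_le.1 hlt).le⟩
              rw [rdPull_of_mem g hx, h6]
              simp
            · rw [rdPull_of_notMem g hx]
              simp
        calc ENNReal.ofReal (‖F x‖ ^ 2) * ψ x
            ≤ (2 * ENNReal.ofReal (‖rdPull p e g x - F x‖ ^ 2)
              + 2 * ENNReal.ofReal (‖rdPull p e g x‖ ^ 2)) * ψ x := by gcongr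
          _ = 2 * (ENNReal.ofReal (‖rdPull p e g x - F x‖ ^ 2) * ψ x)
              + 2 * (ENNReal.ofReal (‖rdPull p e g x‖ ^ 2) * ψ x) := by ring
          _ ≤ 2 * (ENNReal.ofReal (‖rdPull p e g x - F x‖ ^ 2)
                * ENNReal.ofReal (Real.exp (-φ x))) + 2 * A.indicator ψ x := by
              have := hψ x
              gcongr
          _ = _ := by rw [← ENNReal.ofReal_mul (by positivity)]
    _ = ∫⁻ x, 2 * ENNReal.ofReal (‖rdPull p e g x - F x‖ ^ 2 * Real.exp (-φ x)) ∂(rdVol p)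
        + ∫⁻ x, 2 * A.indicator ψ x ∂(rdVol p) := lintegral_add_left hm _
    _ = 2 * ∫⁻ x, ENNReal.ofReal (‖rdPull p e g x - F x‖ ^ 2 * Real.exp (-φ x)) ∂(rdVol p)
        + 2 * ∫⁻ x in A, ψ x ∂(rdVol p) := by
        rw [lintegral_const_mul' _ _ (by norm_num), lintegral_const_mul' _ _ (by norm_num),
          lintegral_indicator hAm]
    _ < ⊤ := ENNReal.add_lt_top.2
        ⟨ENNReal.mul_lt_top (by norm_num) hint, ENNReal.mul_lt_top (by norm_num) hψi⟩

include hp he in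
/-- the value of `F` at the centre is `1`
(statement corrected by helper96: `hgc` added; without measurability of `{g = 1}` the claim fails for the lower integral) -/
theorem lgl_value (φ : W → ℝ) (g : Cn n → ℂ) (hgc : ContinuousOn g e.target) (F : W → ℂ)
    (hint : ∫⁻ x, ENNReal.ofReal (‖rdPull p e g x - F x‖ ^ 2 * Real.exp (-φ x)) ∂(rdVol p) < ⊤)
    (hdiv : ∀ r : ℝ, 0 < r → ∫⁻ z in {z | z ∈ e.target ∧ ‖z‖ < r ∧ g z = 1},
      ENNReal.ofReal (Real.exp (-φ (e.symm z))) = ⊤)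
    (c : ℂ) (hc : Tendsto (fun z => F (e.symm z)) (𝓝[e.target] 0) (𝓝 c)) : c = 1 := by
  by_contra hne
  have hδ : 0 < ‖1 - c‖ / 2 := by
    have : 0 < ‖1 - c‖ := norm_pos_iff.2 (sub_ne_zero.2 (Ne.symm hne))
    linarith
  set δ := ‖1 - c‖ / 2 with hδd
  have h1 : ∀ᶠ z in 𝓝[e.target] (0 : Cn n), dist (F (e.symm z)) c < δ :=
    hc (Metric.ball_mem_nhds c hδ)
  obtain ⟨r, hr, hball⟩ := (Metric.nhdsWithin_basis_ball).eventually_iff.1 h1
  set T : Set (Cn n) := {z | z ∈ e.target ∧ ‖z‖ < r ∧ g z = 1} with hT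
  have hTm : MeasurableSet T := by
    have h2 : IsOpen (e.target ∩ g ⁻¹' {1}ᶜ) :=
      hgc.isOpen_inter_preimage e.open_target isOpen_compl_singleton
    have h3 : T = (e.target ∩ ball 0 r) \ (e.target ∩ g ⁻¹' {1}ᶜ) := by
      ext z
      simp only [hT, Set.mem_ofPred_eq, Set.mem_sdiff, Set.mem_inter_iff, mem_ball_zero_iff,
        Set.mem_preimage, Set.mem_compl_iff, Set.mem_singleton_iff, not_and, not_not]
      constructor
      · rintro ⟨a, b, c⟩
        exact ⟨⟨a, b⟩, fun _ => c⟩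
      · rintro ⟨⟨a, b⟩, c⟩
        exact ⟨a, b, c a⟩
    rw [h3]
    exact (e.open_target.inter isOpen_ball).measurableSet.diff h2.measurableSet
  have hlow : ∀ z ∈ T, δ ^ 2 * Real.exp (-φ (e.symm z))
      ≤ ‖g z - F (e.symm z)‖ ^ 2 * Real.exp (-φ (e.symm z)) := by
    intro z hz
    have h2 : dist (F (e.symm z)) c < δ := hball ⟨mem_ball_zero_iff.2 hz.2.1, hz.1⟩
    rw [dist_eq_norm] at h2
    have h3 : δ ≤ ‖g z - F (e.symm z)‖ := by
      rw [hz.2.2]
      have h4 : ‖1 - c‖ ≤ ‖1 - F (e.symm z)‖ + ‖F (e.symm z) - c‖ := by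
        have := norm_add_le (1 - F (e.symm z)) (F (e.symm z) - c)
        rwa [sub_add_sub_cancel] at this
      linarith
    have := Real.exp_pos (-φ (e.symm z))
    gcongr
  have htop : ∫⁻ z in T, ENNReal.ofReal (δ ^ 2 * Real.exp (-φ (e.symm z))) = ⊤ := by
    have e1 : ∀ z, ENNReal.ofReal (δ ^ 2 * Real.exp (-φ (e.symm z)))
        = ENNReal.ofReal (δ ^ 2) * ENNReal.ofReal (Real.exp (-φ (e.symm z))) := fun z =>
      ENNReal.ofReal_mul (by positivity)
    simp only [e1]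
    rw [lintegral_const_mul' _ _ ENNReal.ofReal_ne_top, hdiv r hr]
    exact ENNReal.mul_top (ENNReal.ofReal_pos.2 (by positivity)).ne'
  have hfin : ∫⁻ z in T, ENNReal.ofReal (δ ^ 2 * Real.exp (-φ (e.symm z))) < ⊤ := by
    calc ∫⁻ z in T, ENNReal.ofReal (δ ^ 2 * Real.exp (-φ (e.symm z)))
        ≤ ∫⁻ z in T, ENNReal.ofReal (‖g z - F (e.symm z)‖ ^ 2 * Real.exp (-φ (e.symm z))) :=
          setLIntegral_mono' hTm fun z hz => ENNReal.ofReal_le_ofReal (hlow z hz)
      _ ≤ ∫⁻ z in e.target,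
            ENNReal.ofReal (‖g z - F (e.symm z)‖ ^ 2 * Real.exp (-φ (e.symm z))) :=
          lintegral_mono_set fun z hz => hz.1
      _ = ∫⁻ z in e.target, ENNReal.ofReal
            (‖rdPull p e g (e.symm z) - F (e.symm z)‖ ^ 2 * Real.exp (-φ (e.symm z))) := by
          refine setLIntegral_congr_fun e.open_target.measurableSet fun z hz => ?_
          simp only [rdPull_of_mem g (e.map_target hz), he.apply_symm hz]
      _ = ∫⁻ x in e.source,
            ENNReal.ofReal (‖rdPull p e g x - F x‖ ^ 2 * Real.exp (-φ x)) ∂(rdVol p) :=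
          (lintegral_sheet hp he
            (fun x => ENNReal.ofReal (‖rdPull p e g x - F x‖ ^ 2 * Real.exp (-φ x)))).symm
      _ ≤ ∫⁻ x, ENNReal.ofReal (‖rdPull p e g x - F x‖ ^ 2 * Real.exp (-φ x)) ∂(rdVol p) :=
          setLIntegral_le_lintegral _ _
      _ < ⊤ := hint
  rw [htop] at hfin
  exact lt_irrefl _ hfin

include he in
/-- **The abstract lifting theorem.** -/
theorem lgl_abstract
    (ρ : W → ℝ) (hρ : RdContDiff hp ∞ ρ) (hρc : ∀ t, IsCompact {x | ρ x ≤ t})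
    (hρl : ∀ x a, ∑ j, ‖a j‖ ^ 2 ≤ rdLevi hp ρ x a)
    (φ : W → ℝ) (hφ : RdContDiff hp ∞ φ) (hφl : ∀ x a, 0 ≤ rdLevi hp φ x a)
    (r0 : ℝ) (hcl : ∀ r1 : ℝ, r1 < r0 → IsClosed {x | x ∈ e.source ∧ ‖p x‖ ≤ r1})
    (hLL : LocLift r0 e.target (fun z => φ (e.symm z))) :
    ∃ F : W → ℂ, RdHolo hp F ∧
      (∀ ψ : W → ℝ≥0∞, Measurable ψ → (∀ x, ψ x ≤ ENNReal.ofReal (Real.exp (-φ x))) →
        (∀ r1 : ℝ, r1 < r0 → ∫⁻ x in {x | x ∈ e.source ∧ ‖p x‖ ≤ r1}, ψ x ∂(rdVol p) < ⊤) →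
        ∫⁻ x, ENNReal.ofReal (‖F x‖ ^ 2) * ψ x ∂(rdVol p) < ⊤) ∧
      ∀ c : ℂ, Tendsto (fun z => F (e.symm z)) (𝓝[e.target] 0) (𝓝 c) → c = 1 := by
  obtain ⟨g, B, r1, hr1, hr10, hg, hg1, hg0, hB, hB0, hgB, hBi, hdiv⟩ := hLL
  have hA := hcl r1 hr10
  obtain ⟨F, hF, hint⟩ := lgl_hor hp he ρ hρ hρc hρl φ hφ hφl g B r1 hA hg hg0 hB hB0 hgB hBi
  have hgc : Continuous (rdPull p e g) :=
    (lgl_pull_contDiff hp he hg hA (fun x hx => hx.1) (fun x hx hxA => hg0 _ (by
      by_contra hlt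
      exact hxA ⟨hx, (not_le.1 hlt).le⟩))).continuous hp
  refine ⟨F, hF, fun ψ hψm hψ hψi => ?_, fun c hc => ?_⟩
  · exact lgl_L2 hp he φ (hφ.continuous hp) g hg1 r1 hg0 F ((hF.contDiff hp).continuous hp) hgc hint ψ hψm hψ
      (hψi r1 hr10)
  · exact lgl_value hp he φ g hg.continuousOn F hint hdiv c hc

end Claimed.Agent.R242
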