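/-
Row 242 (S0480), package LIFT, part GLOBAL (architect: helper45).   GlobB: general lemmas on Riemann domains and on `LocLift`.   No paper, no Model.

LEAVES (one per theorem; all short, Mathlib + SCV/RdGerm, RdMeas, RdSheet only):

 * `lgl_sheet_emb` (LIFT-GLOB-B1).  `r : W' → W` an open embedding over `Cn n`, `e0` a sheet of `p` whose target contains `ball 0 r0`.
   Then the part of the sheet over `D = {z ∈ ball 0 r0 | e0.symm z ∈ range r}` is (the image under `r` of) a sheet `e` of `p'`.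
   Construction: `Nonempty W'` from `hne`; `ρ := hr.toOpenPartialHomeomorph r`; `e1 := ρ.trans e0` (coe `= e0 ∘ r = p ∘ r = p'`, `he0 : ⇑e0 = p`);
   `e := (e1.symm.restrOpen (ball 0 r0) isOpen_ball).symm`;  `e.target = e1.target ∩ ball 0 r0`, `e1.target = e0.target ∩ e0.symm ⁻¹' range r`.
   `r (e.symm z) = e0.symm z`: `ρ.symm` is a right inverse of `r` on `range r`.
   For `r1 < r0`:  `{x ∈ e.source | ‖p' x‖ ≤ r1} = r ⁻¹' (e0.symm '' closedBall 0 r1)`, and `e0.symm '' closedBall 0 r1` is compact (`closedBall 0 r1 ⊆ ball 0 r0 ⊆ e0.target`,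
   `e0.continuousOn_symm`), hence closed (`T2Space W`); a continuous real function on `W` is bounded above on it (`IsCompact.exists_isMaxOn` / `bddAbove_image`;
   if `closedBall 0 r1` is empty (`r1 < 0`) everything is trivial).
 * `lgl_uwt_contDiff`, `lgl_uwt_levi` (LIFT-GLOB-B2).  `rdLoc hp (fun w => Φ fun i => ξ i w) w = fun y => Φ fun i => rdLoc hp (ξ i) w y` by `rfl`;
   `HolAt (rdLoc hp (ξ i) w) (p w)` from `RdHolo.differentiableOn_rdLoc` (open source, `hp.apply_self_mem_localInverseAt_source`); `rdLoc_apply_self`.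
 * `lgl_locLift_congr` (LIFT-GLOB-B3).  Same `g, B, r1`; `levi_congr` (the two weights agree near every point of the open set `D0`);
   integrals: `setLIntegral_congr_fun hD.measurableSet` for the first; for the second (the set need not be measurable) `lintegral_congr_ae` +
   `ae_restrict_of_ae_restrict_of_subset` from `D0` (`ae_restrict_of_forall_mem hD.measurableSet`).
 * `lgl_sheet_int` (LIFT-GLOB-B4).  `∫⁻_{A} ψ ≤ C * rdVol p A`, `A = {x ∈ e.source | ‖p x‖ ≤ r1}`; `rdVol p A ≤ ∫⁻_{e.source} 1_{closedBall}(p x) = ∫⁻_{e.target} 1_{closedBall} ≤ volume (closedBall 0 r1) < ⊤`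
   (`lintegral_sheet'`, `measure_closedBall_lt_top`), or directly `setLIntegral_mono'`-type estimates with `lintegral_sheet`.
-/
import Claimed.Agent.R242.Lift.Defs

set_option autoImplicit false

open MeasureTheory Complex Metric Filter Topology
open scoped ContDiff ComplexConjugate ENNReal Topology

namespace Claimed.Agent.R242

variable {n : ℕ}

/-- the part of a sheet which lies in an open subdomain -/
theorem lgl_sheet_emb {W W' : Type*} [TopologicalSpace W] [TopologicalSpace W'] [T2Space W]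
    {p : W → Cn n} {p' : W' → Cn n} {r : W' → W} (hr : IsOpenEmbedding r) (h : ∀ x, p (r x) = p' x)
    {e0 : OpenPartialHomeomorph W (Cn n)} (he0 : IsSheet p e0) (r0 : ℝ)
    (hball : ball (0 : Cn n) r0 ⊆ e0.target)
    (hne : ∃ z ∈ ball (0 : Cn n) r0, e0.symm z ∈ Set.range r) :
    ∃ e : OpenPartialHomeomorph W' (Cn n), IsSheet p' e ∧
      e.target = {z | z ∈ ball (0 : Cn n) r0 ∧ e0.symm z ∈ Set.range r} ∧
      (∀ z ∈ e.target, r (e.symm z) = e0.symm z) ∧
      (∀ r1 : ℝ, r1 < r0 → IsClosed {x | x ∈ e.source ∧ ‖p' x‖ ≤ r1}) ∧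
      ∀ u : W → ℝ, Continuous u → ∀ r1 : ℝ, r1 < r0 →
        ∃ C : ℝ, ∀ x ∈ e.source, ‖p' x‖ ≤ r1 → u (r x) ≤ C := by
  obtain ⟨z₁, -, x₁, -⟩ := hne
  have : Nonempty W' := ⟨x₁⟩
  set ρ : OpenPartialHomeomorph W' W := hr.toOpenPartialHomeomorph r with hρ
  have hρt : ρ.target = Set.range r := by
    rw [hρ, Topology.IsOpenEmbedding.toOpenPartialHomeomorph_target]
  have hρs : ρ.source = Set.univ := rfl
  have hρc : ∀ x, ρ x = r x := fun x => rfl
  set e1 : OpenPartialHomeomorph W' (Cn n) := ρ.trans e0 with he1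
  set e : OpenPartialHomeomorph W' (Cn n) :=
    (e1.symm.restrOpen (ball 0 r0) isOpen_ball).symm with he
  have hec : ∀ x, e x = e0 (r x) := fun x => rfl
  have hesymm : ∀ z, e.symm z = ρ.symm (e0.symm z) := fun z => rfl
  have hp' : ∀ x, e0 (r x) = p' x := fun x => by rw [he0]; exact h x
  have htar : e.target = {z | z ∈ ball (0 : Cn n) r0 ∧ e0.symm z ∈ Set.range r} := by
    have h1 : e.target = e1.target ∩ ball 0 r0 := e1.symm.restrOpen_source _ isOpen_ball
    have h2 : e1.target = e0.target ∩ e0.symm ⁻¹' ρ.target := ρ.trans_target e0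
    rw [h1, h2, hρt]
    ext z
    constructor
    · rintro ⟨⟨-, hz2⟩, hz3⟩
      exact ⟨hz3, hz2⟩
    · rintro ⟨hz3, hz2⟩
      exact ⟨⟨hball hz3, hz2⟩, hz3⟩
  have hright : ∀ z ∈ e.target, r (e.symm z) = e0.symm z := by
    intro z hz
    rw [htar] at hz
    rw [hesymm, ← hρc]
    exact ρ.right_inv (hρt ▸ hz.2)
  have hmem : ∀ r1 : ℝ, r1 < r0 → ∀ x,
      (x ∈ e.source ∧ ‖p' x‖ ≤ r1) ↔ r x ∈ e0.symm '' closedBall (0 : Cn n) r1 := by
    intro r1 hr1 x
    constructor
    · rintro ⟨hx, hn⟩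
      refine ⟨p' x, by rwa [mem_closedBall_zero_iff], ?_⟩
      have h1 : e x ∈ e.target := e.map_source hx
      have h2 := hright _ h1
      rw [e.left_inv hx, hec, hp'] at h2
      exact h2.symm
    · rintro ⟨z, hz, hzx⟩
      have hzb : z ∈ ball (0 : Cn n) r0 := closedBall_subset_ball hr1 hz
      have hzt : z ∈ e.target := by
        rw [htar]
        exact ⟨hzb, x, hzx.symm⟩
      have h1 : r (e.symm z) = r x := by rw [hright z hzt, hzx]
      have h2 : e.symm z = x := hr.injective h1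
      have h3 : p' x = z := by
        rw [← hp', ← hec, ← h2]
        exact e.right_inv hzt
      refine ⟨h2 ▸ e.map_target hzt, ?_⟩
      rw [h3]
      rwa [mem_closedBall_zero_iff] at hz
  have hcpt : ∀ r1 : ℝ, r1 < r0 → IsCompact (e0.symm '' closedBall (0 : Cn n) r1) := fun r1 hr1 =>
    (isCompact_closedBall _ _).image_of_continuousOn
      (e0.continuousOn_symm.mono ((closedBall_subset_ball hr1).trans hball))
  refine ⟨e, funext fun x => (hec x).trans (hp' x), htar, hright, fun r1 hr1 => ?_,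
    fun u hu r1 hr1 => ?_⟩
  · have : {x | x ∈ e.source ∧ ‖p' x‖ ≤ r1} = r ⁻¹' (e0.symm '' closedBall (0 : Cn n) r1) := by
      ext x
      exact hmem r1 hr1 x
    rw [this]
    exact (hcpt r1 hr1).isClosed.preimage hr.continuous
  · obtain ⟨C, hC⟩ := (hcpt r1 hr1).bddAbove_image hu.continuousOn
    exact ⟨C, fun x hx hn => hC ⟨r x, (hmem r1 hr1 x).1 ⟨hx, hn⟩, rfl⟩⟩

section uwt

variable {W : Type*} [TopologicalSpace W] {p : W → Cn n} (hp : IsLocalHomeomorph p)
  {ι : Type*} [Fintype ι] {d : ι → ℕ} {mm : ℝ} {Φ : (ι → ℂ) → ℝ}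

omit [Fintype ι] in
theorem lgl_uwt_holAt (ξ : ι → W → ℂ) (hξ : ∀ i, RdHolo hp (ξ i)) (w : W) (i : ι) :
    HolAt (rdLoc hp (ξ i) w) (p w) := by
  have h1 := (hξ i).differentiableOn_rdLoc hp w
  have ho := (hp.localInverseAt w).open_source
  filter_upwards [ho.mem_nhds hp.apply_self_mem_localInverseAt_source] with y hy
  exact h1.differentiableAt (ho.mem_nhds hy)

theorem lgl_uwt_contDiff (hΦ : UWt n d mm Φ) (ξ : ι → W → ℂ) (hξ : ∀ i, RdHolo hp (ξ i))
    (hξ0 : ∀ i w, ξ i w ≠ 0) : RdContDiff hp ∞ (fun w => Φ fun i => ξ i w) := by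
  intro w
  exact hΦ.smooth (p w) (fun i => rdLoc hp (ξ i) w) (lgl_uwt_holAt hp ξ hξ w)
    (fun i => by rw [rdLoc_apply_self]; exact hξ0 i w)

theorem lgl_uwt_levi (hΦ : UWt n d mm Φ) (ξ : ι → W → ℂ) (hξ : ∀ i, RdHolo hp (ξ i))
    (hξ0 : ∀ i w, ξ i w ≠ 0) (w : W) (a : Cn n) :
    0 ≤ rdLevi hp (fun w => Φ fun i => ξ i w) w a := by
  exact hΦ.psh (p w) (fun i => rdLoc hp (ξ i) w) (lgl_uwt_holAt hp ξ hξ w)
    (fun i => by rw [rdLoc_apply_self]; exact hξ0 i w) a

end uwt

/-- `LocLift` only depends on the weight on `D0` -/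
theorem lgl_locLift_congr {r0 : ℝ} {D0 : Set (Cn n)} (hD : IsOpen D0) {φ φ' : Cn n → ℝ}
    (h : ∀ z ∈ D0, φ z = φ' z) (hL : LocLift r0 D0 φ) : LocLift r0 D0 φ' := by
  obtain ⟨g, B, r1, h1, h2, h3, h4, h5, h6, h7, h8, h9, h10⟩ := hL
  refine ⟨g, B, r1, h1, h2, h3, h4, h5, h6, h7, ?_, ?_, ?_⟩
  · intro z hz a
    have hev : φ =ᶠ[𝓝 z] φ' := by
      filter_upwards [hD.mem_nhds hz] with y hy using h y hy
    rw [← levi_congr hev a]
    exact h8 z hz a
  · have he : ∫⁻ z in D0, ENNReal.ofReal (B z * Real.exp (-φ' z))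
        = ∫⁻ z in D0, ENNReal.ofReal (B z * Real.exp (-φ z)) :=
      setLIntegral_congr_fun hD.measurableSet (fun z hz => by simp only [h z hz])
    rw [he]
    exact h9
  · intro r hr
    rw [← h10 r hr]
    apply lintegral_congr_ae
    have hae : ∀ᵐ z ∂((volume : Measure (Cn n)).restrict D0),
        ENNReal.ofReal (Real.exp (-φ' z)) = ENNReal.ofReal (Real.exp (-φ z)) :=
      ae_restrict_of_forall_mem hD.measurableSet (fun z hz => by rw [h z hz])
    exact ae_restrict_of_ae_restrict_of_subset (fun z hz => hz.1) hae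

/-- a bounded function is integrable on the bounded part of a sheet -/
theorem lgl_sheet_int {W : Type*} [TopologicalSpace W] [SecondCountableTopology W]
    [MeasurableSpace W] [BorelSpace W] {p : W → Cn n} (hp : IsLocalHomeomorph p)
    {e : OpenPartialHomeomorph W (Cn n)} (he : IsSheet p e) (ψ : W → ℝ≥0∞) (r1 C : ℝ)
    (hψ : ∀ x ∈ e.source, ‖p x‖ ≤ r1 → ψ x ≤ ENNReal.ofReal C) :
    ∫⁻ x in {x | x ∈ e.source ∧ ‖p x‖ ≤ r1}, ψ x ∂(rdVol p) < ⊤ := by
  have hA : MeasurableSet {x | x ∈ e.source ∧ ‖p x‖ ≤ r1} := by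
    have h1 : MeasurableSet e.source := e.open_source.measurableSet
    have h2 : MeasurableSet {x | ‖p x‖ ≤ r1} :=
      (isClosed_le hp.continuous.norm continuous_const).measurableSet
    exact h1.inter h2
  have hi : Set.InjOn p {x | x ∈ e.source ∧ ‖p x‖ ≤ r1} := he.injOn.mono (fun x hx => hx.1)
  have hvol : rdVol p {x | x ∈ e.source ∧ ‖p x‖ ≤ r1} < ⊤ := by
    rw [rdVol_apply hp hA hi]
    refine lt_of_le_of_lt (measure_mono ?_) (measure_closedBall_lt_top (x := (0 : Cn n)) (r := r1))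
    rintro _ ⟨x, hx, rfl⟩
    simpa using hx.2
  calc ∫⁻ x in {x | x ∈ e.source ∧ ‖p x‖ ≤ r1}, ψ x ∂(rdVol p)
      ≤ ∫⁻ _ in {x | x ∈ e.source ∧ ‖p x‖ ≤ r1}, ENNReal.ofReal C ∂(rdVol p) :=
        setLIntegral_mono' hA (fun x hx => hψ x hx.1 hx.2)
    _ = ENNReal.ofReal C * rdVol p {x | x ∈ e.source ∧ ‖p x‖ ≤ r1} := setLIntegral_const _ _
    _ < ⊤ := ENNReal.mul_lt_top ENNReal.ofReal_lt_top hvol

end Claimed.Agent.R242
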