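/-
Row 242 (S0480), package LIFT, part GLOBAL (architect: helper45).   GlobC: the lifting theorem on a localised chart `E0[1/∏ P_i]` (no Model).

`lgl_chart`:  `E0` an embedded chart, `w₀` a point over `0`, `ball 0 r0` inside the target of the chosen sheet through `w₀`, `Φ` a universal weight,
`P i` polynomials (the sections in the frame), `LocLift` for `z ↦ Φ (P_i (sect w₀ z))` on the ball minus the zero sets.  Then there is a holomorphic `F` on
`W = E0[1/∏ P_i].pts`, `L²` for `exp (- max (Φ ∘ P, χ0))` for every continuous `χ0` on `E0.pts`, whose "value at `w₀`" is `1`.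
Glue of `lgl_abstract` (GlobA) and the lemmas of GlobB: PROVED here.
-/
import Claimed.Agent.R242.Lift.GlobA
import Claimed.Agent.R242.Lift.GlobB
import Claimed.Agent.R242.Anad.Main

set_option autoImplicit false

open MeasureTheory Complex Metric Filter Topology MvPolynomial
open scoped ContDiff ComplexConjugate ENNReal

namespace Claimed.Agent.R242

variable {n : ℕ} {K : Type} [Field K] [Algebra ℂ K] (E0 : EChart n K)

/-- values on the localised chart -/
theorem lgl_val_localise (g : MvPolynomial (Fin n ⊕ Fin E0.c) ℂ) (hg : aeval E0.gen g ≠ 0)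
    (w : (E0.localise g hg).pts) (b : K) :
    (E0.localise g hg).val w.1 b = E0.val (E0.toChart.locMap g w).1 b :=
  (E0.same_locPt g hg w.2 b).2

theorem lgl_val_localise_aeval (g : MvPolynomial (Fin n ⊕ Fin E0.c) ℂ) (hg : aeval E0.gen g ≠ 0)
    (w : (E0.localise g hg).pts) (Q : MvPolynomial (Fin n ⊕ Fin E0.c) ℂ) :
    (E0.localise g hg).val w.1 (aeval E0.gen Q) = eval (E0.toChart.locMap g w).1 Q := by
  rw [lgl_val_localise, E0.val_aeval (E0.toChart.locMap g w).2]

theorem lgl_sheet_symm_val (w₀ : E0.pts) (z : Cn n) :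
    ((rdSheet E0.isLocalHomeomorph_pr w₀).symm z).1 = E0.sect w₀ z := by
  rw [rdSheet_symm]
  rfl

theorem lgl_chart (w₀ : E0.pts) (hw₀ : E0.pr w₀ = 0) (r0 : ℝ)
    (hball : ball (0 : Cn n) r0 ⊆ (rdSheet E0.isLocalHomeomorph_pr w₀).target)
    {ι : Type*} [Fintype ι] {d : ι → ℕ} {mm : ℝ} {Φ : (ι → ℂ) → ℝ} (hΦ : UWt n d mm Φ)
    (P : ι → MvPolynomial (Fin n ⊕ Fin E0.c) ℂ) (hG : aeval E0.gen (∏ i, P i) ≠ 0)
    (hLL : LocLift r0 {z | z ∈ ball (0 : Cn n) r0 ∧ ∀ i, eval (E0.sect w₀ z) (P i) ≠ 0}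
      (fun z => Φ fun i => eval (E0.sect w₀ z) (P i)))
    (χ0 : E0.pts → ℝ) (hχ0 : Continuous χ0) :
    ∃ F : (E0.localise (∏ i, P i) hG).pts → ℂ,
      RdHolo (E0.localise (∏ i, P i) hG).isLocalHomeomorph_pr F ∧
      ∫⁻ w, ENNReal.ofReal (‖F w‖ ^ 2) * ENNReal.ofReal (Real.exp (- max
          (Φ fun i => eval (E0.toChart.locMap (∏ i, P i) w).1 (P i))
          (χ0 (E0.toChart.locMap (∏ i, P i) w))))
        ∂(rdVol (E0.localise (∏ i, P i) hG).pr) < ⊤ ∧
      ∀ b : K, E0.RegAtPt w₀.1 b → (∀ w, (E0.localise (∏ i, P i) hG).val w.1 b = F w) →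
        E0.val w₀.1 b = 1 := by
  classical
  set G := ∏ i, P i with hGdef
  set E := E0.localise G hG with hE
  have hp : IsLocalHomeomorph E.pr := E.isLocalHomeomorph_pr
  have hp0 : IsLocalHomeomorph E0.pr := E0.isLocalHomeomorph_pr
  set e0 := rdSheet E0.isLocalHomeomorph_pr w₀ with he0def
  have he0 : IsSheet E0.pr e0 := isSheet_rdSheet _ w₀
  let r : E.pts → E0.pts := E0.toChart.locMap G
  have hr : IsOpenEmbedding r := E0.toChart.isOpenEmbedding_locMap G
  have hpr : ∀ w, E0.pr (r w) = E.pr w := E0.toChart.pr_locMap G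
  have hsym : ∀ z, (e0.symm z).1 = E0.sect w₀ z := lgl_sheet_symm_val E0 w₀
  -- the domain
  have hD : {z | z ∈ ball (0 : Cn n) r0 ∧ ∀ i, eval (E0.sect w₀ z) (P i) ≠ 0}
      = {z | z ∈ ball (0 : Cn n) r0 ∧ e0.symm z ∈ Set.range r} := by
    ext z
    simp only [Set.mem_ofPred_eq]
    refine and_congr_right fun _ => ?_
    have : Set.range r = {w : E0.pts | eval w.1 G ≠ 0} := E0.toChart.range_locMap G
    rw [this, Set.mem_ofPred_eq, hsym, hGdef, map_prod, Finset.prod_ne_zero_iff]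
    simp
  rw [hD] at hLL
  have hne : ∃ z ∈ ball (0 : Cn n) r0, e0.symm z ∈ Set.range r := by
    obtain ⟨g, B, r1, -, -, -, -, -, -, -, -, -, hdiv⟩ := hLL
    by_contra hcon
    have hempty : {z | z ∈ {z | z ∈ ball (0 : Cn n) r0 ∧ e0.symm z ∈ Set.range r} ∧ ‖z‖ < 1 ∧ g z = 1}
        = ∅ := by
      ext z
      simp only [Set.mem_ofPred_eq, Set.mem_empty_iff_false, iff_false]
      rintro ⟨⟨h1, h2⟩, -⟩
      exact hcon ⟨z, h1, h2⟩
    have := hdiv 1 one_pos
    rw [hempty] at this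
    simp at this
  obtain ⟨e, he, het, hre, hcl, hbd⟩ := lgl_sheet_emb hr hpr he0 r0 hball hne
  -- the weight
  let ξ : ι → E.pts → ℂ := fun i w => eval (r w).1 (P i)
  have hξ : ∀ i, RdHolo hp (ξ i) := fun i =>
    E0.toChart.rdHolo_comp_locMap G (E0.toChart.rdHolo_eval (P i))
  have hξ0 : ∀ i w, ξ i w ≠ 0 := by
    intro i w
    have h1 : eval (r w).1 G ≠ 0 := E0.toChart.eval_locPt_ne_zero G w.2
    rw [hGdef, map_prod, Finset.prod_ne_zero_iff] at h1
    exact h1 i (Finset.mem_univ i)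
  let φ : E.pts → ℝ := fun w => Φ fun i => ξ i w
  have hφ : RdContDiff hp ∞ φ := lgl_uwt_contDiff hp hΦ ξ hξ hξ0
  have hφl : ∀ w a, 0 ≤ rdLevi hp φ w a := lgl_uwt_levi hp hΦ ξ hξ hξ0
  have hLL' : LocLift r0 e.target (fun z => φ (e.symm z)) := by
    rw [← het] at hLL
    refine lgl_locLift_congr e.open_target (fun z hz => ?_) hLL
    show (Φ fun i => eval (E0.sect w₀ z) (P i)) = Φ fun i => eval (r (e.symm z)).1 (P i)
    rw [hre z hz, hsym]
  obtain ⟨F, hF, hL2, hval⟩ := lgl_abstract hp he E.rho E.rdContDiff_rho E.isCompact_rho_le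
    E.le_rdLevi_rho φ hφ hφl r0 hcl hLL'
  refine ⟨F, hF, ?_, ?_⟩
  · refine hL2 (fun w => ENNReal.ofReal (Real.exp (- max (φ w) (χ0 (r w))))) ?_ ?_ ?_
    · have hc : Continuous fun w => Real.exp (- max (φ w) (χ0 (r w))) :=
        Real.continuous_exp.comp (((hφ.continuous hp).max (hχ0.comp hr.continuous)).neg)
      exact hc.measurable.ennreal_ofReal
    · intro w
      refine ENNReal.ofReal_le_ofReal (Real.exp_le_exp.2 ?_)
      exact neg_le_neg (le_max_left _ _)
    · intro r1 hr1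
      obtain ⟨C, hC⟩ := hbd (fun v => - χ0 v) hχ0.neg r1 hr1
      refine lgl_sheet_int hp he _ r1 (Real.exp C) fun w hw hwr => ?_
      refine ENNReal.ofReal_le_ofReal (Real.exp_le_exp.2 ?_)
      exact (neg_le_neg (le_max_right _ _)).trans (hC w hw hwr)
  · intro b hb hbF
    refine hval _ ?_
    have h1 : ContinuousAt (fun z => E0.val (E0.sect w₀ z) b) 0 := by
      have := (E0.analyticAt_val_sect w₀ hb).continuousAt
      rwa [hw₀] at this
    have h2 : E0.sect w₀ 0 = w₀.1 := by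
      have := E0.sect_self w₀
      rwa [hw₀] at this
    have h3 : Tendsto (fun z => E0.val (E0.sect w₀ z) b) (𝓝[e.target] 0) (𝓝 (E0.val w₀.1 b)) := by
      have := h1.tendsto
      rw [h2] at this
      exact this.mono_left nhdsWithin_le_nhds
    refine h3.congr' ?_
    filter_upwards [self_mem_nhdsWithin] with z hz
    rw [← hbF, lgl_val_localise]
    show _ = E0.val (r (e.symm z)).1 b
    rw [hre z hz, hsym]

end Claimed.Agent.R242
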