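/-
Row 242 (S0480), package LIFT, part GLOBAL (architect: helper45).   GlobD: TAME WEIGHTS on a localised chart of a `Model` (hypotheses (i), (ii) of `Model.global`).   No paper.

`LglWt d mm S Φ` : `Φ` is homogeneous of degree `mm` (for the weights `d`) and of logarithmic growth on a set `S` of tuples stable under `ξ_i ↦ t^(d i) ξ_i`
                   (`S = {all ξ_i ≠ 0}` for the weights `HWt` of `Lift/Defs`;  `S = {some τ_l ≠ 0}` for the base point free weight `(mm / j) log ∑ |τ_l|²`).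
`LglTame M x E mm Θ` : `exp (-Θ)` satisfies (i) [polynomial lower bound on `E.pts`] and (ii) [`≥ c |lam p / lam x|^(2 mm)` near every closed point `p`] of `Model.global`.

LEAVES (one per theorem).
 * `lgl_lam_unit` (LIFT-GLOB-D1).  `u = lam p / lam x` is a unit at every common point `w ~ w'` of the charts at `x` and `p`.
   Let `j₀` be as in `hM.bpf`, `j ≥ j₀`.  (a) `τ` with `UnitAtPt x w (τ lam_x^j)`; `τ lam_p^j ∈ ring p` (`hM.sec_ring`), so it is regular at `w'`, so at `w` (`Same`); `u^j = (τ lam_p^j) / (τ lam_x^j)`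
   is regular at `w` (`RegAtPt.div`).  (b) `τ'` with `UnitAtPt p w' (τ' lam_p^j)`, a unit at `w` too (`Same.unitAtPt_iff`); `τ' lam_x^j ∈ ring x`; `(u^j)⁻¹ = (τ' lam_x^j) / (τ' lam_p^j)` is regular at `w`.
   (c) `a`, `a⁻¹` regular at `w`, `a ≠ 0`  ⟹ `val a * val a⁻¹ = val 1 = 1` ⟹ `UnitAtPt w a` (`unitAtPt_iff`).  (d) `u = u^(j₀+1) * (u^j₀)⁻¹` (`UnitAtPt.mul`, `.inv`).
 * `lgl_lam_unit_loc`: the same on `E = (echart x)[1/g]`: `(E.same_locPt ..).symm.trans h`, `Same.unitAtPt_iff`.   (same leaf D1)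
 * `LglTame.max` (LIFT-GLOB-D2): `exp (- max a b) = min (exp (-a)) (exp (-b))`; `N = max N₁ N₂`, `c = min c₁ c₂`, `r = min r₁ r₂`  (`1 ≤ 1 + ‖w‖²`, `pow_le_pow_right₀`).
 * `lgl_tame_poly` (LIFT-GLOB-D3): `ξ_i w = eval (locPt w) (P_i)` (`lgl_val_localise_aeval`, `hM.sec_ring`), `‖locPt w‖ ≤ ‖w‖` (sup norm of a subfamily: `pi_norm_le_iff_of_nonneg`, `norm_le_pi_norm`),
   `anad_poly_norm_le` (Anad/Null):  `1 + ∑ ‖ξ_i‖² ≤ A (1 + ‖w‖²)^D`, `A ≥ 1`.  `Φ ξ ≤ C + |E| log (A (1+‖w‖²)^D)`, so `exp (-Φ ξ) ≥ e^{-C} A^{-|E|} (1+‖w‖²)^{-D |E|} ≥ c / (1+‖w‖²)^N`, `N = D * ⌈|E|⌉₊`.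
 * `lgl_tame_cmp` (LIFT-GLOB-D4): `u` unit at `w` (D1), `t := (val_w u)⁻¹ ≠ 0`.  `ξ'_i := (echart p).val w' (s_i lam_p^(d i)) = E.val w (s_i lam_p^(d i))` (`Same`) `= ξ_i w * (val_w u)^(d i)` (`val_mul`, `val_pow`;
   `s_i lam_p^d = (s_i lam_x^d) u^d`).  So `ξ w = t^d ξ'`, `ξ' = (t⁻¹)^d ξ w ∈ S` (`stable`), `Φ (ξ w) = Φ ξ' + mm log ‖t‖²` (`homog`), `Φ ξ' ≤ C + |E| log (1 + ∑ ‖ξ'_i‖²) ≤ C'` for `‖w' - base p‖ < 1`
   (`ξ'_i = eval w' P'_i`, `anad_poly_norm_le`, `‖w'‖ ≤ ‖base p‖ + 1`).  `exp (-Φ (ξ w)) ≥ e^{-C'} ‖t‖^(-2 mm) = e^{-C'} ‖val_w u‖^(2 mm)`  (`Real.exp_mul`/`Real.exp_log`, `Real.log_pow`).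
 * `lgl_wt_of_hwt`, `lgl_wt_bpf` (LIFT-GLOB-D5): elementary.
-/
import Claimed.Agent.R242.Lift.GlobC

set_option autoImplicit false

open MeasureTheory Complex Metric Filter Topology MvPolynomial
open scoped ContDiff ComplexConjugate ENNReal

namespace Claimed.Agent.R242

/-- homogeneous weight with logarithmic growth on a scaling-stable set `S` of tuples -/
structure LglWt {ι : Type*} [Fintype ι] (d : ι → ℕ) (mm : ℝ) (S : Set (ι → ℂ))
    (Φ : (ι → ℂ) → ℝ) : Prop where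
  stable : ∀ (t : ℂ) (ξ : ι → ℂ), t ≠ 0 → ξ ∈ S → (fun i => t ^ d i * ξ i) ∈ S
  homog : ∀ (t : ℂ) (ξ : ι → ℂ), t ≠ 0 → ξ ∈ S →
    Φ (fun i => t ^ d i * ξ i) = Φ ξ + mm * Real.log (‖t‖ ^ 2)
  upper : ∃ C E : ℝ, ∀ ξ ∈ S, Φ ξ ≤ C + E * Real.log (1 + ∑ i, ‖ξ i‖ ^ 2)

theorem lgl_wt_of_hwt {ι : Type*} [Fintype ι] {d : ι → ℕ} {mm : ℝ} {Φ : (ι → ℂ) → ℝ}
    (h : HWt d mm Φ) : LglWt d mm {ξ | ∀ i, ξ i ≠ 0} Φ := by
  refine ⟨fun t ξ ht hξ i => mul_ne_zero (pow_ne_zero _ ht) (hξ i), fun t ξ ht hξ => h.homog t ξ ht hξ, ?_⟩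
  obtain ⟨C, E, hCE⟩ := h.upper
  exact ⟨C, E, fun ξ hξ => hCE ξ hξ⟩

/-- the base point free weight `(mm / j) log ∑ |τ_l|²` -/
theorem lgl_wt_bpf {ι : Type*} [Fintype ι] (j : ℕ) (hj : 1 ≤ j) (mm : ℕ) :
    LglWt (fun _ : ι => j) mm {τ | ∃ l, τ l ≠ 0} (fun τ => (mm : ℝ) / j * lsq τ) := by
  have hpos : ∀ τ : ι → ℂ, (∃ l, τ l ≠ 0) → 0 < ∑ l, ‖τ l‖ ^ 2 := by
    rintro τ ⟨l, hl⟩
    have h1 : 0 < ‖τ l‖ ^ 2 := by positivity
    exact lt_of_lt_of_le h1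
      (Finset.single_le_sum (f := fun l => ‖τ l‖ ^ 2) (fun i _ => by positivity) (Finset.mem_univ l))
  have hj0 : (0 : ℝ) < j := by exact_mod_cast hj
  refine ⟨?_, ?_, ?_⟩
  · rintro t τ ht ⟨l, hl⟩
    exact ⟨l, mul_ne_zero (pow_ne_zero _ ht) hl⟩
  · intro t τ ht hτ
    have h1 : ∑ l, ‖t ^ j * τ l‖ ^ 2 = (‖t‖ ^ 2) ^ j * ∑ l, ‖τ l‖ ^ 2 := by
      rw [Finset.mul_sum]
      refine Finset.sum_congr rfl fun l _ => ?_
      rw [norm_mul, norm_pow, mul_pow, ← pow_mul, ← pow_mul, mul_comm j 2]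
    have ht0 : 0 < ‖t‖ ^ 2 := by positivity
    simp only [lsq]
    rw [h1, Real.log_mul (by positivity) (hpos τ hτ).ne', Real.log_pow]
    field_simp
    ring
  · refine ⟨0, (mm : ℝ) / j, fun τ hτ => ?_⟩
    rw [zero_add]
    refine mul_le_mul_of_nonneg_left ?_ (by positivity)
    exact Real.log_le_log (hpos τ hτ) (by linarith)

variable {n : ℕ} {K : Type} [Field K] [Algebra ℂ K] (M : Model n K)

/-- `exp (-Θ)` satisfies the hypotheses (i), (ii) of `Model.global` -/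
def LglTame (x : M.Pt) (E : EChart n K) (mm : ℕ) (Θ : E.pts → ℝ) : Prop :=
  (∃ (N : ℕ) (c : ℝ), 0 < c ∧ ∀ w : E.pts, c / (1 + ‖w.1‖ ^ 2) ^ N ≤ Real.exp (-Θ w)) ∧
  ∀ p : M.Pt, ∃ r > 0, ∃ c > 0, ∀ (w : E.pts) (w' : (M.chart p).pts),
    E.Same (M.echart p) w.1 w'.1 → ‖w'.1 - M.base p‖ < r →
    c * ‖E.val w.1 (M.lam p / M.lam x)‖ ^ (2 * mm) ≤ Real.exp (-Θ w)

variable {M}

theorem LglTame.max {x : M.Pt} {E : EChart n K} {mm : ℕ} {Θ₁ Θ₂ : E.pts → ℝ}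
    (h₁ : LglTame M x E mm Θ₁) (h₂ : LglTame M x E mm Θ₂) :
    LglTame M x E mm (fun w => max (Θ₁ w) (Θ₂ w)) := by
  obtain ⟨⟨N₁, c₁, hc₁, hi₁⟩, hii₁⟩ := h₁
  obtain ⟨⟨N₂, c₂, hc₂, hi₂⟩, hii₂⟩ := h₂
  refine ⟨⟨Nat.max N₁ N₂, min c₁ c₂, lt_min hc₁ hc₂, fun w => ?_⟩, fun p => ?_⟩
  · have h1 : (1 : ℝ) ≤ 1 + ‖w.1‖ ^ 2 := by
      have := sq_nonneg ‖w.1‖
      linarith
    rcases le_total (Θ₁ w) (Θ₂ w) with hle | hle
    · simp only [max_eq_right hle]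
      refine le_trans ?_ (hi₂ w)
      exact div_le_div₀ hc₂.le (min_le_right _ _) (by positivity)
        (pow_le_pow_right₀ h1 (le_max_right _ _))
    · simp only [max_eq_left hle]
      refine le_trans ?_ (hi₁ w)
      exact div_le_div₀ hc₁.le (min_le_left _ _) (by positivity)
        (pow_le_pow_right₀ h1 (le_max_left _ _))
  · obtain ⟨r₁, hr₁, d₁, hd₁, H₁⟩ := hii₁ p
    obtain ⟨r₂, hr₂, d₂, hd₂, H₂⟩ := hii₂ p
    refine ⟨min r₁ r₂, lt_min hr₁ hr₂, min d₁ d₂, lt_min hd₁ hd₂, fun w w' hs hn => ?_⟩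
    rcases le_total (Θ₁ w) (Θ₂ w) with hle | hle
    · simp only [max_eq_right hle]
      refine le_trans ?_ (H₂ w w' hs (lt_of_lt_of_le hn (min_le_right _ _)))
      exact mul_le_mul_of_nonneg_right (min_le_right _ _) (by positivity)
    · simp only [max_eq_left hle]
      refine le_trans ?_ (H₁ w w' hs (lt_of_lt_of_le hn (min_le_left _ _)))
      exact mul_le_mul_of_nonneg_right (min_le_left _ _) (by positivity)

/-- the transition function of `L` is a unit at the common points of two charts -/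
theorem lgl_lam_unit (hM : M.IsAmple) (x p : M.Pt) {w : Fin n ⊕ Fin (M.chart x).c → ℂ}
    {w' : Fin n ⊕ Fin (M.chart p).c → ℂ} (hw : w ∈ (M.chart x).pts) (hw' : w' ∈ (M.chart p).pts)
    (h : (M.echart x).Same (M.echart p) w w') :
    (M.echart x).UnitAtPt w (M.lam p / M.lam x) := by
  obtain ⟨j₀, hj₀⟩ := hM.bpf
  have hx0 := M.lam_ne x
  have hp0 := M.lam_ne p
  have hw₁ : w ∈ (M.echart x).pts := hw
  have hw₂ : w' ∈ (M.echart p).pts := hw'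
  have key : ∀ j, j₀ ≤ j → (M.echart x).UnitAtPt w ((M.lam p / M.lam x) ^ j) := by
    intro j hj
    obtain ⟨N, τ, hτ, hbpf⟩ := hj₀ j hj
    -- (a)
    obtain ⟨i, hi⟩ := hbpf x w hw
    have hi' : (M.echart x).UnitAtPt w (τ i * M.lam x ^ j) := hi
    have hτi : τ i ≠ 0 := left_ne_zero_of_mul (hi'.ne_zero hw₁)
    have hr1 : (M.echart x).RegAtPt w (τ i * M.lam p ^ j) :=
      (h _).1.2 ((M.echart p).regAtPt_of_mem_ring w' (hM.sec_ring p j (τ i) (hτ i)))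
    have e1 : (M.lam p / M.lam x) ^ j = (τ i * M.lam p ^ j) / (τ i * M.lam x ^ j) := by
      rw [div_pow]
      field_simp
    have hreg : (M.echart x).RegAtPt w ((M.lam p / M.lam x) ^ j) := by
      rw [e1]
      exact hr1.div hi'
    -- (b)
    obtain ⟨k, hk⟩ := hbpf p w' hw'
    have hk' : (M.echart x).UnitAtPt w (τ k * M.lam p ^ j) := (h.unitAtPt_iff hw₁ hw₂ _).2 hk
    have hτk : τ k ≠ 0 := left_ne_zero_of_mul (hk'.ne_zero hw₁)
    have hr2 : (M.echart x).RegAtPt w (τ k * M.lam x ^ j) :=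
      (M.echart x).regAtPt_of_mem_ring w (hM.sec_ring x j (τ k) (hτ k))
    have e2 : ((M.lam p / M.lam x) ^ j)⁻¹ = (τ k * M.lam x ^ j) / (τ k * M.lam p ^ j) := by
      rw [div_pow]
      field_simp
    have hreg' : (M.echart x).RegAtPt w ((M.lam p / M.lam x) ^ j)⁻¹ := by
      rw [e2]
      exact hr2.div hk'
    -- (c)
    have hne : (M.lam p / M.lam x) ^ j ≠ 0 := pow_ne_zero _ (div_ne_zero hp0 hx0)
    have hv := EChart.val_mul hw₁ hreg hreg'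
    rw [mul_inv_cancel₀ hne, (M.echart x).val_one hw₁] at hv
    exact (EChart.unitAtPt_iff hw₁).2 ⟨hreg, fun h0 => by rw [h0, zero_mul] at hv; exact one_ne_zero hv⟩
  have e : M.lam p / M.lam x = (M.lam p / M.lam x) ^ (j₀ + 1) * ((M.lam p / M.lam x) ^ j₀)⁻¹ := by
    have hne : (M.lam p / M.lam x) ^ j₀ ≠ 0 := pow_ne_zero _ (div_ne_zero hp0 hx0)
    rw [pow_succ, mul_comm _ (M.lam p / M.lam x), mul_assoc, mul_inv_cancel₀ hne, mul_one]
  rw [e]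
  exact (key _ (Nat.le_succ _)).mul (key _ le_rfl).inv

theorem lgl_lam_unit_loc (hM : M.IsAmple) (x p : M.Pt)
    (g : MvPolynomial (Fin n ⊕ Fin (M.echart x).c) ℂ) (hg : aeval (M.echart x).gen g ≠ 0)
    (w : ((M.echart x).localise g hg).pts) (w' : (M.chart p).pts)
    (h : ((M.echart x).localise g hg).Same (M.echart p) w.1 w'.1) :
    ((M.echart x).localise g hg).UnitAtPt w.1 (M.lam p / M.lam x) := by
  have hs := (M.echart x).same_locPt g hg w.2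
  have hmem : (M.echart x).toChart.locPt g w.1 ∈ (M.echart x).pts :=
    (M.echart x).toChart.locPt_mem g w.2
  exact (hs.unitAtPt_iff w.2 hmem _).2 (lgl_lam_unit hM x p hmem w'.2 (hs.symm.trans h))

/-- a finite family of polynomials has polynomial growth -/
theorem lgltd_poly_fam {σ ι : Type*} [Fintype σ] [Fintype ι] (P : ι → MvPolynomial σ ℂ) :
    ∃ (A : ℝ) (D : ℕ), 1 ≤ A ∧ ∀ w : σ → ℂ,
      1 + ∑ i, ‖eval w (P i)‖ ^ 2 ≤ A * (1 + ‖w‖ ^ 2) ^ D := by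
  choose C hC0 hC using fun i => anad_poly_norm_le (P i)
  refine ⟨1 + ∑ i, C i ^ 2, 2 * ∑ i, (P i).totalDegree, ?_, fun w => ?_⟩
  · have : 0 ≤ ∑ i, C i ^ 2 := by positivity
    linarith
  have hb : (1 : ℝ) ≤ 1 + ‖w‖ ^ 2 := by nlinarith [sq_nonneg ‖w‖]
  set T : ℝ := (1 + ‖w‖ ^ 2) ^ (2 * ∑ i, (P i).totalDegree) with hT
  have hT1 : 1 ≤ T := one_le_pow₀ hb
  have h1 : ∀ i, ‖eval w (P i)‖ ^ 2 ≤ C i ^ 2 * T := by
    intro i
    have h2 : ‖eval w (P i)‖ ≤ C i * (1 + ‖w‖ ^ 2) ^ (∑ i, (P i).totalDegree) := by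
      refine (hC i w).trans (mul_le_mul_of_nonneg_left ?_ (hC0 i).le)
      exact pow_le_pow_right₀ hb
        (Finset.single_le_sum (f := fun i => (P i).totalDegree) (fun _ _ => Nat.zero_le _)
          (Finset.mem_univ i))
    calc ‖eval w (P i)‖ ^ 2 ≤ (C i * (1 + ‖w‖ ^ 2) ^ (∑ i, (P i).totalDegree)) ^ 2 :=
          pow_le_pow_left₀ (norm_nonneg _) h2 2
      _ = C i ^ 2 * T := by rw [hT, mul_pow, ← pow_mul, mul_comm 2]
  calc 1 + ∑ i, ‖eval w (P i)‖ ^ 2 ≤ T + ∑ i, C i ^ 2 * T :=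
        add_le_add hT1 (Finset.sum_le_sum fun i _ => h1 i)
    _ = (1 + ∑ i, C i ^ 2) * T := by rw [← Finset.sum_mul]; ring

/-- the logarithmic upper bound, exponentiated -/
theorem lgltd_upper {ι : Type*} [Fintype ι] {d : ι → ℕ} {mm : ℝ} {S : Set (ι → ℂ)}
    {Φ : (ι → ℂ) → ℝ} (hΦ : LglWt d mm S Φ) :
    ∃ (C : ℝ) (k : ℕ), ∀ ξ ∈ S, ∀ T : ℝ, 1 + ∑ i, ‖ξ i‖ ^ 2 ≤ T →
      Real.exp (-C) / T ^ k ≤ Real.exp (-Φ ξ) := by
  obtain ⟨C, E, hCE⟩ := hΦ.upper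
  refine ⟨C, ⌈|E|⌉₊, fun ξ hξ T hT => ?_⟩
  have h0 : (1 : ℝ) ≤ 1 + ∑ i, ‖ξ i‖ ^ 2 := by
    have : 0 ≤ ∑ i, ‖ξ i‖ ^ 2 := by positivity
    linarith
  have hT0 : 0 < T := by linarith
  have hL0 : 0 ≤ Real.log (1 + ∑ i, ‖ξ i‖ ^ 2) := Real.log_nonneg h0
  have hLT : Real.log (1 + ∑ i, ‖ξ i‖ ^ 2) ≤ Real.log T := Real.log_le_log (by linarith) hT
  have hEk : E ≤ (⌈|E|⌉₊ : ℝ) := (le_abs_self E).trans (Nat.le_ceil _)
  have h1 : Φ ξ ≤ C + Real.log (T ^ ⌈|E|⌉₊) := by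
    rw [Real.log_pow]
    calc Φ ξ ≤ C + E * Real.log (1 + ∑ i, ‖ξ i‖ ^ 2) := hCE ξ hξ
      _ ≤ C + (⌈|E|⌉₊ : ℝ) * Real.log (1 + ∑ i, ‖ξ i‖ ^ 2) := by gcongr
      _ ≤ C + (⌈|E|⌉₊ : ℝ) * Real.log T := by gcongr
  have h2 : Real.exp (-C) / T ^ ⌈|E|⌉₊ = Real.exp (-(C + Real.log (T ^ ⌈|E|⌉₊))) := by
    rw [neg_add, ← sub_eq_add_neg, Real.exp_sub, Real.exp_log (by positivity)]
  rw [h2]
  exact Real.exp_le_exp.2 (by linarith)

section tame

variable (hM : M.IsAmple) (x : M.Pt)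
  (g : MvPolynomial (Fin n ⊕ Fin (M.echart x).c) ℂ) (hg : aeval (M.echart x).gen g ≠ 0)
  {ι : Type*} [Fintype ι] {d : ι → ℕ} {mm : ℕ} {S : Set (ι → ℂ)} {Φ : (ι → ℂ) → ℝ}

include hM in
/-- (i): polynomial lower bound -/
theorem lgl_tame_poly (hΦ : LglWt d mm S Φ) (s : ι → K) (hs : ∀ i, M.IsSec (d i) (s i))
    (hS : ∀ w : ((M.echart x).localise g hg).pts,
      (fun i => ((M.echart x).localise g hg).val w.1 (s i * M.lam x ^ d i)) ∈ S) :
    ∃ (N : ℕ) (c : ℝ), 0 < c ∧ ∀ w : ((M.echart x).localise g hg).pts,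
      c / (1 + ‖w.1‖ ^ 2) ^ N
        ≤ Real.exp (-Φ fun i => ((M.echart x).localise g hg).val w.1 (s i * M.lam x ^ d i)) := by
  have hP : ∀ i, ∃ P : MvPolynomial (Fin n ⊕ Fin (M.echart x).c) ℂ,
      aeval (M.echart x).gen P = s i * M.lam x ^ d i := fun i => hM.sec_ring x (d i) (s i) (hs i)
  choose P hP using hP
  obtain ⟨A, D, hA, hAD⟩ := lgltd_poly_fam P
  obtain ⟨C, k, hCk⟩ := lgltd_upper hΦ
  have hA0 : 0 ≤ A := by linarith
  refine ⟨D * k, Real.exp (-C) / A ^ k, by positivity, fun w => ?_⟩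
  have hval : ∀ i, ((M.echart x).localise g hg).val w.1 (s i * M.lam x ^ d i)
      = eval ((M.echart x).toChart.locMap g w).1 (P i) := by
    intro i
    rw [← hP i]
    exact lgl_val_localise_aeval (M.echart x) g hg w (P i)
  have hn : ‖((M.echart x).toChart.locMap g w).1‖ ≤ ‖w.1‖ :=
    (pi_norm_le_iff_of_nonneg (norm_nonneg _)).2 fun v => norm_le_pi_norm w.1 _
  have hb : 1 + ∑ i, ‖((M.echart x).localise g hg).val w.1 (s i * M.lam x ^ d i)‖ ^ 2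
      ≤ A * (1 + ‖w.1‖ ^ 2) ^ D := by
    simp only [hval]
    refine (hAD _).trans ?_
    gcongr
  have h1 := hCk _ (hS w) _ hb
  refine le_trans (le_of_eq ?_) h1
  rw [mul_pow, ← pow_mul, div_div]

include hM in
/-- (ii): comparison with the frame at `p` -/
theorem lgl_tame_cmp (hΦ : LglWt d mm S Φ) (s : ι → K) (hs : ∀ i, M.IsSec (d i) (s i))
    (hS : ∀ w : ((M.echart x).localise g hg).pts,
      (fun i => ((M.echart x).localise g hg).val w.1 (s i * M.lam x ^ d i)) ∈ S) (p : M.Pt) :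
    ∃ r > 0, ∃ c > 0, ∀ (w : ((M.echart x).localise g hg).pts) (w' : (M.chart p).pts),
      ((M.echart x).localise g hg).Same (M.echart p) w.1 w'.1 → ‖w'.1 - M.base p‖ < r →
      c * ‖((M.echart x).localise g hg).val w.1 (M.lam p / M.lam x)‖ ^ (2 * mm)
        ≤ Real.exp (-Φ fun i => ((M.echart x).localise g hg).val w.1 (s i * M.lam x ^ d i)) := by
  have hP : ∀ i, ∃ P : MvPolynomial (Fin n ⊕ Fin (M.chart p).c) ℂ,
      aeval (M.gen p) P = s i * M.lam p ^ d i := fun i => hM.sec_ring p (d i) (s i) (hs i)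
  choose P hP using hP
  obtain ⟨A, D, hA, hAD⟩ := lgltd_poly_fam P
  obtain ⟨C, k, hCk⟩ := lgltd_upper hΦ
  have hA0 : 0 ≤ A := by linarith
  refine ⟨1, one_pos, Real.exp (-C) / (A * (1 + (‖M.base p‖ + 1) ^ 2) ^ D) ^ k, by positivity,
    fun w w' hsame hw' => ?_⟩
  have hu : ((M.echart x).localise g hg).UnitAtPt w.1 (M.lam p / M.lam x) :=
    lgl_lam_unit_loc hM x p g hg w w' hsame
  obtain ⟨hureg, hv⟩ := (EChart.unitAtPt_iff w.2).1 hu
  have hreg : ∀ i, ((M.echart x).localise g hg).RegAtPt w.1 (s i * M.lam x ^ d i) := fun i =>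
    ((M.echart x).localise g hg).regAtPt_of_mem_ring w.1
      ((M.echart x).ring_le_localise g hg (hM.sec_ring x (d i) (s i) (hs i)))
  have hmul : ∀ i, s i * M.lam p ^ d i = (M.lam p / M.lam x) ^ d i * (s i * M.lam x ^ d i) := by
    intro i
    rw [div_pow]
    have := pow_ne_zero (d i) (M.lam_ne x)
    field_simp
  have hval : ∀ i, ((M.echart x).localise g hg).val w.1 (M.lam p / M.lam x) ^ d i
      * ((M.echart x).localise g hg).val w.1 (s i * M.lam x ^ d i) = eval w'.1 (P i) := by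
    intro i
    rw [← EChart.val_pow w.2 hureg, ← EChart.val_mul w.2 (hureg.pow _) (hreg i), ← hmul i,
      (hsame _).2, ← hP i]
    exact (M.echart p).val_aeval w'.2 (P i)
  have hmem := hΦ.stable _ _ hv (hS w)
  have hhom := hΦ.homog _ _ hv (hS w)
  have hn : ‖w'.1‖ ≤ ‖M.base p‖ + 1 := by
    have : ‖w'.1‖ ≤ ‖M.base p‖ + ‖w'.1 - M.base p‖ := by
      have := norm_add_le (M.base p) (w'.1 - M.base p)
      simpa using this
    linarith
  have hb : 1 + ∑ i, ‖((M.echart x).localise g hg).val w.1 (M.lam p / M.lam x) ^ d i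
      * ((M.echart x).localise g hg).val w.1 (s i * M.lam x ^ d i)‖ ^ 2
      ≤ A * (1 + (‖M.base p‖ + 1) ^ 2) ^ D := by
    simp only [hval]
    refine (hAD _).trans ?_
    gcongr
  have h1 := hCk _ hmem _ hb
  rw [hhom] at h1
  generalize ((M.echart x).localise g hg).val w.1 (M.lam p / M.lam x) = v at *
  generalize (Φ fun i => ((M.echart x).localise g hg).val w.1 (s i * M.lam x ^ d i)) = φ at *
  have hv0 : 0 < ‖v‖ ^ 2 := by positivity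
  have h2 : Real.exp (-φ) = Real.exp (-(φ + (mm : ℝ) * Real.log (‖v‖ ^ 2))) * ‖v‖ ^ (2 * mm) := by
    rw [pow_mul]
    nth_rewrite 2 [← Real.exp_log hv0]
    rw [← Real.exp_nat_mul, ← Real.exp_add]
    congr 1
    ring
  rw [h2]
  exact mul_le_mul_of_nonneg_right h1 (by positivity)

include hM in
theorem lgl_tame (hΦ : LglWt d mm S Φ) (s : ι → K) (hs : ∀ i, M.IsSec (d i) (s i))
    (hS : ∀ w : ((M.echart x).localise g hg).pts,
      (fun i => ((M.echart x).localise g hg).val w.1 (s i * M.lam x ^ d i)) ∈ S) :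
    LglTame M x ((M.echart x).localise g hg) mm
      (fun w => Φ fun i => ((M.echart x).localise g hg).val w.1 (s i * M.lam x ^ d i)) :=
  ⟨lgl_tame_poly hM x g hg hΦ s hs hS, lgl_tame_cmp hM x g hg hΦ s hs hS⟩

end tame

end Claimed.Agent.R242
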