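/-
R242 / Lift / Top : THE TWO FINAL STATEMENTS OF PACKAGE LIFT, exactly as `ModelMain.lean` consumes them.     Owner: helper73 (captain).
Glue only:  `lift_glob` = `lgl_globLift` (Lift/Glob, helper45),  `lift_topLT` = `bridge_LT` (Lift/BridgeT, helper62),  `lift_top32` = Lift/Bridge32 (helper71).
-/
import Claimed.Agent.R242.Anad.LocReal
import Claimed.Agent.R242.Loc.Rep
import Claimed.Agent.R242.Lift.BridgeT
import Claimed.Agent.R242.Lift.Bridge32
import Claimed.Agent.R242.Lift.Glob

set_option autoImplicit false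

namespace Claimed.Agent.R242

variable {n : ℕ} {K : Type} [Field K] [Algebra ℂ K] (M : Model n K)

/-- "`K_X + mm L` is generated at `x`" -/
def Model.GenAt (x : M.Pt) (mm : ℕ) : Prop :=
  ∃ h : K, M.UnitAt x (h * M.lam x ^ mm) ∧ ∀ p, M.RegAt p (h * M.jac x p * M.lam p ^ mm)

/-- **GLOBAL**: the global lifting principle on a model -/
theorem lift_glob (hM : M.IsAmple) (x : M.Pt) (mm : ℕ) :
    (M.locReal hM x).GlobLift mm (M.GenAt x mm) :=
  lgl_globLift M hM x mm

/-- **LIFT 1** (analytic half of Proposition 3.2) -/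
theorem lift_top32 (hM : M.IsAmple) (hn : 1 ≤ n) (x : M.Pt) (mm : ℕ) (hmm : n + 1 ≤ mm) :
    Lift32Clause (M.secRing hM) n ((M.locReal hM x).chart (M.locReal hM x).x) (M.GenAt x mm) :=
  bridge_32 (M.locReal hM x) hn mm hmm (M.GenAt x mm) (lift_glob M hM x mm)

/-- **LIFT 2** (the final lift with the tropical cut-off) -/
theorem lift_topLT (hM : M.IsAmple) (_hn : 1 ≤ n) (x : M.Pt) (mm : ℕ) (_hmm : n + 1 ≤ mm)
    (m : ℕ) (s : Fin ((M.secRing hM).N m) → K) (hs : (M.secRing hM).IsBasis m s)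
    (F : CellFam (M.locReal hM x) m s) :
    LTClause (M.locReal hM x) mm (M.GenAt x mm) m s F.data :=
  bridge_LT (M.locReal hM x) mm (M.GenAt x mm) (lift_glob M hM x mm) m s hs F

end Claimed.Agent.R242
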